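import Mathlib

/-!
P328, module AbsPoincare: Hilbert space duality.
-/

namespace Vale.Agent.Lib.P328

open Finset

/-- the range of a symmetric operator whose kernel is the constants -/
theorem absPoincare_solve {α : Type} [Fintype α] [DecidableEq α] (w : α → ℝ)
    (hw : ∀ x, 0 < w x) (T : (α → ℝ) →ₗ[ℝ] (α → ℝ))
    (hsym : ∀ F G : α → ℝ, ∑ x, w x * (G x * T F x) = ∑ x, w x * (F x * T G x))
    (hker : ∀ F : α → ℝ, (∀ x, T F x = 0) → ∀ x y, F x = F y)
    (f₀ : α → ℝ) (h0 : ∑ x, w x * f₀ x = 0) : ∃ F, T F = f₀ := by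
  by_contra hcon
  have hnot : f₀ ∉ LinearMap.range T := fun h => hcon (LinearMap.mem_range.1 h)
  obtain ⟨φ, hφ, hmap⟩ := Submodule.exists_dual_map_eq_bot_of_notMem hnot inferInstance
  have hφT : ∀ F, φ (T F) = 0 := by
    intro F
    have : φ (T F) ∈ (LinearMap.range T).map φ :=
      Submodule.mem_map_of_mem (LinearMap.mem_range_self T F)
    rw [hmap] at this
    exact (Submodule.mem_bot ℝ).1 this
  set G : α → ℝ := fun x => φ (Pi.single x 1) / w x with hG
  have hrep : ∀ g : α → ℝ, φ g = ∑ x, w x * (G x * g x) := by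
    intro g
    have h1 : g = ∑ x, g x • (Pi.single x (1 : ℝ) : α → ℝ) := by
      funext y
      simp [Finset.sum_apply, Pi.single_apply]
    conv_lhs => rw [h1]
    rw [map_sum]
    refine Finset.sum_congr rfl fun x _ => ?_
    rw [map_smul, smul_eq_mul, hG]
    have := (hw x).ne'
    field_simp
  have hTG : ∀ F : α → ℝ, ∑ x, w x * (F x * T G x) = 0 := by
    intro F
    rw [← hsym, ← hrep, hφT]
  have hTG0 : ∀ x, T G x = 0 := by
    have h2 := hTG (T G)
    have h3 := (Finset.sum_eq_zero_iff_of_nonneg (fun x _ =>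
      mul_nonneg (hw x).le (mul_self_nonneg (T G x)))).1 h2
    intro x
    have h4 := h3 x (Finset.mem_univ x)
    rcases mul_eq_zero.1 h4 with h5 | h5
    · exact absurd h5 (hw x).ne'
    · exact mul_self_eq_zero.1 h5
  have hconst := hker G hTG0
  apply hφ
  rw [hrep]
  rcases isEmpty_or_nonempty α with hα | ⟨⟨x0⟩⟩
  · simp
  · calc ∑ x, w x * (G x * f₀ x) = G x0 * ∑ x, w x * f₀ x := by
          rw [Finset.mul_sum]
          refine Finset.sum_congr rfl fun x _ => ?_
          rw [hconst x x0]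
          ring
      _ = 0 := by rw [h0, mul_zero]

theorem absPoincare_cs {β : Type} (s : Finset β) (w a b : β → ℝ) (hw : ∀ x ∈ s, 0 ≤ w x) :
    (∑ x ∈ s, w x * (a x * b x)) ^ 2 ≤ (∑ x ∈ s, w x * a x ^ 2) * ∑ x ∈ s, w x * b x ^ 2 := by
  have h := Finset.sum_mul_sq_le_sq_mul_sq s (fun x => √(w x) * a x) (fun x => √(w x) * b x)
  have e1 : ∑ x ∈ s, (√(w x) * a x) * (√(w x) * b x) = ∑ x ∈ s, w x * (a x * b x) :=
    Finset.sum_congr rfl fun x hx => by
      have := Real.mul_self_sqrt (hw x hx)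
      calc (√(w x) * a x) * (√(w x) * b x) = (√(w x) * √(w x)) * (a x * b x) := by ring
        _ = _ := by rw [this]
  have e2 : ∀ c : β → ℝ, ∑ x ∈ s, (√(w x) * c x) ^ 2 = ∑ x ∈ s, w x * c x ^ 2 := fun c =>
    Finset.sum_congr rfl fun x hx => by
      rw [mul_pow, Real.sq_sqrt (hw x hx)]
  rw [e1, e2 a, e2 b] at h
  exact h

/-- Abstract Poincaré inequality.  `L k` symmetric operators on functions on a finite set with
weight `w`; `E k` arbitrary maps with `f - E k f` having the same product with `L k F` as `f`;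
`C ∑ ...` block inequality; the kernel of `∑ L k` consists of constants.
Proof: `L = ∑ L k` is symmetric for `⟨f,g⟩ = ∑ w f g`; its range is the orthogonal complement of its
kernel (finite dimension), so for `f₀ = f - mean` (orthogonal to constants) there is `F` with
`L F = f₀`.  `V = ⟨f₀,f₀⟩ = ⟨f₀, L F⟩ = ∑_k ⟨f₀, L_k F⟩ = ∑_k ⟨f, L_k F⟩` (`⟨1, L_k F⟩ = ⟨L_k 1, F⟩`;
avoid this by applying everything to `f₀` and `hE`; or note `hone`)
`= ∑_k ⟨f - E_k f, L_k F⟩ ≤ (∑ |f - E_k f|²)^{1/2} (∑ |L_k F|²)^{1/2}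
≤ (∑ |f - E_k f|²)^{1/2} (C V)^{1/2}`. -/
theorem abs_poincare {α ι : Type} [Fintype α] [DecidableEq α] [Fintype ι] (w : α → ℝ)
    (hw : ∀ x, 0 < w x)
    (L : ι → (α → ℝ) → (α → ℝ))
    (hlin : ∀ k (a b : ℝ) (F G : α → ℝ) x, L k (fun y => a * F y + b * G y) x =
      a * L k F x + b * L k G x)
    (hsym : ∀ k (F G : α → ℝ), ∑ x, w x * (G x * L k F x) = ∑ x, w x * (F x * L k G x))
    (hone : ∀ k x, L k (fun _ => 1) x = 0)
    (hker : ∀ F : α → ℝ, (∀ x, ∑ k, L k F x = 0) → ∀ x y, F x = F y)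
    (E : ι → (α → ℝ) → (α → ℝ))
    (hE : ∀ k (f F : α → ℝ), ∑ x, w x * (E k f x * L k F x) = 0)
    {C : ℝ} (hC0 : 0 ≤ C)
    (hC : ∀ F : α → ℝ, ∑ k, ∑ x, w x * L k F x ^ 2 ≤ C * ∑ x, w x * (∑ k, L k F x) ^ 2)
    (f : α → ℝ) :
    ∑ x, w x * (f x - (∑ y, w y * f y) / ∑ y, w y) ^ 2 ≤
      C * ∑ k, ∑ x, w x * (f x - E k f x) ^ 2 := by
  classical
  have hA : 0 ≤ ∑ k, ∑ x, w x * (f x - E k f x) ^ 2 :=
    Finset.sum_nonneg fun k _ => Finset.sum_nonneg fun x _ => by
      have := (hw x).le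
      positivity
  rcases isEmpty_or_nonempty α with hα | hα
  · simp
  have hWpos : 0 < ∑ y, w y := Finset.sum_pos (fun x _ => hw x) Finset.univ_nonempty
  obtain ⟨m, hm⟩ : ∃ m, m = (∑ y, w y * f y) / ∑ y, w y := ⟨_, rfl⟩
  rw [← hm]
  have hmW : m * ∑ y, w y = ∑ y, w y * f y := by
    rw [hm]
    field_simp
  -- the operators as linear maps
  have hadd : ∀ k (F G : α → ℝ) x, L k (F + G) x = L k F x + L k G x := by
    intro k F G x
    have := hlin k 1 1 F G x
    simp only [one_mul] at this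
    exact this
  have hsmul : ∀ k (a : ℝ) (F : α → ℝ) x, L k (a • F) x = a * L k F x := by
    intro k a F x
    have := hlin k a 0 F F x
    simp only [zero_mul, add_zero] at this
    exact this
  let T : (α → ℝ) →ₗ[ℝ] (α → ℝ) :=
    { toFun := fun F x => ∑ k, L k F x
      map_add' := fun F G => by
        funext x
        simp [hadd, Finset.sum_add_distrib]
      map_smul' := fun a F => by
        funext x
        simp [hsmul, Finset.mul_sum] }
  have hT : ∀ F x, T F x = ∑ k, L k F x := fun F x => rfl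
  have hswap : ∀ F G : α → ℝ, ∑ x, w x * (G x * T F x) = ∑ k, ∑ x, w x * (G x * L k F x) := by
    intro F G
    rw [Finset.sum_comm]
    refine Finset.sum_congr rfl fun x _ => ?_
    rw [hT, Finset.mul_sum, Finset.mul_sum]
  have hTsym : ∀ F G : α → ℝ, ∑ x, w x * (G x * T F x) = ∑ x, w x * (F x * T G x) := by
    intro F G
    rw [hswap, hswap]
    exact Finset.sum_congr rfl fun k _ => hsym k F G
  have hf0 : ∑ x, w x * (f x - m) = 0 := by
    have : ∑ x, w x * (f x - m) = ∑ x, w x * f x - m * ∑ x, w x := by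
      rw [Finset.mul_sum, ← Finset.sum_sub_distrib]
      exact Finset.sum_congr rfl fun x _ => by ring
    rw [this, hmW, sub_self]
  obtain ⟨F, hF⟩ := absPoincare_solve w hw T hTsym (fun F h => hker F fun x => by
    rw [← hT]; exact h x) (fun x => f x - m) hf0
  have hFx : ∀ x, ∑ k, L k F x = f x - m := fun x => by
    rw [← hT, hF]
  obtain ⟨V, hV⟩ : ∃ V, V = ∑ x, w x * (f x - m) ^ 2 := ⟨_, rfl⟩
  obtain ⟨A, hAe⟩ : ∃ A, A = ∑ k, ∑ x, w x * (f x - E k f x) ^ 2 := ⟨_, rfl⟩
  obtain ⟨B, hB⟩ : ∃ B, B = ∑ k, ∑ x, w x * L k F x ^ 2 := ⟨_, rfl⟩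
  have hV0 : 0 ≤ V := by
    rw [hV]
    exact Finset.sum_nonneg fun x _ => by
      have := (hw x).le
      positivity
  have hBV : B ≤ C * V := by
    have := hC F
    rw [← hB] at this
    simp only [hFx] at this
    rw [← hV] at this
    exact this
  have hVeq : V = ∑ k, ∑ x, w x * ((f x - E k f x) * L k F x) := by
    have h1 : V = ∑ x, w x * ((fun x => f x - m) x * T F x) := by
      rw [hV]
      refine Finset.sum_congr rfl fun x _ => ?_
      rw [hF]
      ring
    rw [h1, hswap]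
    refine Finset.sum_congr rfl fun k _ => ?_
    have h2 : ∑ x, w x * L k F x = 0 := by
      have h3 := hsym k F (fun _ => 1)
      simp only [one_mul, hone, mul_zero, Finset.sum_const_zero] at h3
      exact h3
    have h4 := hE k f F
    calc ∑ x, w x * ((f x - m) * L k F x)
        = ∑ x, w x * (f x * L k F x) - m * ∑ x, w x * L k F x := by
          rw [Finset.mul_sum, ← Finset.sum_sub_distrib]
          exact Finset.sum_congr rfl fun x _ => by ring
      _ = ∑ x, w x * (f x * L k F x) - ∑ x, w x * (E k f x * L k F x) := by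
          rw [h2, h4, mul_zero]
      _ = ∑ x, w x * ((f x - E k f x) * L k F x) := by
          rw [← Finset.sum_sub_distrib]
          exact Finset.sum_congr rfl fun x _ => by ring
  have hCS : V ^ 2 ≤ A * B := by
    have h := absPoincare_cs (Finset.univ : Finset (ι × α)) (fun p => w p.2)
      (fun p => f p.2 - E p.1 f p.2) (fun p => L p.1 F p.2) (fun p _ => (hw p.2).le)
    simp only [Fintype.sum_prod_type] at h
    rw [← hVeq, ← hAe, ← hB] at h
    exact h
  rw [← hV, ← hAe]
  rw [← hAe] at hA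
  have h5 : V ^ 2 ≤ A * (C * V) := hCS.trans (mul_le_mul_of_nonneg_left hBV hA)
  rcases hV0.eq_or_lt with h6 | h6
  · rw [← h6]
    exact mul_nonneg hC0 hA
  · have h7 : V * V ≤ (C * A) * V := by
      calc V * V = V ^ 2 := by ring
        _ ≤ A * (C * V) := h5
        _ = (C * A) * V := by ring
    exact le_of_mul_le_mul_right h7 h6

end Vale.Agent.Lib.P328
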