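import Mathlib
import Vale.Agent.Lib.Common.PolyTime.BinDefs

/-!
P328, the algorithm (definitions only).

Everything is a function of lists of binary naturals (`Bn`) and of random bits.  Parameters
`m n o B S M T A : ℕ` are in unary.
-/

namespace Vale.Agent.Lib.P328

open Vale.Agent.Lib.Common.PolyTime

/-! ### vectors and tables -/

/-- entry of a vector -/
def vget (v : List Bn) (i : ℕ) : Bn := v.getD i ⟨0⟩

/-- entry of a table -/
def tget (X : List (List Bn)) (k l : ℕ) : Bn := vget (X.getD k []) l

/-- change one entry of a table -/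
def tset (X : List (List Bn)) (k l : ℕ) (x : Bn) : List (List Bn) :=
  X.set k ((X.getD k []).set l x)

/-- index of the first maximal entry -/
def argmaxV (v : List Bn) : ℕ :=
  (List.range v.length).foldl (fun b i => bif Bn.lt (vget v b) (vget v i) then i else b) 0

/-- the `j` consecutive pieces of length `a` of a list -/
def chunks {α : Type} (a j : ℕ) (l : List α) : List (List α) :=
  (List.range j).map fun i => (l.drop (a * i)).take a

/-! ### one step of the chain

`u` consists of six blocks of `B` random bits: row, column, column, lazy bit, position on the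
line, acceptance. -/

/-- numerator of the weight of one cell -/
def cnum (z : Bn) : Bn := Bn.mul (Bn.add z (Bn.ofNat 1)) (Bn.add z (Bn.ofNat 2))

/-- denominator of the weight of one cell -/
def cden (t z : Bn) : Bn :=
  Bn.mul (Bn.add (Bn.add z t) (Bn.ofNat 1)) (Bn.add (Bn.add z t) (Bn.ofNat 2))

/-- product of the numerators of the four cells of a minor -/
def wnum (X : List (List Bn)) (o k l l' : ℕ) : Bn :=
  Bn.mul (Bn.mul (cnum (tget X o l)) (cnum (tget X o l')))
    (Bn.mul (cnum (tget X k l)) (cnum (tget X k l')))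

/-- product of the denominators of the four cells of a minor -/
def wden (W X : List (List Bn)) (o k l l' : ℕ) : Bn :=
  Bn.mul (Bn.mul (cden (tget W o l) (tget X o l)) (cden (tget W o l') (tget X o l')))
    (Bn.mul (cden (tget W k l) (tget X k l)) (cden (tget W k l') (tget X k l')))

/-- the proposed entry `(k, l)` -/
def newKL (X : List (List Bn)) (o k l l' : ℕ) (v : List Bool) : Bn :=
  Bn.add (Bn.sub (tget X k l) (tget X o l'))
    (Bn.mod (Bn.ofBits v) (Bn.add (Bn.add (Bn.min (tget X k l) (tget X o l'))
      (Bn.min (tget X o l) (tget X k l'))) (Bn.ofNat 1)))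

/-- the table on the line through `X` with entry `a` at `(k, l)` -/
def mvTab (X : List (List Bn)) (o k l l' : ℕ) (a : Bn) : List (List Bn) :=
  tset (tset (tset (tset X
    o l (Bn.sub (Bn.add (tget X o l) (tget X k l)) a))
    o l' (Bn.sub (Bn.add (tget X o l') a) (tget X k l)))
    k l a)
    k l' (Bn.sub (Bn.add (tget X k l) (tget X k l')) a)

/-- the acceptance test -/
def accA (B : ℕ) (W X Y : List (List Bn)) (o k l l' : ℕ) (w : List Bool) : Bool :=
  Bn.lt (Bn.mul (Bn.ofBits w) (Bn.mul (wden W Y o k l l') (wnum X o k l l')))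
    (Bn.mul (Bn.pow2 B) (Bn.mul (wnum Y o k l l') (wden W X o k l l')))

/-- the Metropolis move in one minor -/
def moveA (B : ℕ) (W X : List (List Bn)) (o k l l' : ℕ) (v w : List Bool) : List (List Bn) :=
  bif accA B W X (mvTab X o k l l' (newKL X o k l l' v)) o k l l' w then
    mvTab X o k l l' (newKL X o k l l' v) else X

/-- one step, with the row and the columns given -/
def stepB (o B : ℕ) (W X : List (List Bn)) (k l l' : ℕ) (z v w : List Bool) :
    List (List Bn) :=
  if k = o then X else if l = l' then X else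
    bif z.headD false then X else moveA B W X o k l l' v w

/-- one step of the chain -/
def stepA (m n o B : ℕ) (W X : List (List Bn)) (u : List (List Bool)) : List (List Bn) :=
  stepB o B W X (modU m (u.getD 0 [])) (modU n (u.getD 1 [])) (modU n (u.getD 2 []))
    (u.getD 3 []) (u.getD 4 []) (u.getD 5 [])

/-- a run of the chain -/
def runA (m n o B : ℕ) (W X : List (List Bn)) (us : List (List (List Bool))) :
    List (List Bn) :=
  us.foldl (fun Y u => stepA m n o B W Y u) X

/-! ### windows and start table -/

/-- the scale of the windows (in unary) -/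
def QscA (m n A : ℕ) : ℕ := 1024 * (m * n) ^ 4 * (m + n) * A ^ 2

/-- window of a column -/
def TwinA (m n A : ℕ) (r c : List Bn) (o l : ℕ) : Bn :=
  Bn.div (Bn.min (vget c l) (Bn.div (vget r o) (Bn.ofNat (16 * n)))) (Bn.ofNat (QscA m n A))

/-- window of a cell -/
def tauA (m n A : ℕ) (r c : List Bn) (o k l : ℕ) : Bn :=
  bif Bn.le (vget r o) (Bn.mul (Bn.ofNat (16 * n)) (vget r k)) then
    TwinA m n A r c o l else ⟨0⟩

/-- table of the windows -/
def winA (m n A : ℕ) (r c : List Bn) (o : ℕ) : List (List Bn) :=
  (List.range m).map fun k => (List.range n).map fun l => tauA m n A r c o k l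

/-- sum of the first `i` entries -/
def pre (v : List Bn) (i : ℕ) : Bn := Bn.sum (v.take i)

/-- entry of the north-west corner table: the length of the intersection of the intervals
`[pre r k, pre r (k+1))` and `[pre c l, pre c (l+1))` -/
def nwE (r c : List Bn) (k l : ℕ) : Bn :=
  Bn.sub (Bn.add (Bn.min (pre r (k + 1)) (pre c (l + 1))) (Bn.min (pre r k) (pre c l)))
    (Bn.add (Bn.min (pre r k) (pre c (l + 1))) (Bn.min (pre r (k + 1)) (pre c l)))

/-- the north-west corner table -/
def nwA (m n : ℕ) (r c : List Bn) : List (List Bn) :=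
  (List.range m).map fun k => (List.range n).map fun l => nwE r c k l

/-! ### self reduction

A stage is `((r, c), (k, l), t)`: the probability of `X k l ≥ t` for a uniform table is
estimated. -/

/-- stages -/
abbrev Stage : Type := (List Bn × List Bn) × (ℕ × ℕ) × Bn

/-- the cell of the next reduction: the largest row different from `o`, the largest column -/
def cellA (o : ℕ) (p : List Bn × List Bn) : ℕ × ℕ := (argmaxV (p.1.set o ⟨0⟩), argmaxV p.2)

/-- minimum of the two margins -/
def minA (o : ℕ) (p : List Bn × List Bn) : Bn :=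
  Bn.min (vget (p.1.set o ⟨0⟩) (cellA o p).1) (vget p.2 (cellA o p).2)

/-- the threshold: `0` if everything is done, otherwise `max 1 (min / κ)` -/
def thrA (κ o : ℕ) (p : List Bn × List Bn) : Bn :=
  bif Bn.le (minA o p) (Bn.ofNat 0) then ⟨0⟩ else
    Bn.max (Bn.ofNat 1) (Bn.div (minA o p) (Bn.ofNat κ))

/-- the next instance -/
def nextA (κ o : ℕ) (p : List Bn × List Bn) : List Bn × List Bn :=
  (p.1.set (cellA o p).1 (Bn.sub (vget p.1 (cellA o p).1) (thrA κ o p)),
    p.2.set (cellA o p).2 (Bn.sub (vget p.2 (cellA o p).2) (thrA κ o p)))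

/-- the stage of an instance -/
def stageOf (κ o : ℕ) (p : List Bn × List Bn) : Stage := (p, cellA o p, thrA κ o p)

/-- the enlarged instance -/
def enlA (r c : List Bn) : List Bn × List Bn :=
  (r.set (argmaxV r) (Bn.add (vget r (argmaxV r)) (Bn.ofNat 2)),
    c.set (argmaxV c) (Bn.add (vget c (argmaxV c)) (Bn.ofNat 2)))

/-- stage number `s` -/
def stageA (κ : ℕ) (r c : List Bn) : ℕ → Stage
  | 0 => (enlA r c, (argmaxV r, argmaxV c), Bn.ofNat 2)
  | s + 1 => stageOf κ (argmaxV r) ((nextA κ (argmaxV r))^[s] (enlA r c))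

/-! ### the estimator -/

/-- result of one run: is the entry at least `t`? -/
def hitA (m n o B T : ℕ) (W X : List (List Bn)) (k l : ℕ) (t : Bn) (ρ : List Bool) : Bool :=
  Bn.le t (tget (runA m n o B W X ((chunks (6 * B) T ρ).map fun u => chunks B 6 u)) k l)

/-- number of successful runs in a stage; `M` runs of `T` steps -/
def cntA (m n o B T M A : ℕ) (st : Stage) (ρ : List Bool) : ℕ :=
  ((chunks (T * (6 * B)) M ρ).filter fun ρ' =>
    hitA m n o B T (winA m n A st.1.1 st.1.2 o) (nwA m n st.1.1 st.1.2) st.2.1.1 st.2.1.2 st.2.2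
      ρ').length

/-- the numbers of successful runs in the stages `0, ..., S` -/
def cntsA (S M T B A κ : ℕ) (r c : List Bn) (ρ : List Bool) : List ℕ :=
  (List.range (S + 1)).map fun s =>
    cntA r.length c.length (argmaxV r) B T M A (stageA κ r c s)
      ((ρ.drop (M * (T * (6 * B)) * s)).take (M * (T * (6 * B))))

/-- numerator and denominator of the estimate -/
def estA (S M T B A κ : ℕ) (r c : List Bn) (ρ : List Bool) : Bn × Bn :=
  (Bn.mul (Bn.ofNat ((cntsA S M T B A κ r c ρ).headD 0)) (Bn.pow (Bn.ofNat M) S),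
    Bn.mul (Bn.ofNat M) (Bn.prod ((cntsA S M T B A κ r c ρ).tail.map Bn.ofNat)))

/-- the scale of the self reduction -/
def kapA (m n : ℕ) : ℕ := 8 * (m * n) * (m + n)

/-- the algorithm with all parameters; `Λ` is the length of the input plus `4`, `a` the exponent
of the theorem `core` -/
def algA (a Λ : ℕ) (r c : List Bn) (ρ : List Bool) : Bn × Bn :=
  estA (Λ ^ 8) (Λ ^ 38) (Λ ^ (16 * a)) (40 * (a + 2) * Λ) (Λ ^ 15) (kapA r.length c.length) r c ρ

/-- the number of random bits -/
def bitsA (a Λ : ℕ) : ℕ := Λ ^ 38 * (Λ ^ (16 * a) * (6 * (40 * (a + 2) * Λ))) * (Λ ^ 8 + 1)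

end Vale.Agent.Lib.P328
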