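import Vale.Agent.Lib.P328.Defs

/-!
P328, the concrete Markov chain.

`o` is the centre row.  One step: choose a row `k`, columns `l`, `l'` uniformly; if `k = o` or
`l = l'` do nothing; otherwise, with probability `1/2` do nothing, and with probability `1/2` choose
a uniform point `Y` of the line through the present table `X` in the minor on rows `o`, `k` and
columns `l`, `l'` and move there with probability `min 1 (weight Y / weight X)`.
-/

namespace Vale.Agent.Lib.P328

open Finset

section General

variable {I J : Type} [Fintype I] [DecidableEq I] [Fintype J] [DecidableEq J]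

/-- the line through `X` in the minor `{o,k} × {l,l'}` has `lineM + 1` points -/
def lineM (X : I → J → ℕ) (o k : I) (l l' : J) : ℕ :=
  min (X k l) (X o l') + min (X o l) (X k l')

/-- point number `u` of the line, `0 ≤ u ≤ lineM`: the entry `(k,l)` becomes
`(X k l - X o l') + u` and the other three entries follow -/
def linePt (X : I → J → ℕ) (o k : I) (l l' : J) (u : ℕ) : I → J → ℕ :=
  Function.update
    (Function.update X o
      (Function.update (Function.update (X o) l (X o l + X k l - ((X k l - X o l') + u)))
        l' (X o l' + ((X k l - X o l') + u) - X k l)))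
    k (Function.update (Function.update (X k) l ((X k l - X o l') + u))
        l' (X k l + X k l' - ((X k l - X o l') + u)))

/-- acceptance probability -/
noncomputable def acc (τ : I → J → ℕ) (X Y : I → J → ℕ) : ℝ := min 1 (tw τ Y / tw τ X)

/-- the lazy Metropolis step on one minor, as an operator on functions -/
noncomputable def Pmin (τ : I → J → ℕ) (o k : I) (l l' : J) (f : (I → J → ℕ) → ℝ)
    (X : I → J → ℕ) : ℝ :=
  if k = o ∨ l = l' then f X else
    f X / 2 + (∑ u ∈ range (lineM X o k l l' + 1),
      (acc τ X (linePt X o k l l' u) * f (linePt X o k l l' u) +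
        (1 - acc τ X (linePt X o k l l' u)) * f X)) / (2 * ((lineM X o k l l' : ℝ) + 1))

/-- one step of the chain, as an operator on functions -/
noncomputable def Pop (τ : I → J → ℕ) (o : I) (f : (I → J → ℕ) → ℝ) (X : I → J → ℕ) : ℝ :=
  (∑ k, ∑ l, ∑ l', Pmin τ o k l l' f X) /
    ((Fintype.card I : ℝ) * (Fintype.card J : ℝ) ^ 2)

end General

/-! ### the weights -/

variable {m n : ℕ}

/-- the scale of the windows, for total variation distance `1 / A` -/
def Qsc (m n A : ℕ) : ℕ := 1024 * (m * n) ^ 4 * (m + n) * A ^ 2

/-- window of column `l` -/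
def Twin (A : ℕ) (r : Fin m → ℕ) (c : Fin n → ℕ) (o : Fin m) (l : Fin n) : ℕ :=
  min (c l) (r o / (16 * n)) / Qsc m n A

/-- window of the cell `(k, l)`: rows much smaller than the centre row get no window -/
def tau (A : ℕ) (r : Fin m → ℕ) (c : Fin n → ℕ) (o : Fin m) (k : Fin m) (l : Fin n) : ℕ :=
  if r o ≤ 16 * n * r k then Twin A r c o l else 0

/-- sufficient number of steps, with an absolute exponent `a` -/
def steps (a m n N A : ℕ) : ℕ := (m + n + A + Nat.size N + 2) ^ a

end Vale.Agent.Lib.P328
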