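import Mathlib
import Vale.Agent.Lib.P328.AlgDefs
import Vale.Agent.Lib.P328.ChainDefs

/-!
P328, BridgeDefs: definitions relating the lists of the algorithm to functions.
-/

namespace Vale.Agent.Lib.P328

open Vale.Agent.Lib.Common.PolyTime

/-- well formed tables -/
def WF (m n : ℕ) (X : List (List Bn)) : Prop := X.length = m ∧ ∀ x ∈ X, x.length = n

/-- the function of a vector -/
def toV (m : ℕ) (v : List Bn) : Fin m → ℕ := fun i => (vget v i).val

/-- the function of a table -/
def toT (m n : ℕ) (X : List (List Bn)) : Fin m → Fin n → ℕ := fun k l => (tget X k l).val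

end Vale.Agent.Lib.P328
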