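import Mathlib
import Vale.Agent.Lib.P328.BridgeDefs

/-!
P328, module BridgeA: vectors, tables, argmax, windows, start table.
-/

namespace Vale.Agent.Lib.P328

open Vale.Agent.Lib.Common.PolyTime

theorem vget_set (v : List Bn) {i : ℕ} (hi : i < v.length) (x : Bn) (j : ℕ) :
    vget (v.set i x) j = if j = i then x else vget v j := by
  unfold vget
  rw [List.getD_eq_getElem?_getD, List.getD_eq_getElem?_getD, List.getElem?_set]
  by_cases h : j = i
  · subst h
    simp [hi]
  · rw [if_neg h, if_neg (fun h' => h h'.symm)]

private theorem getD_set_table (X : List (List Bn)) {k : ℕ} (hk : k < X.length) (y : List Bn)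
    (k' : ℕ) : (X.set k y).getD k' [] = if k' = k then y else X.getD k' [] := by
  rw [List.getD_eq_getElem?_getD, List.getD_eq_getElem?_getD, List.getElem?_set]
  by_cases h : k' = k
  · subst h
    simp [hk]
  · rw [if_neg h, if_neg (fun h' => h h'.symm)]

private theorem WF.row {m n : ℕ} {X : List (List Bn)} (hX : WF m n X) {k : ℕ} (hk : k < m) :
    (X.getD k []).length = n := by
  obtain ⟨h1, h2⟩ := hX
  have hk' : k < X.length := by omega
  rw [List.getD_eq_getElem?_getD, List.getElem?_eq_getElem hk']
  exact h2 _ (List.getElem_mem hk')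

theorem tget_tset {m n : ℕ} {X : List (List Bn)} (hX : WF m n X) {k l : ℕ} (hk : k < m)
    (hl : l < n) (x : Bn) (k' l' : ℕ) :
    tget (tset X k l x) k' l' = if k' = k ∧ l' = l then x else tget X k' l' := by
  unfold tget tset
  have hk' : k < X.length := by rw [hX.1]; exact hk
  rw [getD_set_table X hk']
  by_cases h : k' = k
  · subst h
    rw [if_pos rfl, vget_set _ (by rw [hX.row hk]; exact hl)]
    by_cases h2 : l' = l
    · simp [h2]
    · simp [h2]
  · simp [h]

theorem WF.tset {m n : ℕ} {X : List (List Bn)} (hX : WF m n X) (k l : ℕ) (x : Bn) :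
    WF m n (tset X k l x) := by
  unfold P328.tset
  refine ⟨by rw [List.length_set]; exact hX.1, ?_⟩
  intro y hy
  by_cases hk : k < X.length
  · rcases List.mem_or_eq_of_mem_set hy with h | h
    · exact hX.2 y h
    · rw [h, List.length_set]
      exact hX.row (by rw [← hX.1]; exact hk)
  · rw [List.set_eq_of_length_le (by omega)] at hy
    exact hX.2 y hy

theorem toV_set {m : ℕ} {v : List Bn} (hv : v.length = m) (i : Fin m) (x : Bn) :
    toV m (v.set i x) = Function.update (toV m v) i x.val := by
  funext j
  unfold toV
  rw [vget_set v (by rw [hv]; exact i.2), Function.update_apply]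
  by_cases h : j = i
  · rw [if_pos h, if_pos (congrArg Fin.val h)]
  · rw [if_neg h, if_neg (fun h' => h (Fin.ext h'))]

theorem sum_toV {m : ℕ} {v : List Bn} (hv : v.length = m) :
    ∑ i, toV m v i = (v.map Bn.val).sum := by
  subst hv
  rw [← Fin.sum_univ_fun_getElem v Bn.val]
  refine Finset.sum_congr rfl fun i _ => ?_
  unfold toV vget
  rw [List.getD_eq_getElem?_getD, List.getElem?_eq_getElem i.2]
  rfl

/-! ### argmax -/

private theorem argmax_aux (v : List Bn) (n : ℕ) :
    ((List.range n).foldl (fun b i => bif Bn.lt (vget v b) (vget v i) then i else b) 0 < n ∨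
      (List.range n).foldl (fun b i => bif Bn.lt (vget v b) (vget v i) then i else b) 0 = 0) ∧
    ∀ i < n, (vget v i).val ≤
      (vget v ((List.range n).foldl
        (fun b i => bif Bn.lt (vget v b) (vget v i) then i else b) 0)).val := by
  induction n with
  | zero => exact ⟨Or.inr rfl, fun i hi => absurd hi (Nat.not_lt_zero i)⟩
  | succ n ih =>
    rw [List.range_succ, List.foldl_append]
    set b := (List.range n).foldl (fun b i => bif Bn.lt (vget v b) (vget v i) then i else b) 0
      with hb
    obtain ⟨h1, h2⟩ := ih
    show ((bif Bn.lt (vget v b) (vget v n) then n else b) < n + 1 ∨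
      (bif Bn.lt (vget v b) (vget v n) then n else b) = 0) ∧
      ∀ i < n + 1, (vget v i).val ≤
        (vget v (bif Bn.lt (vget v b) (vget v n) then n else b)).val
    by_cases h : (vget v b).val < (vget v n).val
    · have e : Bn.lt (vget v b) (vget v n) = true := decide_eq_true h
      rw [e]
      refine ⟨Or.inl (Nat.lt_succ_self n), fun i hi => ?_⟩
      show (vget v i).val ≤ (vget v n).val
      rcases Nat.lt_succ_iff_lt_or_eq.mp hi with h' | h'
      · exact le_trans (h2 i h') (le_of_lt h)
      · rw [h']
    · have e : Bn.lt (vget v b) (vget v n) = false := decide_eq_false h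
      rw [e]
      refine ⟨?_, fun i hi => ?_⟩
      · show b < n + 1 ∨ b = 0
        rcases h1 with h1 | h1
        · exact Or.inl (by omega)
        · exact Or.inr h1
      · show (vget v i).val ≤ (vget v b).val
        rcases Nat.lt_succ_iff_lt_or_eq.mp hi with h' | h'
        · exact h2 i h'
        · rw [h']; exact not_lt.mp h

theorem argmaxV_lt {v : List Bn} (hv : v ≠ []) : argmaxV v < v.length := by
  have hpos : 0 < v.length := List.length_pos_of_ne_nil hv
  rcases (argmax_aux v v.length).1 with h | h
  · exact h
  · unfold argmaxV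
    rw [h]
    exact hpos

theorem argmaxV_max (v : List Bn) (i : ℕ) (hi : i < v.length) :
    (vget v i).val ≤ (vget v (argmaxV v)).val :=
  (argmax_aux v v.length).2 i hi

/-! ### windows and start table -/

private theorem tget_table (m n : ℕ) (f : ℕ → ℕ → Bn) (k : Fin m) (l : Fin n) :
    tget ((List.range m).map fun k => (List.range n).map fun l => f k l) k l = f k l := by
  unfold tget vget
  have h1 : (k : ℕ) < ((List.range m).map fun k => (List.range n).map fun l => f k l).length := by
    rw [List.length_map, List.length_range]; exact k.2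
  have h2 : (l : ℕ) < ((List.range n).map fun l => f k l).length := by
    rw [List.length_map, List.length_range]; exact l.2
  rw [List.getD_eq_getElem _ _ h1, List.getElem_map, List.getElem_range,
    List.getD_eq_getElem _ _ h2, List.getElem_map, List.getElem_range]

private theorem WF_table (m n : ℕ) (f : ℕ → ℕ → Bn) :
    WF m n ((List.range m).map fun k => (List.range n).map fun l => f k l) := by
  refine ⟨by rw [List.length_map, List.length_range], ?_⟩
  intro x hx
  obtain ⟨k, -, rfl⟩ := List.mem_map.mp hx
  rw [List.length_map, List.length_range]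

theorem toT_winA (m n A : ℕ) (r c : List Bn) (o : Fin m) :
    toT m n (winA m n A r c o) = tau A (toV m r) (toV n c) o := by
  funext k l
  unfold toT winA
  rw [tget_table m n (fun k l => tauA m n A r c o k l) k l]
  unfold tauA tau
  have hT : (TwinA m n A r c o l).val = Twin A (toV m r) (toV n c) o l := rfl
  by_cases h : (vget r o).val ≤ 16 * n * (vget r k).val
  · have e : Bn.le (vget r o) (Bn.mul (Bn.ofNat (16 * n)) (vget r k)) = true := decide_eq_true h
    rw [e, if_pos (show toV m r o ≤ 16 * n * toV m r k from h)]
    exact hT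
  · have e : Bn.le (vget r o) (Bn.mul (Bn.ofNat (16 * n)) (vget r k)) = false :=
      decide_eq_false h
    rw [e, if_neg (show ¬ toV m r o ≤ 16 * n * toV m r k from h)]
    rfl

theorem winA_WF (m n A : ℕ) (r c : List Bn) (o : ℕ) : WF m n (winA m n A r c o) :=
  WF_table m n fun k l => tauA m n A r c o k l

private theorem pre_zero (v : List Bn) : (pre v 0).val = 0 := rfl

private theorem pre_succ (v : List Bn) (i : ℕ) (hi : i < v.length) :
    (pre v (i + 1)).val = (pre v i).val + (vget v i).val := by
  have e : v.take (i + 1) = v.take i ++ [v[i]] := by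
    rw [List.take_add_one, List.getElem?_eq_getElem hi]
    rfl
  show ((v.take (i + 1)).map Bn.val).sum = ((v.take i).map Bn.val).sum + (v.getD i ⟨0⟩).val
  rw [e, List.map_append, List.sum_append, List.getD_eq_getElem _ _ hi]
  rfl

private theorem pre_mono (v : List Bn) (i : ℕ) : (pre v i).val ≤ (pre v (i + 1)).val := by
  by_cases hi : i < v.length
  · rw [pre_succ v i hi]; exact Nat.le_add_right _ _
  · unfold pre
    rw [List.take_of_length_le (by omega), List.take_of_length_le (by omega)]

private theorem pre_le_total (v : List Bn) (i : ℕ) :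
    (pre v i).val ≤ (v.map Bn.val).sum := by
  unfold pre
  rw [Bn.sum_val]
  conv_rhs => rw [← List.take_append_drop i v, List.map_append, List.sum_append]
  exact Nat.le_add_right _ _

private theorem pre_full (v : List Bn) : (pre v v.length).val = (v.map Bn.val).sum := by
  unfold pre
  rw [List.take_length]
  rfl

private theorem nwE_val (r c : List Bn) (k l : ℕ) :
    (nwE r c k l).val =
      min (pre r (k + 1)).val (pre c (l + 1)).val + min (pre r k).val (pre c l).val -
        (min (pre r k).val (pre c (l + 1)).val + min (pre r (k + 1)).val (pre c l).val) := rfl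

private theorem nwE_symm (r c : List Bn) (k l : ℕ) : nwE r c k l = nwE c r l k := by
  apply Bn.ext
  rw [nwE_val, nwE_val, min_comm (pre r (k + 1)).val, min_comm (pre r k).val (pre c l).val,
    min_comm (pre r k).val (pre c (l + 1)).val, min_comm (pre r (k + 1)).val (pre c l).val]
  omega

private theorem nwE_sum_aux (r c : List Bn) (k : ℕ) (j : ℕ) :
    ∑ l ∈ Finset.range j, (nwE r c k l).val + min (pre r k).val (pre c j).val =
      min (pre r (k + 1)).val (pre c j).val := by
  induction j with
  | zero => simp [pre_zero]
  | succ j ih =>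
    rw [Finset.sum_range_succ, nwE_val]
    have h1 := pre_mono r k
    have h2 := pre_mono c j
    omega

private theorem nwE_row (r c : List Bn) (k : ℕ) (hk : k < r.length)
    (h : (r.map Bn.val).sum = (c.map Bn.val).sum) :
    ∑ l : Fin c.length, (nwE r c k l).val = (vget r k).val := by
  rw [Fin.sum_univ_eq_sum_range (fun l => (nwE r c k l).val) c.length]
  have h1 := nwE_sum_aux r c k c.length
  rw [pre_full] at h1
  have h2 := pre_le_total r k
  have h3 := pre_le_total r (k + 1)
  have h4 := pre_succ r k hk
  rw [h] at h2 h3
  rw [min_eq_left h2, min_eq_left h3] at h1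
  omega

private theorem mem_tab_aux {I J : Type} [Fintype I] [DecidableEq I] [Fintype J] [DecidableEq J]
    {r : I → ℕ} {c : J → ℕ} {X : I → J → ℕ} (hrow : ∀ i, ∑ l, X i l = r i)
    (hcol : ∀ l, ∑ i, X i l = c l) : X ∈ tab r c := by
  unfold tab
  rw [Finset.mem_filter]
  refine ⟨?_, hrow, hcol⟩
  rw [Fintype.mem_piFinset]
  intro k
  rw [Fintype.mem_piFinset]
  intro l
  rw [Finset.mem_range, Nat.lt_succ_iff, ← hcol l]
  exact Finset.single_le_sum (f := fun k => X k l) (fun _ _ => Nat.zero_le _) (Finset.mem_univ k)

/-- Row and column sums telescope: with `R i = pre r i`, `C j = pre c j` the entry is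
`min R_{k+1} C_{l+1} + min R_k C_l - min R_k C_{l+1} - min R_{k+1} C_l`. -/
theorem nwA_mem {m n : ℕ} {r c : List Bn} (hr : r.length = m) (hc : c.length = n)
    (h : (r.map Bn.val).sum = (c.map Bn.val).sum) :
    WF m n (nwA m n r c) ∧ toT m n (nwA m n r c) ∈ tab (toV m r) (toV n c) := by
  subst hr hc
  refine ⟨WF_table _ _ fun k l => nwE r c k l, ?_⟩
  have hT : ∀ (k : Fin r.length) (l : Fin c.length),
      toT r.length c.length (nwA r.length c.length r c) k l = (nwE r c k l).val := by
    intro k l
    unfold toT nwA
    rw [tget_table r.length c.length (fun k l => nwE r c k l) k l]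
  have hrow : ∀ k : Fin r.length,
      ∑ l, toT r.length c.length (nwA r.length c.length r c) k l = toV r.length r k := by
    intro k
    rw [← show (vget r k).val = toV r.length r k from rfl, ← nwE_row r c k k.2 h]
    exact Finset.sum_congr rfl fun l _ => hT k l
  have hcol : ∀ l : Fin c.length,
      ∑ k, toT r.length c.length (nwA r.length c.length r c) k l = toV c.length c l := by
    intro l
    rw [← show (vget c l).val = toV c.length c l from rfl, ← nwE_row c r l l.2 h.symm]
    refine Finset.sum_congr rfl fun k _ => ?_
    rw [hT k l, nwE_symm]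
  refine mem_tab_aux hrow hcol

end Vale.Agent.Lib.P328
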