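import Vale.Agent.Lib.P328.Defs

/-!
P328, module Phi: elementary facts on the ramp weights.

Formulas: `gr T (z+1) = (z+1)(z+3+T)/((z+3)(z+1+T))`, `1 - gr T (z+1) = 2T/((z+3)(z+1+T))`,
for `T ≥ 1` : `Gam T z = 2T(2z+T+3)/((z+2)(z+3)(z+T)(z+T+1))` (all `z ≥ 0`), and
`Gam 0 0 = 1`, `Gam 0 z = 0` for `z ≥ 1`.
-/

namespace Vale.Agent.Lib.P328

open Finset

theorem phi_pos (T z : ℕ) : 0 < phi T z := by
  unfold phi
  positivity

theorem phi_zero (z : ℕ) : phi 0 z = 1 := by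
  unfold phi
  have h1 : (z : ℝ) + 1 ≠ 0 := by positivity
  have h2 : (z : ℝ) + 2 ≠ 0 := by positivity
  push_cast
  rw [add_zero, add_zero]
  exact div_self (mul_ne_zero h1 h2)

theorem phi_le_one (T z : ℕ) : phi T z ≤ 1 := by
  unfold phi
  rw [div_le_one (by positivity)]
  have hT : (0 : ℝ) ≤ T := Nat.cast_nonneg T
  have hz : (0 : ℝ) ≤ z := Nat.cast_nonneg z
  apply mul_le_mul <;> linarith

theorem phi_mono (T : ℕ) : Monotone (phi T) := by
  apply monotone_nat_of_le_succ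
  intro z
  unfold phi
  have hT : (0 : ℝ) ≤ T := Nat.cast_nonneg T
  have hz : (0 : ℝ) ≤ z := Nat.cast_nonneg z
  push_cast
  rw [div_le_div_iff₀ (by positivity) (by positivity)]
  have h1 : ((z : ℝ) + 1) * (z + 1 + 1 + T) ≤ (z + 1 + 1) * (z + 1 + T) := by nlinarith
  have h2 : ((z : ℝ) + 2) * (z + 1 + 2 + T) ≤ (z + 1 + 2) * (z + 2 + T) := by nlinarith
  calc ((z : ℝ) + 1) * (z + 2) * ((z + 1 + 1 + T) * (z + 1 + 2 + T))
      = (((z : ℝ) + 1) * (z + 1 + 1 + T)) * ((z + 2) * (z + 1 + 2 + T)) := by ring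
    _ ≤ ((z + 1 + 1) * (z + 1 + T)) * ((z + 1 + 2) * (z + 2 + T)) := by
        apply mul_le_mul h1 h2 (by positivity) (by positivity)
    _ = ((z : ℝ) + 1 + 1) * (z + 1 + 2) * ((z + 1 + T) * (z + 2 + T)) := by ring

theorem gr_zero (T : ℕ) : gr T 0 = 0 := rfl

theorem gr_succ_mul (T z : ℕ) : gr T (z + 1) * phi T (z + 1) = phi T z := by
  show phi T z / phi T (z + 1) * phi T (z + 1) = phi T z
  exact div_mul_cancel₀ _ (phi_pos T (z + 1)).ne'

theorem gr_eq (T z : ℕ) : gr T (z + 1) =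
    (((z : ℝ) + 1) * ((z : ℝ) + 3 + T)) / (((z : ℝ) + 3) * ((z : ℝ) + 1 + T)) := by
  show phi T z / phi T (z + 1) = _
  unfold phi
  push_cast
  have h1 : (z : ℝ) + 1 ≠ 0 := by positivity
  have h2 : (z : ℝ) + 2 ≠ 0 := by positivity
  have h3 : (z : ℝ) + 3 ≠ 0 := by positivity
  have h4 : (z : ℝ) + 1 + T ≠ 0 := by positivity
  have h5 : (z : ℝ) + 2 + T ≠ 0 := by positivity
  have h6 : (z : ℝ) + 3 + T ≠ 0 := by positivity
  have e1 : (z : ℝ) + 1 + 1 = z + 2 := by ring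
  have e2 : (z : ℝ) + 1 + 2 = z + 3 := by ring
  rw [e1, e2]
  field_simp

theorem gr_nonneg (T z : ℕ) : 0 ≤ gr T z := by
  cases z with
  | zero => exact le_rfl
  | succ z => exact div_nonneg (phi_pos _ _).le (phi_pos _ _).le

theorem gr_le_one (T z : ℕ) : gr T z ≤ 1 := by
  cases z with
  | zero => exact zero_le_one
  | succ z => exact div_le_one_of_le₀ (phi_mono T (Nat.le_succ z)) (phi_pos _ _).le

theorem gr_mono (T : ℕ) : Monotone (gr T) := by
  apply monotone_nat_of_le_succ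
  intro z
  cases z with
  | zero => rw [gr_zero]; exact gr_nonneg _ _
  | succ z =>
    rw [gr_eq, gr_eq]
    have hT : (0 : ℝ) ≤ T := Nat.cast_nonneg T
    have hz : (0 : ℝ) ≤ z := Nat.cast_nonneg z
    push_cast
    rw [div_le_div_iff₀ (by positivity) (by positivity)]
    nlinarith [mul_nonneg hT hz, mul_nonneg hT hT, mul_nonneg (mul_nonneg hT hz) hz,
      mul_nonneg (mul_nonneg hT hT) hz]

theorem third_le_gr (T : ℕ) {z : ℕ} (hz : z ≠ 0) : 1 / 3 ≤ gr T z := by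
  obtain ⟨y, rfl⟩ := Nat.exists_eq_succ_of_ne_zero hz
  rw [Nat.succ_eq_add_one, gr_eq]
  have hT : (0 : ℝ) ≤ T := Nat.cast_nonneg T
  have hy : (0 : ℝ) ≤ y := Nat.cast_nonneg y
  rw [div_le_div_iff₀ (by positivity) (by positivity)]
  nlinarith [mul_nonneg hT hy]

theorem gr_pos (T : ℕ) {z : ℕ} (hz : z ≠ 0) : 0 < gr T z :=
  lt_of_lt_of_le (by norm_num) (third_le_gr T hz)

theorem Gam_nonneg (T z : ℕ) : 0 ≤ Gam T z := by
  unfold Gam
  have := gr_mono T (Nat.le_succ z)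
  rw [Nat.succ_eq_add_one] at this
  linarith

/-- formula for the increments, `T ≥ 1` -/
theorem Gam_eq {T : ℕ} (hT : 1 ≤ T) (z : ℕ) : Gam T z =
    (2 * (T : ℝ) * (2 * z + T + 3)) / (((z : ℝ) + 2) * (z + 3) * (z + T) * (z + T + 1)) := by
  have hT' : (1 : ℝ) ≤ T := by exact_mod_cast hT
  have hT0 : (0 : ℝ) < T := by linarith
  cases z with
  | zero =>
    unfold Gam
    rw [gr_zero, gr_eq]
    push_cast
    have h1 : (T : ℝ) ≠ 0 := hT0.ne'
    have h2 : (T : ℝ) + 1 ≠ 0 := by positivity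
    have h2' : 1 + (T : ℝ) ≠ 0 := by positivity
    simp only [zero_add]
    field_simp
    ring
  | succ z =>
    unfold Gam
    rw [gr_eq, gr_eq]
    have hz : (0 : ℝ) ≤ z := Nat.cast_nonneg z
    push_cast
    have h1 : (z : ℝ) + 1 + 3 ≠ 0 := by positivity
    have h2 : (z : ℝ) + 1 + 1 + T ≠ 0 := by positivity
    have h3 : (z : ℝ) + 3 ≠ 0 := by positivity
    have h4 : (z : ℝ) + 1 + T ≠ 0 := by positivity
    have h5 : (z : ℝ) + 1 + 2 ≠ 0 := by positivity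
    have h6 : (z : ℝ) + 1 + T + 1 ≠ 0 := by positivity
    have e1 : (z : ℝ) + 1 + 2 = z + 3 := by ring
    have e2 : (z : ℝ) + 1 + T + 1 = z + 1 + 1 + T := by ring
    rw [e1, e2]
    rw [div_sub_div _ _ (mul_ne_zero h1 h2) (mul_ne_zero h3 h4),
      div_eq_div_iff (mul_ne_zero (mul_ne_zero h1 h2) (mul_ne_zero h3 h4))
        (mul_ne_zero (mul_ne_zero (mul_ne_zero h3 h1) h4) h2)]
    ring

theorem Gam_zero_zero : Gam 0 0 = 1 := by
  unfold Gam
  rw [gr_zero, gr_eq]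
  norm_num

theorem Gam_zero_succ (z : ℕ) : Gam 0 (z + 1) = 0 := by
  unfold Gam
  rw [gr_eq, gr_eq]
  have hz : (0 : ℝ) ≤ z := Nat.cast_nonneg z
  push_cast
  have h1 : (z : ℝ) + 1 + 3 ≠ 0 := by positivity
  have h2 : (z : ℝ) + 1 + 1 ≠ 0 := by positivity
  have h3 : (z : ℝ) + 3 ≠ 0 := by positivity
  have h4 : (z : ℝ) + 1 ≠ 0 := by positivity
  simp only [add_zero]
  rw [mul_comm ((z : ℝ) + 1 + 1), mul_comm ((z : ℝ) + 1), div_self (mul_ne_zero h1 h2),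
    div_self (mul_ne_zero h3 h4), sub_self]

theorem Gam_anti (T : ℕ) : Antitone (Gam T) := by
  apply antitone_nat_of_succ_le
  intro z
  rcases Nat.eq_zero_or_pos T with rfl | hT
  · rw [Gam_zero_succ]
    exact Gam_nonneg _ _
  · rw [Gam_eq hT, Gam_eq hT]
    have hT' : (1 : ℝ) ≤ T := by exact_mod_cast hT
    have hT0 : (0 : ℝ) < T := by linarith
    have hz : (0 : ℝ) ≤ z := Nat.cast_nonneg z
    push_cast
    rw [div_le_div_iff₀ (by positivity) (by positivity)]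
    have h0 : 0 ≤ 2 * (T : ℝ) := by positivity
    have h3 : (2 * ((z : ℝ) + 1) + T + 3) * ((z + 2) * (z + T)) ≤
        (2 * (z : ℝ) + T + 3) * ((z + 1 + 3) * (z + 1 + T + 1)) := by
      nlinarith [mul_nonneg hz hT0.le, mul_nonneg hz hz]
    calc 2 * (T : ℝ) * (2 * (z + 1) + T + 3) * ((z + 2) * (z + 3) * (z + T) * (z + T + 1))
        = (2 * (T : ℝ)) * (((z + 3) * (z + T + 1)) *
            ((2 * ((z : ℝ) + 1) + T + 3) * ((z + 2) * (z + T)))) := by ring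
      _ ≤ (2 * (T : ℝ)) * (((z + 3) * (z + T + 1)) *
            ((2 * (z : ℝ) + T + 3) * ((z + 1 + 3) * (z + 1 + T + 1)))) := by
          apply mul_le_mul_of_nonneg_left _ h0
          apply mul_le_mul_of_nonneg_left h3 (by positivity)
      _ = 2 * (T : ℝ) * (2 * z + T + 3) *
            ((z + 1 + 2) * (z + 1 + 3) * (z + 1 + T) * (z + 1 + T + 1)) := by ring

theorem Gam_le (T z : ℕ) : Gam T z ≤ 6 / (((z : ℝ) + 2) * ((z : ℝ) + 3)) := by
  have hz : (0 : ℝ) ≤ z := Nat.cast_nonneg z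
  rcases Nat.eq_zero_or_pos T with rfl | hT
  · cases z with
    | zero => rw [Gam_zero_zero]; norm_num
    | succ z =>
      rw [Gam_zero_succ]
      positivity
  · rw [Gam_eq hT]
    have hT' : (1 : ℝ) ≤ T := by exact_mod_cast hT
    have hT0 : (0 : ℝ) < T := by linarith
    rw [div_le_div_iff₀ (by positivity) (by positivity)]
    have h1 : 2 * (T : ℝ) * (2 * z + T + 3) ≤ 6 * ((z + T) * (z + T + 1)) := by
      nlinarith [mul_nonneg hz hT0.le, mul_nonneg hz hz, mul_nonneg hT0.le (by linarith : (0:ℝ) ≤ T - 1)]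
    calc 2 * (T : ℝ) * (2 * z + T + 3) * ((z + 2) * (z + 3))
        ≤ 6 * ((z + T) * (z + T + 1)) * ((z + 2) * (z + 3)) := by
          apply mul_le_mul_of_nonneg_right h1 (by positivity)
      _ = 6 * ((z + 2) * (z + 3) * (z + T) * (z + T + 1)) := by ring

theorem Gam_ge {T z : ℕ} (hT : 1 ≤ T) (hz : z ≤ T) :
    1 / (3 * (((z : ℝ) + 2) * ((z : ℝ) + 3))) ≤ Gam T z := by
  rw [Gam_eq hT]
  have hz0 : (0 : ℝ) ≤ z := Nat.cast_nonneg z
  have hT' : (1 : ℝ) ≤ T := by exact_mod_cast hT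
  have hT0 : (0 : ℝ) < T := by linarith
  have hzT : (z : ℝ) ≤ T := by exact_mod_cast hz
  rw [div_le_div_iff₀ (by positivity) (by positivity)]
  have h1 : ((z : ℝ) + T) * (z + T + 1) ≤ 2 * (T : ℝ) * (2 * z + T + 3) * 3 := by
    nlinarith [mul_nonneg hz0 hT0.le, mul_nonneg hz0 (by linarith : (0 : ℝ) ≤ T - z)]
  calc 1 * (((z : ℝ) + 2) * (z + 3) * (z + T) * (z + T + 1))
      = (((z : ℝ) + 2) * (z + 3)) * ((z + T) * (z + T + 1)) := by ring
    _ ≤ (((z : ℝ) + 2) * (z + 3)) * (2 * (T : ℝ) * (2 * z + T + 3) * 3) := by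
        apply mul_le_mul_of_nonneg_left h1 (by positivity)
    _ = 2 * (T : ℝ) * (2 * z + T + 3) * (3 * ((z + 2) * (z + 3))) := by ring

theorem phi_Gam_le (T z : ℕ) :
    phi T z * Gam T z ≤ 6 / (((z : ℝ) + 1 + T) * ((z : ℝ) + 2 + T)) := by
  have h1 := Gam_le T z
  have hz : (0 : ℝ) ≤ z := Nat.cast_nonneg z
  have hT : (0 : ℝ) ≤ T := Nat.cast_nonneg T
  calc phi T z * Gam T z ≤ phi T z * (6 / (((z : ℝ) + 2) * ((z : ℝ) + 3))) :=
        mul_le_mul_of_nonneg_left h1 (phi_pos _ _).le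
    _ ≤ 6 / (((z : ℝ) + 1 + T) * ((z : ℝ) + 2 + T)) := by
        unfold phi
        rw [div_mul_div_comm, div_le_div_iff₀ (by positivity) (by positivity)]
        have h2 : ((z : ℝ) + 1) * (z + 2) ≤ (z + 2) * (z + 3) := by nlinarith
        calc ((z : ℝ) + 1) * (z + 2) * 6 * ((z + 1 + T) * (z + 2 + T))
            = 6 * ((z + 1 + T) * (z + 2 + T)) * (((z : ℝ) + 1) * (z + 2)) := by ring
          _ ≤ 6 * ((z + 1 + T) * (z + 2 + T)) * ((z + 2) * (z + 3)) :=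
              mul_le_mul_of_nonneg_left h2 (by positivity)
          _ = 6 * ((z + 1 + T) * (z + 2 + T) * ((z + 2) * (z + 3))) := by ring

/-- `phi T a / phi T b ≥ ((a+1)(a+2))/((b+1)(b+2))` for `a ≤ b` -/
theorem phi_ratio (T : ℕ) {a b : ℕ} (h : a ≤ b) :
    phi T b * (((a : ℝ) + 1) * ((a : ℝ) + 2)) ≤ phi T a * (((b : ℝ) + 1) * ((b : ℝ) + 2)) := by
  unfold phi
  have hT : (0 : ℝ) ≤ T := Nat.cast_nonneg T
  have ha : (0 : ℝ) ≤ a := Nat.cast_nonneg a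
  have hab : (a : ℝ) ≤ b := by exact_mod_cast h
  have hb : (0 : ℝ) ≤ b := by linarith
  rw [div_mul_eq_mul_div, div_mul_eq_mul_div, div_le_div_iff₀ (by positivity) (by positivity)]
  have h1 : ((a : ℝ) + 1 + T) * (a + 2 + T) ≤ (b + 1 + T) * (b + 2 + T) := by
    apply mul_le_mul <;> linarith
  calc ((b : ℝ) + 1) * (b + 2) * ((a + 1) * (a + 2)) * ((a + 1 + T) * (a + 2 + T))
      ≤ ((b : ℝ) + 1) * (b + 2) * ((a + 1) * (a + 2)) * ((b + 1 + T) * (b + 2 + T)) :=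
        mul_le_mul_of_nonneg_left h1 (by positivity)
    _ = (a + 1) * (a + 2) * ((b + 1) * (b + 2)) * ((b + 1 + T) * (b + 2 + T)) := by ring

/-- `1 / phi T z ≤ ((z+1+T)/(z+1))²` -/
theorem inv_phi_le (T z : ℕ) : 1 / phi T z ≤ (((z : ℝ) + 1 + T) / ((z : ℝ) + 1)) ^ 2 := by
  unfold phi
  have hT : (0 : ℝ) ≤ T := Nat.cast_nonneg T
  have hz : (0 : ℝ) ≤ z := Nat.cast_nonneg z
  rw [one_div_div, div_pow, div_le_div_iff₀ (by positivity) (by positivity)]
  have h1 : ((z : ℝ) + 2 + T) * (z + 1) ≤ (z + 1 + T) * (z + 2) := by nlinarith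
  calc ((z : ℝ) + 1 + T) * (z + 2 + T) * (z + 1) ^ 2
      = ((z + 1 + T) * (z + 1)) * (((z : ℝ) + 2 + T) * (z + 1)) := by ring
    _ ≤ ((z + 1 + T) * (z + 1)) * ((z + 1 + T) * (z + 2)) :=
        mul_le_mul_of_nonneg_left h1 (by positivity)
    _ = (z + 1 + T) ^ 2 * ((z + 1) * (z + 2)) := by ring

theorem one_sub_phi_le (T z : ℕ) : 1 - phi T z ≤ 2 * T / ((z : ℝ) + 1 + T) := by
  unfold phi
  have hT : (0 : ℝ) ≤ T := Nat.cast_nonneg T
  have hz : (0 : ℝ) ≤ z := Nat.cast_nonneg z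
  have h1 : 0 < ((z : ℝ) + 1 + T) * (z + 2 + T) := by positivity
  rw [one_sub_div h1.ne', div_le_div_iff₀ h1 (by positivity)]
  have h2 : ((z : ℝ) + 1 + T) * (z + 2 + T) - (z + 1) * (z + 2) ≤ 2 * T * (z + 2 + T) := by
    nlinarith [mul_nonneg hT hz, mul_nonneg hT hT]
  calc (((z : ℝ) + 1 + T) * (z + 2 + T) - (z + 1) * (z + 2)) * (z + 1 + T)
      ≤ (2 * T * (z + 2 + T)) * (z + 1 + T) := mul_le_mul_of_nonneg_right h2 (by positivity)
    _ = 2 * T * ((z + 1 + T) * (z + 2 + T)) := by ring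

/-- log-concavity of the ramp weights -/
theorem phi_logconcave (T z : ℕ) : phi T z * phi T (z + 2) ≤ phi T (z + 1) ^ 2 := by
  have h1 := gr_succ_mul T z
  have h2 := gr_succ_mul T (z + 1)
  have h3 := gr_mono T (Nat.le_succ (z + 1))
  rw [Nat.succ_eq_add_one] at h3
  have hp1 := phi_pos T (z + 1)
  have hp2 := phi_pos T (z + 2)
  calc phi T z * phi T (z + 2) = gr T (z + 1) * phi T (z + 1) * phi T (z + 2) := by rw [h1]
    _ ≤ gr T (z + 1 + 1) * phi T (z + 1) * phi T (z + 2) := by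
        apply mul_le_mul_of_nonneg_right _ hp2.le
        apply mul_le_mul_of_nonneg_right h3 hp1.le
    _ = (gr T (z + 1 + 1) * phi T (z + 1 + 1)) * phi T (z + 1) := by ring
    _ = phi T (z + 1) ^ 2 := by rw [h2]; ring

/-- telescoping: `∑_{z ≥ a} 1/((z+1+T)(z+2+T)) ≤ 1/(a+1+T)` -/
theorem sum_tele (T a L : ℕ) :
    ∑ i ∈ range L, 1 / (((a : ℝ) + i + 1 + T) * ((a : ℝ) + i + 2 + T)) ≤ 1 / ((a : ℝ) + 1 + T) := by
  have hT : (0 : ℝ) ≤ T := Nat.cast_nonneg T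
  have ha : (0 : ℝ) ≤ a := Nat.cast_nonneg a
  have key : ∑ i ∈ range L, 1 / (((a : ℝ) + i + 1 + T) * ((a : ℝ) + i + 2 + T)) =
      1 / ((a : ℝ) + 1 + T) - 1 / ((a : ℝ) + L + 1 + T) := by
    induction L with
    | zero => simp
    | succ L ih =>
      rw [Finset.sum_range_succ, ih]
      have hL : (0 : ℝ) ≤ L := Nat.cast_nonneg L
      have h1 : (a : ℝ) + 1 + T ≠ 0 := by positivity
      have h2 : (a : ℝ) + L + 1 + T ≠ 0 := by positivity
      have h3 : (a : ℝ) + L + 2 + T ≠ 0 := by positivity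
      push_cast
      have e : (a : ℝ) + (L + 1) + 1 + T = a + L + 2 + T := by ring
      rw [e]
      field_simp
      ring
  rw [key]
  have : 0 ≤ 1 / ((a : ℝ) + L + 1 + T) := by positivity
  linarith

/-- `∑_{k < n} 1/(a+k+1)^2 ≤ 2/(a+1)` -/
theorem sum_sq_tele (a : ℕ) (n : ℕ) :
    ∑ k ∈ range n, 1 / (((a : ℝ) + k + 1) ^ 2) ≤ 2 / ((a : ℝ) + 1) := by
  have ha : (0 : ℝ) ≤ a := Nat.cast_nonneg a
  have key : ∑ k ∈ range n, 1 / (((a : ℝ) + k + 1) ^ 2) ≤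
      1 / ((a : ℝ) + 1 / 2) - 1 / ((a : ℝ) + n + 1 / 2) := by
    induction n with
    | zero => simp
    | succ n ih =>
      rw [Finset.sum_range_succ]
      have hn : (0 : ℝ) ≤ n := Nat.cast_nonneg n
      have h1 : 0 < (a : ℝ) + n + 1 := by positivity
      have h2 : 0 < (a : ℝ) + n + 1 / 2 := by positivity
      have h3 : 0 < (a : ℝ) + n + 3 / 2 := by positivity
      have h4 : 1 / (((a : ℝ) + n + 1) ^ 2) ≤
          1 / ((a : ℝ) + n + 1 / 2) - 1 / ((a : ℝ) + (n + 1 : ℕ) + 1 / 2) := by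
        push_cast
        have e : (a : ℝ) + (n + 1) + 1 / 2 = a + n + 3 / 2 := by ring
        rw [e, div_sub_div _ _ h2.ne' h3.ne', div_le_div_iff₀ (by positivity) (by positivity)]
        nlinarith
      linarith
  have h1 : 0 ≤ 1 / ((a : ℝ) + n + 1 / 2) := by positivity
  have h2 : 1 / ((a : ℝ) + 1 / 2) ≤ 2 / ((a : ℝ) + 1) := by
    rw [div_le_div_iff₀ (by positivity) (by positivity)]
    linarith
  linarith

private theorem inv_phi_le' (T z : ℕ) :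
    1 / phi T z ≤ 2 + 2 * (T : ℝ) ^ 2 * (1 / ((z : ℝ) + 1) ^ 2) := by
  refine (inv_phi_le T z).trans ?_
  have hz : (0 : ℝ) ≤ z := Nat.cast_nonneg z
  have h1 : (z : ℝ) + 1 ≠ 0 := by positivity
  have e : ((z : ℝ) + 1 + T) / ((z : ℝ) + 1) = 1 + T / ((z : ℝ) + 1) := by
    field_simp
  rw [e]
  have e2 : 2 * (T : ℝ) ^ 2 * (1 / ((z : ℝ) + 1) ^ 2) = 2 * (T / ((z : ℝ) + 1)) ^ 2 := by
    rw [div_pow]
    ring
  rw [e2]
  nlinarith [sq_nonneg (1 - (T : ℝ) / ((z : ℝ) + 1))]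

/-- the double sum bound.  Indices run over the window `[a, a + L]`.
Proof: `1/phi T z' ≤ 2 + 2T²/(z'+1)²` (`inv_phi_le` and `(1+x)² ≤ 2+2x²`),
`∑_{z' ≥ z} 1/(z'+1)² ≤ 2/(z+1)`, so the inner sum is at most `2(L+1) + 4T²/(z+1)`; multiply by
`phi_Gam_le`; the first part telescopes to `12(L+1)/(T+1)`, the second is at most
`24/(z+1) ≤ 24/(i+1)` for `z = a + i`. -/
theorem double_sum (T a L : ℕ) (H : ℝ) (hH : ∑ i ∈ range (L + 1), 1 / ((i : ℝ) + 1) ≤ H) :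
    ∑ i ∈ range (L + 1), phi T (a + i) * Gam T (a + i) *
      (∑ k ∈ Finset.Icc i L, 1 / phi T (a + k)) ≤
      12 * ((L : ℝ) + 1) / ((T : ℝ) + 1) + 24 * H := by
  have hT : (0 : ℝ) ≤ T := Nat.cast_nonneg T
  have ha : (0 : ℝ) ≤ a := Nat.cast_nonneg a
  have hL : (0 : ℝ) ≤ L := Nat.cast_nonneg L
  -- the inner sum
  have hin : ∀ i ∈ range (L + 1), (∑ k ∈ Finset.Icc i L, 1 / phi T (a + k)) ≤
      2 * ((L : ℝ) + 1) + 4 * (T : ℝ) ^ 2 / ((a : ℝ) + i + 1) := by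
    intro i hi
    rw [Finset.mem_range] at hi
    have hi0 : (0 : ℝ) ≤ i := Nat.cast_nonneg i
    have h1 : (∑ k ∈ Finset.Icc i L, 1 / phi T (a + k)) ≤
        ∑ k ∈ Finset.Icc i L, (2 + 2 * (T : ℝ) ^ 2 * (1 / ((a : ℝ) + k + 1) ^ 2)) := by
      apply Finset.sum_le_sum
      intro k _
      have := inv_phi_le' T (a + k)
      push_cast at this
      exact this
    have h2 : ∑ k ∈ Finset.Icc i L, (2 + 2 * (T : ℝ) ^ 2 * (1 / ((a : ℝ) + k + 1) ^ 2)) =
        2 * ((Finset.Icc i L).card : ℝ) +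
          2 * (T : ℝ) ^ 2 * ∑ k ∈ Finset.Icc i L, 1 / ((a : ℝ) + k + 1) ^ 2 := by
      rw [Finset.sum_add_distrib, Finset.sum_const, nsmul_eq_mul, ← Finset.mul_sum]
      ring
    have h3 : ((Finset.Icc i L).card : ℝ) ≤ (L : ℝ) + 1 := by
      rw [Nat.card_Icc]
      have : L + 1 - i ≤ L + 1 := Nat.sub_le _ _
      exact_mod_cast this
    have h4 : ∑ k ∈ Finset.Icc i L, 1 / ((a : ℝ) + k + 1) ^ 2 ≤ 2 / ((a : ℝ) + i + 1) := by
      have e : Finset.Icc i L = Finset.Ico i (L + 1) := by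
        ext x
        simp only [Finset.mem_Icc, Finset.mem_Ico]
        omega
      rw [e, Finset.sum_Ico_eq_sum_range]
      have := sum_sq_tele (a + i) (L + 1 - i)
      push_cast at this
      refine le_trans (le_of_eq ?_) this
      apply Finset.sum_congr rfl
      intro k _
      push_cast
      ring
    rw [h2] at h1
    have h5 : 2 * (T : ℝ) ^ 2 * ∑ k ∈ Finset.Icc i L, 1 / ((a : ℝ) + k + 1) ^ 2 ≤
        2 * (T : ℝ) ^ 2 * (2 / ((a : ℝ) + i + 1)) :=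
      mul_le_mul_of_nonneg_left h4 (by positivity)
    have h6 : 2 * (T : ℝ) ^ 2 * (2 / ((a : ℝ) + i + 1)) = 4 * (T : ℝ) ^ 2 / ((a : ℝ) + i + 1) := by
      ring
    rw [h6] at h5
    linarith
  -- termwise bound
  have hterm : ∀ i ∈ range (L + 1), phi T (a + i) * Gam T (a + i) *
      (∑ k ∈ Finset.Icc i L, 1 / phi T (a + k)) ≤
      12 * ((L : ℝ) + 1) * (1 / (((a : ℝ) + i + 1 + T) * ((a : ℝ) + i + 2 + T))) +
        24 * (1 / ((i : ℝ) + 1)) := by
    intro i hi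
    have hi0 : (0 : ℝ) ≤ i := Nat.cast_nonneg i
    have h1 := hin i hi
    have h2 := phi_Gam_le T (a + i)
    push_cast at h2
    have h3 : 0 ≤ phi T (a + i) * Gam T (a + i) := mul_nonneg (phi_pos _ _).le (Gam_nonneg _ _)
    have hb : 0 ≤ 2 * ((L : ℝ) + 1) + 4 * (T : ℝ) ^ 2 / ((a : ℝ) + i + 1) := by positivity
    calc phi T (a + i) * Gam T (a + i) * (∑ k ∈ Finset.Icc i L, 1 / phi T (a + k))
        ≤ phi T (a + i) * Gam T (a + i) *
            (2 * ((L : ℝ) + 1) + 4 * (T : ℝ) ^ 2 / ((a : ℝ) + i + 1)) :=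
          mul_le_mul_of_nonneg_left h1 h3
      _ ≤ 6 / (((a : ℝ) + i + 1 + T) * ((a : ℝ) + i + 2 + T)) *
            (2 * ((L : ℝ) + 1) + 4 * (T : ℝ) ^ 2 / ((a : ℝ) + i + 1)) :=
          mul_le_mul_of_nonneg_right h2 hb
      _ = 12 * ((L : ℝ) + 1) * (1 / (((a : ℝ) + i + 1 + T) * ((a : ℝ) + i + 2 + T))) +
            24 * ((T : ℝ) ^ 2 / ((((a : ℝ) + i + 1 + T) * ((a : ℝ) + i + 2 + T)) *
              ((a : ℝ) + i + 1))) := by
          have h5 : (a : ℝ) + i + 1 ≠ 0 := by positivity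
          have h6 : (a : ℝ) + i + 1 + T ≠ 0 := by positivity
          have h7 : (a : ℝ) + i + 2 + T ≠ 0 := by positivity
          field_simp
          ring
      _ ≤ 12 * ((L : ℝ) + 1) * (1 / (((a : ℝ) + i + 1 + T) * ((a : ℝ) + i + 2 + T))) +
            24 * (1 / ((i : ℝ) + 1)) := by
          have h5 : (T : ℝ) ^ 2 / ((((a : ℝ) + i + 1 + T) * ((a : ℝ) + i + 2 + T)) *
              ((a : ℝ) + i + 1)) ≤ 1 / ((i : ℝ) + 1) := by
            rw [div_le_div_iff₀ (by positivity) (by positivity)]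
            have h6 : (T : ℝ) ^ 2 ≤ ((a : ℝ) + i + 1 + T) * ((a : ℝ) + i + 2 + T) := by
              nlinarith [mul_nonneg ha hT, mul_nonneg hi0 hT]
            have h7 : (i : ℝ) + 1 ≤ (a : ℝ) + i + 1 := by linarith
            calc (T : ℝ) ^ 2 * (i + 1) ≤
                (((a : ℝ) + i + 1 + T) * ((a : ℝ) + i + 2 + T)) * ((a : ℝ) + i + 1) :=
                  mul_le_mul h6 h7 (by positivity) (by positivity)
              _ = 1 * ((((a : ℝ) + i + 1 + T) * ((a : ℝ) + i + 2 + T)) * ((a : ℝ) + i + 1)) := by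
                  ring
          linarith
  refine (Finset.sum_le_sum hterm).trans ?_
  rw [Finset.sum_add_distrib, ← Finset.mul_sum, ← Finset.mul_sum]
  have h1 := sum_tele T a (L + 1)
  have h2 : 1 / ((a : ℝ) + 1 + T) ≤ 1 / ((T : ℝ) + 1) := by
    apply one_div_le_one_div_of_le (by positivity)
    linarith
  have h3 : 12 * ((L : ℝ) + 1) *
      ∑ i ∈ range (L + 1), 1 / (((a : ℝ) + i + 1 + T) * ((a : ℝ) + i + 2 + T)) ≤
      12 * ((L : ℝ) + 1) * (1 / ((T : ℝ) + 1)) :=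
    mul_le_mul_of_nonneg_left (h1.trans h2) (by positivity)
  have h4 : 12 * ((L : ℝ) + 1) * (1 / ((T : ℝ) + 1)) = 12 * ((L : ℝ) + 1) / ((T : ℝ) + 1) := by
    ring
  rw [h4] at h3
  linarith

end Vale.Agent.Lib.P328
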