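import Mathlib
import Vale.Agent.Lib.P328.BridgeA
import Vale.Agent.Lib.P328.Phi

/-!
P328, module BridgeB: the move of the algorithm is the move of the chain.
-/

namespace Vale.Agent.Lib.P328

open Vale.Agent.Lib.Common.PolyTime

/-! ### auxiliary facts -/

private theorem bb_mem_tab {I J : Type} [Fintype I] [DecidableEq I] [Fintype J] [DecidableEq J]
    {r : I → ℕ} {c : J → ℕ} {X : I → J → ℕ} :
    X ∈ tab r c ↔ (∀ i, ∑ l, X i l = r i) ∧ ∀ l, ∑ i, X i l = c l := by
  unfold tab
  rw [Finset.mem_filter]
  constructor
  · exact fun h => h.2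
  · intro h
    refine ⟨?_, h⟩
    rw [Fintype.mem_piFinset]
    intro i
    rw [Fintype.mem_piFinset]
    intro l
    rw [Finset.mem_range, ← h.2 l]
    exact Nat.lt_succ_of_le
      (Finset.single_le_sum (f := fun i => X i l) (fun _ _ => Nat.zero_le _) (Finset.mem_univ i))

private theorem bb_sum_update2 {J : Type} [Fintype J] [DecidableEq J] (f : J → ℕ) {l l' : J}
    (h : l ≠ l') {C D : ℕ} (hCD : C + D = f l + f l') :
    ∑ j, Function.update (Function.update f l C) l' D j = ∑ j, f j := by
  have key : ∀ C D : ℕ, ∑ j, Function.update (Function.update f l C) l' D j =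
      D + (C + ∑ j ∈ (Finset.univ \ {l'}) \ {l}, f j) := by
    intro C D
    rw [Finset.sum_update_of_mem (Finset.mem_univ l'), Finset.sum_update_of_mem]
    rw [Finset.mem_sdiff, Finset.mem_singleton]
    exact ⟨Finset.mem_univ _, h⟩
  have h1 := key C D
  have h2 := key (f l) (f l')
  rw [Function.update_eq_self, Function.update_eq_self] at h2
  rw [h1, h2]
  omega

private theorem bb_line_arith {a b p q u : ℕ} (hu : u ≤ min a b + min p q) :
    (a - b + u ≤ p + a) ∧ (a ≤ b + (a - b + u)) ∧ (a - b + u ≤ a + q) := by
  omega

private theorem bb_linePt_apply {m n : ℕ} (X : Fin m → Fin n → ℕ) {o k : Fin m} {l l' : Fin n}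
    (u : ℕ) (i : Fin m) (j : Fin n) :
    linePt X o k l l' u i j =
      if i = k then (if j = l' then X k l + X k l' - ((X k l - X o l') + u) else
        if j = l then (X k l - X o l') + u else X k j) else
      if i = o then (if j = l' then X o l' + ((X k l - X o l') + u) - X k l else
        if j = l then X o l + X k l - ((X k l - X o l') + u) else X o j) else X i j := by
  unfold linePt
  by_cases hik : i = k
  · subst hik
    rw [if_pos rfl, Function.update_self, Function.update_apply, Function.update_apply]
  · rw [if_neg hik, Function.update_of_ne hik]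
    by_cases hio : i = o
    · subst hio
      rw [if_pos rfl, Function.update_self, Function.update_apply, Function.update_apply]
    · rw [if_neg hio, Function.update_of_ne hio]

/-! ### the line and the weights -/

theorem linePt_mem_fin {m n : ℕ} {r : Fin m → ℕ} {c : Fin n → ℕ} {X : Fin m → Fin n → ℕ}
    (hX : X ∈ tab r c) {o k : Fin m} {l l' : Fin n} (hk : k ≠ o) (hl : l ≠ l') {u : ℕ}
    (hu : u ≤ lineM X o k l l') : linePt X o k l l' u ∈ tab r c := by
  rw [bb_mem_tab] at hX ⊢
  obtain ⟨hr, hc⟩ := hX
  obtain ⟨h1, h2, h3⟩ := bb_line_arith (a := X k l) (b := X o l') (p := X o l) (q := X k l') hu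
  constructor
  · intro i
    rw [← hr i]
    by_cases hik : i = k
    · subst hik
      have e1 : linePt X o i l l' u i = Function.update (Function.update (X i) l
          ((X i l - X o l') + u)) l' (X i l + X i l' - ((X i l - X o l') + u)) := by
        unfold linePt
        rw [Function.update_self]
      rw [e1]
      apply bb_sum_update2 _ hl
      omega
    · by_cases hio : i = o
      · subst hio
        have e1 : linePt X i k l l' u i = Function.update (Function.update (X i) l
            (X i l + X k l - ((X k l - X i l') + u))) l'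
            (X i l' + ((X k l - X i l') + u) - X k l) := by
          unfold linePt
          rw [Function.update_of_ne hik, Function.update_self]
        rw [e1]
        apply bb_sum_update2 _ hl
        omega
      · have e1 : linePt X o k l l' u i = X i := by
          unfold linePt
          rw [Function.update_of_ne hik, Function.update_of_ne hio]
        rw [e1]
  · intro j
    rw [← hc j]
    by_cases hjl' : j = l'
    · subst hjl'
      have e1 : (fun i => linePt X o k l j u i j) = Function.update (Function.update
          (fun i => X i j) o (X o j + ((X k l - X o j) + u) - X k l)) k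
          (X k l + X k j - ((X k l - X o j) + u)) := by
        funext i
        rw [bb_linePt_apply, Function.update_apply, Function.update_apply]
        simp only [if_true]
      calc ∑ i, linePt X o k l j u i j = ∑ i, (fun i => linePt X o k l j u i j) i := rfl
        _ = ∑ i, X i j := by
          rw [e1]
          apply bb_sum_update2 _ hk.symm
          omega
    · by_cases hjl : j = l
      · subst hjl
        have e1 : (fun i => linePt X o k j l' u i j) = Function.update (Function.update
            (fun i => X i j) o (X o j + X k j - ((X k j - X o l') + u))) k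
            ((X k j - X o l') + u) := by
          funext i
          rw [bb_linePt_apply, Function.update_apply, Function.update_apply]
          simp only [if_neg hjl', if_true]
        calc ∑ i, linePt X o k j l' u i j = ∑ i, (fun i => linePt X o k j l' u i j) i := rfl
          _ = ∑ i, X i j := by
            rw [e1]
            apply bb_sum_update2 _ hk.symm
            omega
      · apply Finset.sum_congr rfl
        intro i _
        rw [bb_linePt_apply]
        simp only [if_neg hjl', if_neg hjl]
        by_cases hik : i = k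
        · rw [if_pos hik, hik]
        · by_cases hio : i = o
          · rw [if_neg hik, if_pos hio, hio]
          · rw [if_neg hik, if_neg hio]

theorem lineM_le {m n : ℕ} {r : Fin m → ℕ} {c : Fin n → ℕ} {X : Fin m → Fin n → ℕ}
    (hX : X ∈ tab r c) {o k : Fin m} {l l' : Fin n} (hl : l ≠ l') :
    lineM X o k l l' ≤ r o := by
  rw [bb_mem_tab] at hX
  rw [← hX.1 o]
  have h1 : X o l + X o l' ≤ ∑ j, X o j := by
    rw [← Finset.sum_pair (f := fun j => X o j) hl]
    exact Finset.sum_le_sum_of_subset (Finset.subset_univ _)
  unfold lineM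
  omega

/-- the proposed table of the algorithm is the point `bval v % (lineM + 1)` of the line -/
theorem toT_mvTab {m n : ℕ} {X : List (List Bn)} (hX : WF m n X) {o k : Fin m} {l l' : Fin n}
    (hk : k ≠ o) (hl : l ≠ l') (v : List Bool) :
    toT m n (mvTab X o k l l' (newKL X o k l l' v)) =
      linePt (toT m n X) o k l l' (bval v % (lineM (toT m n X) o k l l' + 1)) := by
  have hkl : (newKL X o k l l' v).val = ((tget X k l).val - (tget X o l').val)
      + bval v % (lineM (toT m n X) o k l l' + 1) := rfl
  funext i j
  rw [bb_linePt_apply]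
  show (tget (mvTab X o k l l' (newKL X o k l l' v)) i j).val = _
  unfold mvTab
  rw [tget_tset (((hX.tset _ _ _).tset _ _ _).tset _ _ _) k.2 l'.2,
    tget_tset ((hX.tset _ _ _).tset _ _ _) k.2 l.2, tget_tset (hX.tset _ _ _) o.2 l'.2,
    tget_tset hX o.2 l.2]
  simp only [Fin.val_inj]
  have hl' : l' ≠ l := hl.symm
  have hk' : o ≠ k := hk.symm
  by_cases hik : i = k
  · subst hik
    by_cases hjl' : j = l'
    · subst hjl'
      simp only [and_self, if_true]
      rfl
    · by_cases hjl : j = l
      · subst hjl
        simp only [hjl', and_false, and_self, if_true, if_false]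
        rfl
      · simp only [hjl', hjl, and_false, if_true, if_false]
        rfl
  · by_cases hio : i = o
    · subst hio
      by_cases hjl' : j = l'
      · subst hjl'
        simp only [hik, false_and, and_self, if_true, if_false]
        rfl
      · by_cases hjl : j = l
        · subst hjl
          simp only [hik, hjl', false_and, and_false, and_self, if_true, if_false]
          rfl
        · simp only [hik, hjl', hjl, and_false, if_true, if_false]
          rfl
    · simp only [hik, hio, false_and, if_false]
      rfl

/-- the weights of two tables on a line differ in four cells only -/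
theorem tw_ratio {m n : ℕ} (τ : Fin m → Fin n → ℕ) {X Y : Fin m → Fin n → ℕ} {o k : Fin m}
    {l l' : Fin n} (hk : k ≠ o) (hl : l ≠ l')
    (h : ∀ i j, ¬ ((i = o ∨ i = k) ∧ (j = l ∨ j = l')) → X i j = Y i j) :
    tw τ Y / tw τ X =
      (phi (τ o l) (Y o l) * phi (τ o l') (Y o l') * (phi (τ k l) (Y k l) * phi (τ k l') (Y k l'))) /
        (phi (τ o l) (X o l) * phi (τ o l') (X o l') *
          (phi (τ k l) (X k l) * phi (τ k l') (X k l'))) := by
  classical
  set S : Finset (Fin m × Fin n) := {(o, l), (o, l'), (k, l), (k, l')} with hS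
  have key : ∀ Z : Fin m → Fin n → ℕ, tw τ Z =
      (phi (τ o l) (Z o l) * phi (τ o l') (Z o l') * (phi (τ k l) (Z k l) * phi (τ k l') (Z k l')))
        * ∏ q ∈ Sᶜ, phi (τ q.1 q.2) (Z q.1 q.2) := by
    intro Z
    have e1 : tw τ Z = ∏ q : Fin m × Fin n, phi (τ q.1 q.2) (Z q.1 q.2) := by
      unfold tw
      rw [← Finset.univ_product_univ, Finset.prod_product]
    have e2 : ∏ q ∈ S, phi (τ q.1 q.2) (Z q.1 q.2) =
        phi (τ o l) (Z o l) * phi (τ o l') (Z o l') *
          (phi (τ k l) (Z k l) * phi (τ k l') (Z k l')) := by
      rw [hS, Finset.prod_insert, Finset.prod_insert, Finset.prod_insert, Finset.prod_singleton]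
      · ring
      · rw [Finset.mem_singleton, Prod.mk.injEq]
        exact fun h => hl h.2
      · rw [Finset.mem_insert, Finset.mem_singleton, Prod.mk.injEq, Prod.mk.injEq]
        rintro (h | h)
        · exact hk h.1.symm
        · exact hk h.1.symm
      · rw [Finset.mem_insert, Finset.mem_insert, Finset.mem_singleton, Prod.mk.injEq,
          Prod.mk.injEq, Prod.mk.injEq]
        rintro (h | h | h)
        · exact hl h.2
        · exact hk h.1.symm
        · exact hk h.1.symm
    rw [e1, ← Finset.prod_mul_prod_compl S, e2]
  have hrest : ∏ q ∈ Sᶜ, phi (τ q.1 q.2) (Y q.1 q.2) = ∏ q ∈ Sᶜ, phi (τ q.1 q.2) (X q.1 q.2) := by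
    apply Finset.prod_congr rfl
    rintro ⟨i, j⟩ hq
    have : ¬ ((i = o ∨ i = k) ∧ (j = l ∨ j = l')) := by
      intro hij
      rw [Finset.mem_compl] at hq
      apply hq
      rw [hS, Finset.mem_insert, Finset.mem_insert, Finset.mem_insert, Finset.mem_singleton,
        Prod.mk.injEq, Prod.mk.injEq, Prod.mk.injEq, Prod.mk.injEq]
      tauto
    rw [h i j this]
  have hpos : 0 < ∏ q ∈ Sᶜ, phi (τ q.1 q.2) (X q.1 q.2) := Finset.prod_pos fun q _ => phi_pos _ _
  rw [key Y, key X, hrest, mul_div_mul_right _ _ hpos.ne']

/-- the acceptance test compares `w / 2 ^ B` with `tw Y / tw X` -/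
theorem accA_iff {m n : ℕ} {B : ℕ} {W X Y : List (List Bn)} {o k : Fin m} {l l' : Fin n}
    (hk : k ≠ o) (hl : l ≠ l')
    (h : ∀ (i : Fin m) (j : Fin n), ¬ ((i = o ∨ i = k) ∧ (j = l ∨ j = l')) →
      toT m n X i j = toT m n Y i j) (w : List Bool) :
    accA B W X Y o k l l' w = true ↔
      (bval w : ℝ) / 2 ^ B < tw (toT m n W) (toT m n Y) / tw (toT m n W) (toT m n X) := by
  rw [tw_ratio (toT m n W) hk hl h]
  -- numerators and denominators of one cell
  have hphi : ∀ (Z : List (List Bn)) (i : Fin m) (j : Fin n),
      phi (toT m n W i j) (toT m n Z i j) =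
        ((cnum (tget Z i j)).val : ℝ) / ((cden (tget W i j) (tget Z i j)).val : ℝ) := by
    intro Z i j
    show phi (tget W i j).val (tget Z i j).val = _
    unfold phi cnum cden
    simp only [Bn.mul_val, Bn.add_val, Bn.ofNat_val]
    push_cast
    ring_nf
  have hnpos : ∀ z : Bn, 0 < ((cnum z).val : ℝ) := by
    intro z
    unfold cnum
    simp only [Bn.mul_val, Bn.add_val, Bn.ofNat_val]
    positivity
  have hdpos : ∀ t z : Bn, 0 < ((cden t z).val : ℝ) := by
    intro t z
    unfold cden
    simp only [Bn.mul_val, Bn.add_val, Bn.ofNat_val]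
    positivity
  have hN : ∀ Z : List (List Bn), ((wnum Z o k l l').val : ℝ) =
      ((cnum (tget Z o l)).val : ℝ) * ((cnum (tget Z o l')).val : ℝ) *
        (((cnum (tget Z k l)).val : ℝ) * ((cnum (tget Z k l')).val : ℝ)) := by
    intro Z
    unfold wnum
    simp only [Bn.mul_val]
    push_cast
    ring
  have hD : ∀ Z : List (List Bn), ((wden W Z o k l l').val : ℝ) =
      ((cden (tget W o l) (tget Z o l)).val : ℝ) * ((cden (tget W o l') (tget Z o l')).val : ℝ) *
        (((cden (tget W k l) (tget Z k l)).val : ℝ) *
          ((cden (tget W k l') (tget Z k l')).val : ℝ)) := by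
    intro Z
    unfold wden
    simp only [Bn.mul_val]
    push_cast
    ring
  have hNp : ∀ Z : List (List Bn), 0 < ((wnum Z o k l l').val : ℝ) := by
    intro Z
    rw [hN]
    exact mul_pos (mul_pos (hnpos _) (hnpos _)) (mul_pos (hnpos _) (hnpos _))
  have hDp : ∀ Z : List (List Bn), 0 < ((wden W Z o k l l').val : ℝ) := by
    intro Z
    rw [hD]
    exact mul_pos (mul_pos (hdpos _ _) (hdpos _ _)) (mul_pos (hdpos _ _) (hdpos _ _))
  have hq : ∀ Z : List (List Bn), phi (toT m n W o l) (toT m n Z o l) *
      phi (toT m n W o l') (toT m n Z o l') * (phi (toT m n W k l) (toT m n Z k l) *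
        phi (toT m n W k l') (toT m n Z k l')) =
      ((wnum Z o k l l').val : ℝ) / ((wden W Z o k l l').val : ℝ) := by
    intro Z
    rw [hphi, hphi, hphi, hphi, hN, hD, div_mul_div_comm, div_mul_div_comm, div_mul_div_comm]
  rw [hq Y, hq X]
  unfold accA Bn.lt
  rw [decide_eq_true_iff]
  simp only [Bn.mul_val, Bn.ofBits_val, Bn.pow2_val]
  rw [div_div_div_eq, div_lt_div_iff₀ (by positivity) (mul_pos (hDp Y) (hNp X)),
    ← Nat.cast_lt (α := ℝ)]
  push_cast
  constructor
  · intro h1
    linarith
  · intro h1
    linarith

/-- tables stay well formed and in `tab r c`, for all random bits -/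
theorem stepA_mem {m n : ℕ} {r : Fin m → ℕ} {c : Fin n → ℕ} {X : List (List Bn)} (hX : WF m n X)
    (hT : toT m n X ∈ tab r c) {o : ℕ} (ho : o < m) (hn : 0 < n) (B : ℕ) (W : List (List Bn))
    (u : List (List Bool)) :
    WF m n (stepA m n o B W X u) ∧ toT m n (stepA m n o B W X u) ∈ tab r c := by
  have hm : 0 < m := by omega
  have hmod : ∀ (M : ℕ) (b : List Bool), 0 < M → modU M b < M := by
    intro M b hM
    unfold modU
    rw [if_neg hM.ne']
    exact Nat.mod_lt _ hM
  unfold stepA
  generalize hk : modU m (u.getD 0 []) = k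
  generalize hl : modU n (u.getD 1 []) = l
  generalize hl' : modU n (u.getD 2 []) = l'
  have hkm : k < m := hk ▸ hmod m _ hm
  have hln : l < n := hl ▸ hmod n _ hn
  have hln' : l' < n := hl' ▸ hmod n _ hn
  unfold stepB
  split_ifs with h1 h2
  · exact ⟨hX, hT⟩
  · exact ⟨hX, hT⟩
  · cases (u.getD 3 []).headD false with
    | true => exact ⟨hX, hT⟩
    | false =>
      rw [cond_false]
      unfold moveA
      cases accA B W X (mvTab X o k l l' (newKL X o k l l' (u.getD 4 []))) o k l l'
          (u.getD 5 []) with
      | false => exact ⟨hX, hT⟩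
      | true =>
        rw [cond_true]
        constructor
        · unfold mvTab
          exact (((hX.tset _ _ _).tset _ _ _).tset _ _ _).tset _ _ _
        · have hk' : (⟨k, hkm⟩ : Fin m) ≠ ⟨o, ho⟩ := fun h => h1 (congrArg Fin.val h)
          have hl2 : (⟨l, hln⟩ : Fin n) ≠ ⟨l', hln'⟩ := fun h => h2 (congrArg Fin.val h)
          have h3 := toT_mvTab hX (o := ⟨o, ho⟩) (k := ⟨k, hkm⟩) (l := ⟨l, hln⟩)
            (l' := ⟨l', hln'⟩) hk' hl2 (u.getD 4 [])
          simp only at h3
          rw [h3]
          apply linePt_mem_fin hT hk' hl2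
          exact Nat.le_of_lt_succ (Nat.mod_lt _ (Nat.succ_pos _))

end Vale.Agent.Lib.P328
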