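import Mathlib
import Vale.Agent.Lib.P328.AlgDefs

/-!
P328: finite expectation functionals.

`IsExp e`: `e` is a normalised positive linear functional.  `EL e n` is the expectation over lists
of `n` independent entries with law `e`; `ebit` is a fair bit.
-/

namespace Vale.Agent.Lib.P328

/-- normalised positive linear functionals -/
structure IsExp {α : Type} (e : (α → ℝ) → ℝ) : Prop where
  add : ∀ F G, e (fun a => F a + G a) = e F + e G
  smul : ∀ (t : ℝ) F, e (fun a => t * F a) = t * e F
  one : e (fun _ => 1) = 1
  mono : ∀ F G, (∀ a, F a ≤ G a) → e F ≤ e G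

/-- expectation over lists of `n` independent entries with law `e` -/
noncomputable def EL {α : Type} (e : (α → ℝ) → ℝ) : ℕ → (List α → ℝ) → ℝ
  | 0, F => F []
  | n + 1, F => e fun a => EL e n fun l => F (a :: l)

/-- fair bit -/
noncomputable def ebit (F : Bool → ℝ) : ℝ := (F false + F true) / 2

/-- uniform block of `B` bits -/
noncomputable def eblk (B : ℕ) : (List Bool → ℝ) → ℝ := EL ebit B

/-- expectation over the random bits of one step -/
noncomputable def estep (B : ℕ) : (List (List Bool) → ℝ) → ℝ := EL (eblk B) 6

/-- expectation over the random bits of one run -/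
noncomputable def erun (B T : ℕ) : (List (List (List Bool)) → ℝ) → ℝ := EL (estep B) T

end Vale.Agent.Lib.P328
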