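import Mathlib
import Vale.Agent.Lib.P328.Prob

/-!
P328, module ProbA: expectations over lists (basic properties).
-/

namespace Vale.Agent.Lib.P328

theorem ebit_isExp : IsExp ebit := by
  refine ⟨fun F G => ?_, fun t F => ?_, ?_, fun F G h => ?_⟩
  · simp only [ebit]; ring
  · simp only [ebit]; ring
  · simp only [ebit]; norm_num
  · have h1 := h false
    have h2 := h true
    simp only [ebit]
    linarith

theorem IsExp.EL {α : Type} {e : (α → ℝ) → ℝ} (he : IsExp e) (n : ℕ) : IsExp (EL e n) := by
  induction n with
  | zero =>
    refine ⟨fun F G => rfl, fun t F => rfl, rfl, fun F G h => h _⟩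
  | succ n ih =>
    refine ⟨fun F G => ?_, fun t F => ?_, ?_, fun F G h => ?_⟩
    · simp only [Vale.Agent.Lib.P328.EL]
      rw [← he.add]
      congr 1
      funext a
      exact ih.add _ _
    · simp only [Vale.Agent.Lib.P328.EL]
      rw [← he.smul]
      congr 1
      funext a
      exact ih.smul _ _
    · simp only [Vale.Agent.Lib.P328.EL]
      rw [show (fun _ : α => Vale.Agent.Lib.P328.EL e n fun _ => (1 : ℝ)) = fun _ => 1 from
        funext fun _ => ih.one]
      exact he.one
    · simp only [Vale.Agent.Lib.P328.EL]
      exact he.mono _ _ fun a => ih.mono _ _ fun l => h _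

theorem IsExp.const {α : Type} {e : (α → ℝ) → ℝ} (he : IsExp e) (t : ℝ) : e (fun _ => t) = t := by
  have := he.smul t (fun _ => 1)
  simpa [he.one] using this

theorem IsExp.sub {α : Type} {e : (α → ℝ) → ℝ} (he : IsExp e) (F G : α → ℝ) :
    e (fun a => F a - G a) = e F - e G := by
  have h1 : (fun a => F a - G a) = fun a => F a + (-1) * G a := by
    funext a
    ring
  rw [h1, he.add F (fun a => (-1) * G a), he.smul]
  ring

theorem IsExp.abs_le {α : Type} {e : (α → ℝ) → ℝ} (he : IsExp e) {F : α → ℝ} {t : ℝ}
    (h : ∀ a, |F a| ≤ t) : |e F| ≤ t := by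
  rw [_root_.abs_le]
  constructor
  · have := he.mono (fun _ => -t) F fun a => (_root_.abs_le.1 (h a)).1
    rwa [he.const] at this
  · have := he.mono F (fun _ => t) fun a => (_root_.abs_le.1 (h a)).2
    rwa [he.const] at this

/-- the functional only sees lists of length `n` -/
theorem EL_congr {α : Type} {e : (α → ℝ) → ℝ} {n : ℕ} {F G : List α → ℝ}
    (h : ∀ l, l.length = n → F l = G l) : EL e n F = EL e n G := by
  induction n generalizing F G with
  | zero => exact h [] rfl
  | succ n ih =>
    simp only [EL]
    congr 1
    funext a
    exact ih fun l hl => h (a :: l) (by simp [hl])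

theorem EL_mono {α : Type} {e : (α → ℝ) → ℝ} (he : IsExp e) {n : ℕ} {F G : List α → ℝ}
    (h : ∀ l, l.length = n → F l ≤ G l) : EL e n F ≤ EL e n G := by
  induction n generalizing F G with
  | zero => exact h [] rfl
  | succ n ih =>
    simp only [EL]
    exact he.mono _ _ fun a => ih fun l hl => h (a :: l) (by simp [hl])

/-- concatenation of two lists of independent entries -/
theorem EL_add {α : Type} (e : (α → ℝ) → ℝ) (a n : ℕ) (F : List α → ℝ) :
    EL e (a + n) F = EL e a fun l => EL e n fun l' => F (l ++ l') := by
  induction a generalizing F with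
  | zero => simp [EL]
  | succ a ih =>
    rw [Nat.succ_add]
    simp only [EL]
    congr 1
    funext x
    rw [ih]
    rfl

/-- lists of blocks -/
theorem EL_mul {α : Type} (e : (α → ℝ) → ℝ) (a b : ℕ) (F : List α → ℝ) :
    EL e (a * b) F = EL (EL e a) b fun L => F L.flatten := by
  induction b generalizing F with
  | zero => simp [EL]
  | succ b ih =>
    rw [Nat.mul_succ, Nat.add_comm, EL_add]
    simp only [EL]
    congr 1
    funext x
    rw [ih]
    rfl

theorem chunks_succ' {α : Type} (a n : ℕ) (l : List α) :
    chunks a (n + 1) l = l.take a :: chunks a n (l.drop a) := by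
  unfold chunks
  rw [List.range_succ_eq_map, List.map_cons, List.map_map]
  congr 1
  refine List.map_congr_left fun i _ => ?_
  simp only [Function.comp_apply, List.drop_drop]
  congr 2
  rw [Nat.mul_succ, Nat.add_comm]

theorem chunks_flatten {α : Type} {a : ℕ} {L : List (List α)} (h : ∀ x ∈ L, x.length = a) :
    chunks a L.length L.flatten = L := by
  induction L with
  | nil => rfl
  | cons x L ih =>
    have hx : x.length = a := h x (by simp)
    rw [List.length_cons, chunks_succ', List.flatten_cons]
    subst hx
    rw [List.take_left', List.drop_left' rfl, ih fun y hy => h y (by simp [hy])]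
    rfl

/-- cutting a list into pieces -/
theorem EL_chunks {α : Type} (e : (α → ℝ) → ℝ) (a b : ℕ) (G : List (List α) → ℝ) :
    EL e (a * b) (fun l => G (chunks a b l)) = EL (EL e a) b G := by
  induction b generalizing G with
  | zero => simp [EL, chunks]
  | succ b ih =>
    rw [Nat.mul_succ, Nat.add_comm, EL_add]
    simp only [EL]
    refine EL_congr fun x hx => ?_
    rw [← ih]
    congr 1
    funext l'
    rw [chunks_succ', List.take_left' hx, List.drop_left' hx]

/-- image of the entries -/
theorem EL_map {α β : Type} (e : (α → ℝ) → ℝ) (φ : α → β) (n : ℕ) (G : List β → ℝ) :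
    EL e n (fun l => G (l.map φ)) = EL (fun F => e fun a => F (φ a)) n G := by
  induction n generalizing G with
  | zero => simp [EL]
  | succ n ih =>
    simp only [EL]
    congr 1
    funext a
    rw [← ih]
    rfl

/-- expectation of a product over the entries -/
theorem EL_map_prod {α : Type} {e : (α → ℝ) → ℝ} (he : IsExp e) (n : ℕ) (F : α → ℝ) :
    EL e n (fun l => (l.map F).prod) = e F ^ n := by
  induction n with
  | zero => simp [EL]
  | succ n ih =>
    have h1 : EL e (n + 1) (fun l => (l.map F).prod) = e fun a => (e F ^ n) * F a := by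
      simp only [EL]
      congr 1
      funext a
      have h2 := (he.EL n).smul (F a) (fun l => (l.map F).prod)
      simp only [List.map_cons, List.prod_cons]
      rw [h2, ih]
      ring
    rw [h1, he.smul, pow_succ]

/-- law of one entry -/
theorem EL_getD {α : Type} {e : (α → ℝ) → ℝ} (he : IsExp e) {n i : ℕ} (hi : i < n) (d : α)
    (F : α → ℝ) : EL e n (fun l => F (l.getD i d)) = e F := by
  induction n generalizing i with
  | zero => omega
  | succ n ih =>
    rw [EL]
    cases i with
    | zero =>
      congr 1
      funext a
      exact (he.EL n).const (F a)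
    | succ i =>
      have h1 : (fun a : α => EL e n fun l => F ((a :: l).getD (i + 1) d)) = fun _ => e F := by
        funext a
        have := ih (i := i) (by omega)
        simpa using this
      rw [h1, he.const]

end Vale.Agent.Lib.P328
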