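import Mathlib
import Vale.Agent.Lib.P328.ProbA

/-!
P328, module ProbB: uniform blocks of bits.
-/

namespace Vale.Agent.Lib.P328

open Vale.Agent.Lib.Common.PolyTime

/-- uniform counting form -/
theorem EL_ebit_eq (q : ℕ) (F : List Bool → ℝ) :
    EL ebit q F = (∑ ρ : Fin q → Bool, F (List.ofFn ρ)) / 2 ^ q := by
  induction q generalizing F with
  | zero => simp [EL]
  | succ q ih =>
    have h1 : EL ebit (q + 1) F = ebit fun a => EL ebit q fun l => F (a :: l) := rfl
    rw [h1]
    simp only [ih]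
    have h2 : (∑ ρ : Fin (q + 1) → Bool, F (List.ofFn ρ)) =
        ∑ x : Bool × (Fin q → Bool), F (x.1 :: List.ofFn x.2) := by
      rw [← (Fin.consEquiv (fun _ : Fin (q + 1) => Bool)).sum_comp]
      apply Finset.sum_congr rfl
      intro x _
      congr 1
      show List.ofFn (Fin.cons x.1 x.2) = _
      rw [List.ofFn_cons]
    rw [h2, Fintype.sum_prod_type, Fintype.sum_bool]
    unfold ebit
    rw [pow_succ]
    field_simp
    ring

private theorem sum_range_two_mul (n : ℕ) (F : ℕ → ℝ) :
    ∑ i ∈ Finset.range (2 * n), F i = ∑ i ∈ Finset.range n, (F (2 * i) + F (2 * i + 1)) := by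
  induction n with
  | zero => simp
  | succ n ih =>
    rw [Finset.sum_range_succ, ← ih, show 2 * (n + 1) = 2 * n + 1 + 1 by ring,
      Finset.sum_range_succ, Finset.sum_range_succ]
    ring

/-- a uniform block is a uniform number -/
theorem eblk_eq (B : ℕ) (F : ℕ → ℝ) :
    eblk B (fun l => F (Common.PolyTime.bval l)) = (∑ i ∈ Finset.range (2 ^ B), F i) / 2 ^ B := by
  induction B generalizing F with
  | zero => simp [eblk, EL, bval]
  | succ B ih =>
    have h1 : eblk (B + 1) (fun l => F (Common.PolyTime.bval l)) =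
      ebit fun a => eblk B fun l => (fun v => F (Nat.bit a v)) (Common.PolyTime.bval l) := rfl
    rw [h1]
    have h2 : ∀ a, (eblk B fun l => (fun v => F (Nat.bit a v)) (Common.PolyTime.bval l)) =
        (∑ i ∈ Finset.range (2 ^ B), F (Nat.bit a i)) / 2 ^ B := fun a => ih fun v => F (Nat.bit a v)
    simp only [h2]
    unfold ebit
    rw [pow_succ', sum_range_two_mul, Finset.sum_add_distrib]
    have h3 : ∀ i, Nat.bit false i = 2 * i := fun i => rfl
    have h4 : ∀ i, Nat.bit true i = 2 * i + 1 := fun i => rfl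
    simp only [h3, h4]
    rw [pow_succ']
    field_simp

/-- the first bit of a uniform block is fair -/
theorem eblk_headD {B : ℕ} (hB : 1 ≤ B) (F : Bool → ℝ) :
    eblk B (fun l => F (l.headD false)) = ebit F := by
  obtain ⟨n, rfl⟩ : ∃ n, B = n + 1 := ⟨B - 1, by omega⟩
  have h1 : eblk (n + 1) (fun l => F (l.headD false)) =
      ebit fun a => EL ebit n fun _ => F a := rfl
  rw [h1]
  have h2 : ∀ a, (EL ebit n fun _ => F a) = F a := fun a => (ebit_isExp.EL n).const (F a)
  simp only [h2]

private theorem sum_mod_mul (m q : ℕ) (g : ℕ → ℝ) :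
    ∑ i ∈ Finset.range (m * q), g (i % m) = q * ∑ i ∈ Finset.range m, g i := by
  induction q with
  | zero => simp
  | succ q ih =>
    rw [mul_add, mul_one, Finset.sum_range_add, ih]
    have h1 : ∑ x ∈ Finset.range m, g ((m * q + x) % m) = ∑ x ∈ Finset.range m, g x := by
      apply Finset.sum_congr rfl
      intro x hx
      rw [Nat.mul_add_mod, Nat.mod_eq_of_lt (Finset.mem_range.mp hx)]
    rw [h1]
    push_cast
    ring

private theorem sum_mod (m N : ℕ) (g : ℕ → ℝ) (hm : 0 < m) :
    ∑ i ∈ Finset.range N, g (i % m) = (N / m : ℕ) * ∑ i ∈ Finset.range m, g i +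
      ∑ i ∈ Finset.range (N % m), g i := by
  conv_lhs => rw [← Nat.div_add_mod N m]
  rw [Finset.sum_range_add, sum_mod_mul]
  congr 1
  apply Finset.sum_congr rfl
  intro x hx
  rw [Nat.mul_add_mod, Nat.mod_eq_of_lt ((Finset.mem_range.mp hx).trans (Nat.mod_lt _ hm))]

/-- residues of a uniform block are almost uniform: each residue class modulo `m` has `⌊2^B/m⌋` or
`⌊2^B/m⌋ + 1` elements -/
theorem mod_close (B : ℕ) {m : ℕ} (hm : 0 < m) (g : ℕ → ℝ) (hg : ∀ i, 0 ≤ g i ∧ g i ≤ 1) :
    |eblk B (fun l => g (bval l % m)) - (∑ i ∈ Finset.range m, g i) / m| ≤ (m : ℝ) / 2 ^ B := by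
  have h1 := eblk_eq B (fun v => g (v % m))
  rw [h1]
  have h2 := sum_mod m (2 ^ B) g hm
  rw [h2]
  set N : ℕ := 2 ^ B with hN
  have hNr : (2 : ℝ) ^ B = (N : ℝ) := by
    rw [hN]
    push_cast
    rfl
  rw [hNr]
  have hNpos : (0 : ℝ) < N := by
    rw [← hNr]
    positivity
  have hmr : (0 : ℝ) < m := by exact_mod_cast hm
  set q : ℕ := N / m with hq
  set r : ℕ := N % m with hr
  have hqr : (N : ℝ) = m * q + r := by
    have : N = m * q + r := (Nat.div_add_mod N m).symm
    exact_mod_cast this
  have hrm : (r : ℝ) ≤ m := by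
    exact_mod_cast (Nat.mod_lt N hm).le
  have hr0 : (0 : ℝ) ≤ r := Nat.cast_nonneg _
  set S := ∑ i ∈ Finset.range m, g i with hS
  set R := ∑ i ∈ Finset.range r, g i with hR
  have hS0 : 0 ≤ S := Finset.sum_nonneg fun i _ => (hg i).1
  have hS1 : S ≤ m := by
    calc S ≤ ∑ i ∈ Finset.range m, (1 : ℝ) := Finset.sum_le_sum fun i _ => (hg i).2
      _ = m := by simp
  have hR0 : 0 ≤ R := Finset.sum_nonneg fun i _ => (hg i).1
  have hR1 : R ≤ r := by
    calc R ≤ ∑ i ∈ Finset.range r, (1 : ℝ) := Finset.sum_le_sum fun i _ => (hg i).2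
      _ = r := by simp
  have h3 : (q * S + R) / N - S / m = (R - r * (S / m)) / N := by
    have h4 : (q : ℝ) = (N - r) / m := by
      field_simp
      linarith
    rw [h4]
    field_simp
    ring
  rw [h3, abs_div, abs_of_pos hNpos]
  apply div_le_div_of_nonneg_right _ hNpos.le
  have h5 : 0 ≤ S / m := div_nonneg hS0 hmr.le
  have h6 : S / m ≤ 1 := by
    rw [div_le_one hmr]
    exact hS1
  have h7 : 0 ≤ r * (S / m) := mul_nonneg hr0 h5
  have h8 : r * (S / m) ≤ r := mul_le_of_le_one_right hr0 h6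
  rw [abs_le]
  constructor
  · linarith
  · linarith

/-- a uniform block is below `p` with probability close to `min 1 p` -/
theorem thr_close (B : ℕ) {p : ℝ} (hp : 0 ≤ p) (x y : ℝ) (hx : 0 ≤ x ∧ x ≤ 1)
    (hy : 0 ≤ y ∧ y ≤ 1) :
    |eblk B (fun l => if (bval l : ℝ) / 2 ^ B < p then x else y) -
      (min 1 p * x + (1 - min 1 p) * y)| ≤ 1 / 2 ^ B := by
  have h1 := eblk_eq B (fun v => if (v : ℝ) / 2 ^ B < p then x else y)
  rw [h1]
  set N : ℕ := 2 ^ B with hN
  have hNr : (2 : ℝ) ^ B = (N : ℝ) := by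
    rw [hN]
    push_cast
    rfl
  rw [hNr]
  have hNpos : (0 : ℝ) < N := by
    rw [← hNr]
    positivity
  set c : ℕ := min N ⌈p * N⌉₊ with hc
  have hcN : c ≤ N := min_le_left _ _
  have h2 : ∑ i ∈ Finset.range N, (if (i : ℝ) / N < p then x else y) = c * x + (N - c) * y := by
    rw [Finset.sum_ite, Finset.sum_const, Finset.sum_const]
    have h3 : (Finset.range N).filter (fun i : ℕ => (i : ℝ) / N < p) = Finset.range c := by
      ext i
      rw [Finset.mem_filter, Finset.mem_range, Finset.mem_range, hc, lt_min_iff, Nat.lt_ceil,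
        div_lt_iff₀ hNpos]
    have h4 : ((Finset.range N).filter (fun i : ℕ => ¬ (i : ℝ) / N < p)).card = N - c := by
      have h5 := Finset.card_filter_add_card_filter_not (s := Finset.range N)
        (fun i : ℕ => (i : ℝ) / N < p)
      rw [h3, Finset.card_range, Finset.card_range] at h5
      omega
    rw [h3, h4, Finset.card_range, nsmul_eq_mul, nsmul_eq_mul, Nat.cast_sub hcN]
  rw [h2]
  have h6 : (c * x + (N - c) * y) / N - (min 1 p * x + (1 - min 1 p) * y) =
      ((c : ℝ) / N - min 1 p) * (x - y) := by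
    field_simp
    ring
  rw [h6, abs_mul]
  have h7 : |x - y| ≤ 1 := by
    rw [abs_le]
    constructor
    · linarith [hx.1, hy.2]
    · linarith [hx.2, hy.1]
  have h8 : |(c : ℝ) / N - min 1 p| ≤ 1 / N := by
    rcases le_or_gt 1 p with h | h
    · have h9 : c = N := by
        apply le_antisymm hcN
        rw [hc, le_min_iff]
        refine ⟨le_rfl, ?_⟩
        have h10 : (N : ℝ) ≤ p * N := by nlinarith
        exact_mod_cast h10.trans (Nat.le_ceil _)
      rw [h9, min_eq_left h, div_self hNpos.ne', sub_self, abs_zero]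
      positivity
    · have h9 : ⌈p * N⌉₊ ≤ N := by
        rw [Nat.ceil_le]
        nlinarith
      have h10 : c = ⌈p * N⌉₊ := min_eq_right h9
      have h11 : p * N ≤ c := by
        rw [h10]
        exact Nat.le_ceil _
      have h12 : (c : ℝ) < p * N + 1 := by
        rw [h10]
        exact Nat.ceil_lt_add_one (by positivity)
      rw [min_eq_right h.le, abs_le]
      have h13 : (c : ℝ) / N - p = (c - p * N) / N := by
        field_simp
      rw [h13]
      constructor
      · have : 0 ≤ (c - p * N) / N := div_nonneg (by linarith) hNpos.le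
        have h14 : (0 : ℝ) ≤ 1 / N := by positivity
        linarith
      · apply div_le_div_of_nonneg_right _ hNpos.le
        linarith
  calc |(c : ℝ) / N - min 1 p| * |x - y| ≤ |(c : ℝ) / N - min 1 p| * 1 :=
        mul_le_mul_of_nonneg_left h7 (abs_nonneg _)
    _ ≤ 1 / N := by
        rw [mul_one]
        exact h8

end Vale.Agent.Lib.P328
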