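import Mathlib
import Vale.Agent.Lib.P328.ProbB
import Vale.Agent.Lib.P328.BridgeB

/-!
P328, module ChainSim: the chain with random bits is close to the chain Pop.
-/

namespace Vale.Agent.Lib.P328

open Vale.Agent.Lib.Common.PolyTime

/-! ### small tools -/

theorem IsExp.close {α : Type} {e : (α → ℝ) → ℝ} (he : IsExp e) {F G : α → ℝ} {t : ℝ}
    (h : ∀ a, |F a - G a| ≤ t) : |e F - e G| ≤ t := by
  rw [← he.sub]
  exact he.abs_le h

theorem IsExp.mem01 {α : Type} {e : (α → ℝ) → ℝ} (he : IsExp e) {F : α → ℝ}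
    (h : ∀ a, 0 ≤ F a ∧ F a ≤ 1) : 0 ≤ e F ∧ e F ≤ 1 := by
  constructor
  · rw [← he.const 0]
    exact he.mono _ _ fun a => (h a).1
  · rw [← he.const 1]
    exact he.mono _ _ fun a => (h a).2

theorem eblk_isExp (B : ℕ) : IsExp (eblk B) := ebit_isExp.EL B

theorem csAvg_close {n : ℕ} (hn : 0 < n) {g h : ℕ → ℝ} {t : ℝ} (hgh : ∀ i < n, |g i - h i| ≤ t) :
    |(∑ i ∈ Finset.range n, g i) / n - (∑ i ∈ Finset.range n, h i) / n| ≤ t := by
  have hn' : (0 : ℝ) < n := by exact_mod_cast hn
  rw [← sub_div, ← Finset.sum_sub_distrib, abs_div, abs_of_pos hn', div_le_iff₀ hn']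
  calc |∑ i ∈ Finset.range n, (g i - h i)| ≤ ∑ i ∈ Finset.range n, |g i - h i| :=
        Finset.abs_sum_le_sum_abs _ _
    _ ≤ ∑ _i ∈ Finset.range n, t := Finset.sum_le_sum fun i hi => hgh i (Finset.mem_range.1 hi)
    _ = t * n := by rw [Finset.sum_const, Finset.card_range, nsmul_eq_mul]; ring

theorem modU_close (B : ℕ) {m : ℕ} (hm : 0 < m) (g h : ℕ → ℝ) (hg : ∀ i, 0 ≤ g i ∧ g i ≤ 1) {t : ℝ}
    (hgh : ∀ i < m, |g i - h i| ≤ t) :
    |eblk B (fun l => g (modU m l)) - (∑ i ∈ Finset.range m, h i) / m| ≤ (m : ℝ) / 2 ^ B + t := by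
  have e1 : (fun l => g (modU m l)) = fun l => g (bval l % m) := by
    funext l
    unfold modU
    rw [if_neg (by omega)]
  rw [e1]
  have h1 := mod_close B hm g hg
  have h2 := csAvg_close hm hgh
  calc _ = |(eblk B (fun l => g (bval l % m)) - (∑ i ∈ Finset.range m, g i) / m) +
        ((∑ i ∈ Finset.range m, g i) / m - (∑ i ∈ Finset.range m, h i) / m)| := by
        congr 1; ring
    _ ≤ _ := abs_add_le _ _
    _ ≤ _ := add_le_add h1 h2

theorem csTw_pos {m n : ℕ} (τ : Fin m → Fin n → ℕ) (X : Fin m → Fin n → ℕ) : 0 < tw τ X :=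
  Finset.prod_pos fun _ _ => Finset.prod_pos fun _ _ => phi_pos _ _

theorem csAcc_mem {m n : ℕ} (τ : Fin m → Fin n → ℕ) (X Y : Fin m → Fin n → ℕ) :
    0 ≤ acc τ X Y ∧ acc τ X Y ≤ 1 := by
  unfold acc
  exact ⟨le_min zero_le_one (div_pos (csTw_pos _ _) (csTw_pos _ _)).le, min_le_left _ _⟩

theorem csMix_mem {a x y : ℝ} (ha : 0 ≤ a ∧ a ≤ 1) (hx : 0 ≤ x ∧ x ≤ 1) (hy : 0 ≤ y ∧ y ≤ 1) :
    0 ≤ a * x + (1 - a) * y ∧ a * x + (1 - a) * y ≤ 1 := by
  have h1 : 0 ≤ a * x := mul_nonneg ha.1 hx.1
  have h2 : 0 ≤ (1 - a) * y := mul_nonneg (by linarith [ha.2]) hy.1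
  have h3 : a * x ≤ a := mul_le_of_le_one_right ha.1 hx.2
  have h4 : (1 - a) * y ≤ 1 - a := mul_le_of_le_one_right (by linarith [ha.2]) hy.2
  constructor <;> linarith

theorem csPmin_mem {m n : ℕ} (τ : Fin m → Fin n → ℕ) (o k : Fin m) (l l' : Fin n)
    {f : (Fin m → Fin n → ℕ) → ℝ} (hf : ∀ Y, 0 ≤ f Y ∧ f Y ≤ 1) (X : Fin m → Fin n → ℕ) :
    0 ≤ Pmin τ o k l l' f X ∧ Pmin τ o k l l' f X ≤ 1 := by
  unfold Pmin
  split_ifs with h
  · exact hf X
  · have hM : (0 : ℝ) < (lineM X o k l l' : ℝ) + 1 := by positivity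
    have hs : ∀ u ∈ Finset.range (lineM X o k l l' + 1),
        0 ≤ acc τ X (linePt X o k l l' u) * f (linePt X o k l l' u) +
          (1 - acc τ X (linePt X o k l l' u)) * f X ∧
        acc τ X (linePt X o k l l' u) * f (linePt X o k l l' u) +
          (1 - acc τ X (linePt X o k l l' u)) * f X ≤ 1 := fun u _ =>
      csMix_mem (csAcc_mem _ _ _) (hf _) (hf _)
    have h0 := Finset.sum_nonneg fun u hu => (hs u hu).1
    have h1 := Finset.sum_le_sum fun u hu => (hs u hu).2
    rw [Finset.sum_const, Finset.card_range, nsmul_eq_mul, mul_one] at h1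
    push_cast at h1
    set S : ℝ := ∑ u ∈ Finset.range (lineM X o k l l' + 1),
      (acc τ X (linePt X o k l l' u) * f (linePt X o k l l' u) +
        (1 - acc τ X (linePt X o k l l' u)) * f X) with hS
    have h2 := div_nonneg h0 (by positivity : (0 : ℝ) ≤ 2 * ((lineM X o k l l' : ℝ) + 1))
    have h3 : S / (2 * ((lineM X o k l l' : ℝ) + 1)) ≤ 1 / 2 := by
      rw [div_le_iff₀ (by positivity)]
      linarith
    have h4 := hf X
    constructor <;> linarith

theorem Pop_mem {m n : ℕ} (hm : 0 < m) (hn : 0 < n) (τ : Fin m → Fin n → ℕ) (o : Fin m)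
    {f : (Fin m → Fin n → ℕ) → ℝ} (hf : ∀ Y, 0 ≤ f Y ∧ f Y ≤ 1) (X : Fin m → Fin n → ℕ) :
    0 ≤ Pop τ o f X ∧ Pop τ o f X ≤ 1 := by
  unfold Pop
  simp only [Fintype.card_fin]
  have hm' : (0 : ℝ) < m := by exact_mod_cast hm
  have hn' : (0 : ℝ) < n := by exact_mod_cast hn
  have hd : (0 : ℝ) < (m : ℝ) * (n : ℝ) ^ 2 := by positivity
  constructor
  · apply div_nonneg _ hd.le
    exact Finset.sum_nonneg fun k _ => Finset.sum_nonneg fun l _ => Finset.sum_nonneg fun l' _ =>
      (csPmin_mem τ o k l l' hf X).1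
  · rw [div_le_one hd]
    calc _ ≤ ∑ _k : Fin m, ∑ _l : Fin n, ∑ _l' : Fin n, (1 : ℝ) :=
          Finset.sum_le_sum fun k _ => Finset.sum_le_sum fun l _ => Finset.sum_le_sum fun l' _ =>
            (csPmin_mem τ o k l l' hf X).2
      _ = _ := by
          simp only [Finset.sum_const, Finset.card_univ, Fintype.card_fin, nsmul_eq_mul]
          ring

/-! ### one minor -/

/-- the random bit step in one minor -/
noncomputable def minorE (o B : ℕ) (W X : List (List Bn)) (k l l' : ℕ)
    (F : List (List Bn) → ℝ) : ℝ :=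
  eblk B fun z => eblk B fun v => eblk B fun w => F (stepB o B W X k l l' z v w)

theorem minorE_mem (o B : ℕ) (W X : List (List Bn)) (k l l' : ℕ)
    {F : List (List Bn) → ℝ} (hF : ∀ Y, 0 ≤ F Y ∧ F Y ≤ 1) :
    0 ≤ minorE o B W X k l l' F ∧ minorE o B W X k l l' F ≤ 1 :=
  (eblk_isExp B).mem01 fun _ => (eblk_isExp B).mem01 fun _ => (eblk_isExp B).mem01 fun _ => hF _

theorem csMinor_close {m n B : ℕ} (hB : 1 ≤ B) {r : Fin m → ℕ} {c : Fin n → ℕ}
    {X : List (List Bn)} (hX : WF m n X) (hT : toT m n X ∈ tab r c) (o k : Fin m) (l l' : Fin n)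
    (W : List (List Bn)) (f : (Fin m → Fin n → ℕ) → ℝ) (hf : ∀ Y, 0 ≤ f Y ∧ f Y ≤ 1) :
    |minorE o B W X k l l' (fun Y => f (toT m n Y)) - Pmin (toT m n W) o k l l' f (toT m n X)| ≤
      ((r o : ℝ) + 2) / 2 ^ B := by
  have hE := eblk_isExp B
  have h2B : (0 : ℝ) < 2 ^ B := by positivity
  have hpos : (0 : ℝ) ≤ ((r o : ℝ) + 2) / 2 ^ B := by positivity
  by_cases hk : k = o
  · have e1 : minorE o B W X k l l' (fun Y => f (toT m n Y)) = f (toT m n X) := by
      unfold minorE stepB
      simp only [hk, if_true, hE.const]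
    have e2 : Pmin (toT m n W) o k l l' f (toT m n X) = f (toT m n X) := by
      unfold Pmin
      rw [if_pos (Or.inl hk)]
    rw [e1, e2, sub_self, abs_zero]
    exact hpos
  by_cases hl : l = l'
  · have e1 : minorE o B W X k l l' (fun Y => f (toT m n Y)) = f (toT m n X) := by
      unfold minorE stepB
      simp only [hl, if_true, ite_self, hE.const]
    have e2 : Pmin (toT m n W) o k l l' f (toT m n X) = f (toT m n X) := by
      unfold Pmin
      rw [if_pos (Or.inr hl)]
    rw [e1, e2, sub_self, abs_zero]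
    exact hpos
  have hk' : (k : ℕ) ≠ (o : ℕ) := fun h => hk (Fin.ext h)
  have hl' : (l : ℕ) ≠ (l' : ℕ) := fun h => hl (Fin.ext h)
  set τ := toT m n W with hτ
  set x := toT m n X with hx
  set M := lineM x o k l l' with hM
  -- the position on the line
  set g : ℕ → ℝ := fun u => acc τ x (linePt x o k l l' u) * f (linePt x o k l l' u) +
    (1 - acc τ x (linePt x o k l l' u)) * f x with hg
  have hg01 : ∀ u, 0 ≤ g u ∧ g u ≤ 1 := fun u => csMix_mem (csAcc_mem _ _ _) (hf _) (hf _)
  set H : ℝ := eblk B fun v => eblk B fun w => f (toT m n (moveA B W X o k l l' v w)) with hH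
  have eG : minorE o B W X k l l' (fun Y => f (toT m n Y)) = (H + f x) / 2 := by
    unfold minorE stepB
    simp only [if_neg hk', if_neg hl']
    have : (fun z : List Bool => eblk B fun v => eblk B fun w =>
        f (toT m n (bif z.headD false then X else moveA B W X o k l l' v w))) =
        fun z => (fun b : Bool => if b = true then f x else H) (z.headD false) := by
      funext z
      cases z.headD false
      · simp [hH]
      · simp [hE.const, hx]
    rw [this, eblk_headD hB (fun b : Bool => if b = true then f x else H)]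
    simp [ebit]
  -- the acceptance step
  have hin : ∀ v, |(eblk B fun w => f (toT m n (moveA B W X o k l l' v w))) -
      g (bval v % (M + 1))| ≤ 1 / 2 ^ B := by
    intro v
    set Y := mvTab X o k l l' (newKL X o k l l' v) with hY
    have hYt : toT m n Y = linePt x o k l l' (bval v % (M + 1)) := toT_mvTab hX hk hl v
    have hdiff : ∀ (i : Fin m) (j : Fin n), ¬ ((i = o ∨ i = k) ∧ (j = l ∨ j = l')) →
        toT m n X i j = toT m n Y i j := by
      intro i j hij
      rw [hYt]
      unfold linePt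
      by_cases h1 : i = k
      · subst h1
        have h2 : j ≠ l ∧ j ≠ l' := by
          constructor <;> intro h <;> exact hij ⟨Or.inr rfl, by simp [h]⟩
        rw [Function.update_self, Function.update_of_ne h2.2, Function.update_of_ne h2.1]
      · rw [Function.update_of_ne h1]
        by_cases h3 : i = o
        · subst h3
          have h2 : j ≠ l ∧ j ≠ l' := by
            constructor <;> intro h <;> exact hij ⟨Or.inl rfl, by simp [h]⟩
          rw [Function.update_self, Function.update_of_ne h2.2, Function.update_of_ne h2.1]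
        · rw [Function.update_of_ne h3]
    have e1 : (fun w => f (toT m n (moveA B W X o k l l' v w))) =
        fun w => if (bval w : ℝ) / 2 ^ B < tw τ (toT m n Y) / tw τ x then f (toT m n Y) else f x := by
      funext w
      have h1 := accA_iff (B := B) (W := W) (X := X) (Y := Y) hk hl hdiff w
      unfold moveA
      rw [← hY]
      by_cases hc : accA B W X Y o k l l' w = true
      · rw [hc, cond_true, if_pos (h1.1 hc)]
      · have hc' : accA B W X Y o k l l' w = false := by simpa using hc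
        rw [hc', cond_false, if_neg (fun h => hc (h1.2 h))]
    rw [e1]
    have h1 := thr_close B (div_pos (csTw_pos τ (toT m n Y)) (csTw_pos τ x)).le (f (toT m n Y)) (f x)
      (hf _) (hf _)
    rw [hYt] at h1 ⊢
    exact h1
  have hHg : |H - (∑ u ∈ Finset.range (M + 1), g u) / ((M + 1 : ℕ) : ℝ)| ≤
      ((M + 1 : ℕ) : ℝ) / 2 ^ B + 1 / 2 ^ B := by
    have h1 : |H - eblk B (fun v => g (bval v % (M + 1)))| ≤ 1 / 2 ^ B := hE.close hin
    have h2 := mod_close B (Nat.succ_pos M) g hg01
    calc _ = |(eblk B (fun v => g (bval v % (M + 1))) -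
            (∑ u ∈ Finset.range (M + 1), g u) / ((M + 1 : ℕ) : ℝ)) +
          (H - eblk B (fun v => g (bval v % (M + 1))))| := by congr 1; ring
      _ ≤ _ := abs_add_le _ _
      _ ≤ _ := add_le_add h2 h1
  have eP : Pmin τ o k l l' f x = ((∑ u ∈ Finset.range (M + 1), g u) / ((M + 1 : ℕ) : ℝ) + f x) / 2 := by
    unfold Pmin
    rw [if_neg (by push Not; exact ⟨hk, hl⟩)]
    change f x / 2 + (∑ u ∈ Finset.range (M + 1), g u) / (2 * ((M : ℝ) + 1)) = _
    push_cast
    have : (0 : ℝ) < (M : ℝ) + 1 := by positivity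
    generalize (∑ u ∈ Finset.range (M + 1), g u) = Sg
    field_simp
    ring
  rw [eG, eP]
  have hMr : (M : ℝ) ≤ r o := by exact_mod_cast lineM_le hT hl
  have h3 : ((M + 1 : ℕ) : ℝ) / 2 ^ B + 1 / 2 ^ B ≤ ((r o : ℝ) + 2) / 2 ^ B := by
    rw [← add_div]
    push_cast
    exact div_le_div_of_nonneg_right (by linarith) h2B.le
  generalize (∑ u ∈ Finset.range (M + 1), g u) / ((M + 1 : ℕ) : ℝ) = Sg at hHg ⊢
  have h4 : (H + f x) / 2 - (Sg + f x) / 2 = (H - Sg) / 2 := by ring
  have h5 := hHg.trans h3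
  have h6 := abs_nonneg (H - Sg)
  rw [h4, abs_div, abs_two]
  linarith

/-! ### one step -/

theorem estep_unfold (m n o B : ℕ) (W X : List (List Bn)) (F : List (List Bn) → ℝ) :
    estep B (fun u => F (stepA m n o B W X u)) =
      eblk B fun a => eblk B fun b => eblk B fun c =>
        minorE o B W X (modU m a) (modU n b) (modU n c) F := rfl

/-- one step: `mod_close` for the row, the two columns and the position on the line, `thr_close` for
the acceptance, `eblk_headD` for the lazy bit; the six blocks are independent (`EL` unfolds to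
six nested expectations; the operations `e`, average are averages, so errors add up). -/
theorem step_close {m n B : ℕ} (hB : 1 ≤ B) {r : Fin m → ℕ} {c : Fin n → ℕ}
    {X : List (List Bn)} (hX : WF m n X) (hT : toT m n X ∈ tab r c) (o : Fin m) (hn : 0 < n)
    (W : List (List Bn)) (f : (Fin m → Fin n → ℕ) → ℝ) (hf : ∀ Y, 0 ≤ f Y ∧ f Y ≤ 1) :
    |estep B (fun u => f (toT m n (stepA m n o B W X u))) - Pop (toT m n W) o f (toT m n X)| ≤
      ((m : ℝ) + 2 * n + r o + 2) / 2 ^ B := by
  have hE := eblk_isExp B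
  have hm : 0 < m := lt_of_le_of_lt (Nat.zero_le _) o.2
  have hm' : (0 : ℝ) < m := by exact_mod_cast hm
  have hn' : (0 : ℝ) < n := by exact_mod_cast hn
  set F : List (List Bn) → ℝ := fun Y => f (toT m n Y) with hF
  have hF01 : ∀ Y, 0 ≤ F Y ∧ F Y ≤ 1 := fun Y => hf _
  set P : ℕ → ℕ → ℕ → ℝ := fun k l l' =>
    if h : k < m ∧ l < n ∧ l' < n then
      Pmin (toT m n W) o ⟨k, h.1⟩ ⟨l, h.2.1⟩ ⟨l', h.2.2⟩ f (toT m n X) else 0 with hP
  set t0 : ℝ := ((r o : ℝ) + 2) / 2 ^ B with ht0
  have h0 : ∀ k < m, ∀ l < n, ∀ l' < n, |minorE o B W X k l l' F - P k l l'| ≤ t0 := by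
    intro k hk l hl l' hl'
    have h := csMinor_close hB hX hT o ⟨k, hk⟩ ⟨l, hl⟩ ⟨l', hl'⟩ W f hf
    rw [hP]
    simp only [hk, hl, hl', and_self, dif_pos]
    exact h
  have h1 : ∀ k < m, ∀ l < n,
      |eblk B (fun c => minorE o B W X k l (modU n c) F) -
        (∑ l' ∈ Finset.range n, P k l l') / n| ≤ (n : ℝ) / 2 ^ B + t0 := by
    intro k hk l hl
    exact modU_close B hn (fun l' => minorE o B W X k l l' F) (P k l)
      (fun l' => minorE_mem _ _ _ _ _ _ _ hF01) (fun l' hl' => h0 k hk l hl l' hl')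
  have h2 : ∀ k < m,
      |eblk B (fun b => eblk B (fun c => minorE o B W X k (modU n b) (modU n c) F)) -
        (∑ l ∈ Finset.range n, (∑ l' ∈ Finset.range n, P k l l') / n) / n| ≤
          (n : ℝ) / 2 ^ B + ((n : ℝ) / 2 ^ B + t0) := by
    intro k hk
    exact modU_close B hn (fun l => eblk B (fun c => minorE o B W X k l (modU n c) F))
      (fun l => (∑ l' ∈ Finset.range n, P k l l') / n)
      (fun l => hE.mem01 fun _ => minorE_mem _ _ _ _ _ _ _ hF01) (fun l hl => h1 k hk l hl)
  have h3 : |eblk B (fun a => eblk B (fun b => eblk B (fun c =>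
        minorE o B W X (modU m a) (modU n b) (modU n c) F))) -
        (∑ k ∈ Finset.range m, (∑ l ∈ Finset.range n, (∑ l' ∈ Finset.range n, P k l l') / n) / n) / m|
          ≤ (m : ℝ) / 2 ^ B + ((n : ℝ) / 2 ^ B + ((n : ℝ) / 2 ^ B + t0)) :=
    modU_close B hm (fun k => eblk B (fun b => eblk B (fun c =>
        minorE o B W X k (modU n b) (modU n c) F)))
      (fun k => (∑ l ∈ Finset.range n, (∑ l' ∈ Finset.range n, P k l l') / n) / n)
      (fun k => hE.mem01 fun _ => hE.mem01 fun _ => minorE_mem _ _ _ _ _ _ _ hF01)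
      (fun k hk => h2 k hk)
  have e1 : estep B (fun u => f (toT m n (stepA m n o B W X u))) =
      eblk B (fun a => eblk B (fun b => eblk B (fun c =>
        minorE o B W X (modU m a) (modU n b) (modU n c) F))) := estep_unfold m n o B W X F
  have e2 : Pop (toT m n W) o f (toT m n X) =
      (∑ k ∈ Finset.range m, (∑ l ∈ Finset.range n, (∑ l' ∈ Finset.range n, P k l l') / n) / n) / m := by
    unfold Pop
    simp only [Fintype.card_fin]
    have e3 : ∀ k l, (∑ l' ∈ Finset.range n, P k l l') / (n : ℝ) =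
        (∑ l' ∈ Finset.range n, P k l l') * (n : ℝ)⁻¹ := fun _ _ => div_eq_mul_inv _ _
    simp only [div_eq_mul_inv, ← Finset.sum_mul]
    rw [Finset.sum_range]
    simp only [Finset.sum_range]
    have e4 : ∀ (k : Fin m) (l l' : Fin n), P k l l' =
        Pmin (toT m n W) o k l l' f (toT m n X) := by
      intro k l l'
      rw [hP]
      simp only [k.2, l.2, l'.2, and_self, dif_pos]
    simp only [e4]
    rw [mul_inv, ← inv_pow]
    ring
  rw [e1, e2]
  refine le_trans h3 (le_of_eq ?_)
  rw [ht0]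
  ring

/-- `T` steps: induction on `T`; `erun B (T+1) (fun us => f (toT (runA .. X us)))` is the
expectation over the first step `u` of `erun B T (fun us => f (toT (runA .. (stepA .. X u) us)))`;
the inner term is within `T η` of `Pop^[T] f (toT (stepA .. X u))`, then apply `step_close` to
`Pop^[T] f` (values in `[0,1]` by `Pop_mem`). -/
theorem run_close {m n B : ℕ} (hB : 1 ≤ B) {r : Fin m → ℕ} {c : Fin n → ℕ}
    {X : List (List Bn)} (hX : WF m n X) (hT : toT m n X ∈ tab r c) (o : Fin m) (hn : 0 < n)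
    (W : List (List Bn)) (f : (Fin m → Fin n → ℕ) → ℝ) (hf : ∀ Y, 0 ≤ f Y ∧ f Y ≤ 1) (T : ℕ) :
    |erun B T (fun us => f (toT m n (runA m n o B W X us))) -
        (Pop (toT m n W) o)^[T] f (toT m n X)| ≤
      T * (((m : ℝ) + 2 * n + r o + 2) / 2 ^ B) := by
  have hm : 0 < m := lt_of_le_of_lt (Nat.zero_le _) o.2
  have hS : IsExp (estep B) := (eblk_isExp B).EL 6
  have hiter : ∀ T Y, 0 ≤ (Pop (toT m n W) o)^[T] f Y ∧ (Pop (toT m n W) o)^[T] f Y ≤ 1 := by
    intro T
    induction T with
    | zero => exact hf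
    | succ T ih =>
      intro Y
      rw [Function.iterate_succ_apply']
      exact Pop_mem hm hn _ o ih Y
  induction T generalizing X with
  | zero =>
    have e1 : erun B 0 (fun us => f (toT m n (runA m n o B W X us))) = f (toT m n X) := rfl
    rw [e1]
    simp
  | succ T ih =>
    set η : ℝ := ((m : ℝ) + 2 * n + r o + 2) / 2 ^ B with hη
    have e1 : erun B (T + 1) (fun us => f (toT m n (runA m n o B W X us))) =
        estep B (fun u => erun B T (fun us =>
          f (toT m n (runA m n o B W (stepA m n o B W X u) us)))) := rfl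
    have h1 : |estep B (fun u => erun B T (fun us =>
          f (toT m n (runA m n o B W (stepA m n o B W X u) us)))) -
        estep B (fun u => (Pop (toT m n W) o)^[T] f (toT m n (stepA m n o B W X u)))| ≤ T * η := by
      apply hS.close
      intro u
      obtain ⟨h1, h2⟩ := stepA_mem hX hT o.2 hn B W u
      exact ih h1 h2
    have h2 := step_close hB hX hT o hn W _ (hiter T)
    rw [e1, Function.iterate_succ_apply']
    calc _ = |(estep B (fun u => erun B T (fun us =>
            f (toT m n (runA m n o B W (stepA m n o B W X u) us)))) -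
          estep B (fun u => (Pop (toT m n W) o)^[T] f (toT m n (stepA m n o B W X u)))) +
          (estep B (fun u => (Pop (toT m n W) o)^[T] f (toT m n (stepA m n o B W X u))) -
            Pop (toT m n W) o ((Pop (toT m n W) o)^[T] f) (toT m n X))| := by congr 1; ring
      _ ≤ _ := abs_add_le _ _
      _ ≤ T * η + η := add_le_add h1 h2
      _ = _ := by push_cast; ring

end Vale.Agent.Lib.P328
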