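import Vale.Agent.Lib.P328.Sym

/-!
P328, module Conn: the exchanges with the centre row connect all tables.
-/

namespace Vale.Agent.Lib.P328

open Finset

variable {I J : Type} [Fintype I] [DecidableEq I] [Fintype J] [DecidableEq J]

private theorem conn_mem {r : I → ℕ} {c : J → ℕ} {X : I → J → ℕ} (hX : X ∈ tab r c) :
    (∀ i, ∑ l, X i l = r i) ∧ ∀ l, ∑ i, X i l = c l := by
  have h := (Finset.mem_filter.1 hX).2
  exact h

private theorem conn_sw_o (X : I → J → ℕ) {o k : I} (hk : k ≠ o) (l a j : J) :
    sw X o k l a o j = X o j - (if j = l then 1 else 0) + (if j = a then 1 else 0) := by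
  simp [sw, Function.update_of_ne (Ne.symm hk), e, Pi.single_apply]

private theorem conn_sw_k (X : I → J → ℕ) (o k : I) (l a j : J) :
    sw X o k l a k j = X k j + (if j = l then 1 else 0) - (if j = a then 1 else 0) := by
  simp [sw, e, Pi.single_apply]

private theorem conn_sw_p (X : I → J → ℕ) {o k p : I} (hp : p ≠ o) (hpk : p ≠ k) (l a j : J) :
    sw X o k l a p j = X p j := by
  simp [sw, Function.update_of_ne hp, Function.update_of_ne hpk]

private theorem conn_e (X : I → J → ℕ) (k : I) (l a : J) :
    (X k + e l) a = X k a + (if a = l then 1 else 0) := by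
  simp [e, Pi.single_apply]

/-- the unit switch: row `i` gets a unit of column `a` from row `k` and gives one of column `b` -/
private def conn_sg (X : I → J → ℕ) (i k : I) (a b : J) : I → J → ℕ := fun p q =>
  if p = i then X i q + (if q = a then 1 else 0) - (if q = b then 1 else 0)
  else if p = k then X k q + (if q = b then 1 else 0) - (if q = a then 1 else 0)
  else X p q

private theorem conn_sg_left (X : I → J → ℕ) {o k : I} (hk : k ≠ o) {a b : J} (hab : a ≠ b)
    (hob : 1 ≤ X o b) : conn_sg X o k a b = sw X o k b a := by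
  funext p q
  by_cases hp : p = o
  · subst hp
    rw [conn_sw_o X hk]
    simp only [conn_sg, if_true]
    by_cases h1 : q = a
    · have h2 : q ≠ b := by rw [h1]; exact hab
      simp [h1, hab]
    · by_cases h2 : q = b
      · subst h2
        simp [h1]
      · simp [h1, h2]
  · by_cases hpk : p = k
    · subst hpk
      rw [conn_sw_k]
      simp [conn_sg, hp]
    · rw [conn_sw_p X hp hpk]
      simp [conn_sg, hp, hpk]

private theorem conn_sg_right (X : I → J → ℕ) {o i : I} (hi : i ≠ o) {a b : J} (hab : a ≠ b)
    (hoa : 1 ≤ X o a) : conn_sg X i o a b = sw X o i a b := by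
  funext p q
  by_cases hp : p = i
  · subst hp
    rw [conn_sw_k]
    simp [conn_sg]
  · by_cases hpo : p = o
    · subst hpo
      rw [conn_sw_o X hi]
      simp only [conn_sg, if_neg hp, if_true]
      by_cases h1 : q = a
      · have h2 : q ≠ b := by rw [h1]; exact hab
        subst h1
        simp [h2]
      · by_cases h2 : q = b
        · subst h2
          simp [h1]
        · simp [h1, h2]
    · rw [conn_sw_p X hpo hp]
      simp [conn_sg, hp, hpo]

private theorem conn_three (X : I → J → ℕ) {o i k : I} (hi : i ≠ o) (hk : k ≠ o) (hik : i ≠ k)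
    {a b q : J} (hib : 1 ≤ X i b) (hoq : 1 ≤ X o q) :
    sw (sw (sw X o i q b) o k b a) o i a q = conn_sg X i k a b := by
  funext p j
  by_cases hp : p = i
  · subst hp
    rw [conn_sw_k, conn_sw_p _ hi hik, conn_sw_k]
    simp only [conn_sg, if_true]
    by_cases h1 : j = a <;> by_cases h2 : j = b <;> by_cases h3 : j = q <;>
      simp only [h1, h2, h3, if_true, if_false] <;> (try subst h1) <;> (try subst h2) <;>
      (try subst h3) <;> (try simp only [if_true]) <;> (try split_ifs) <;> omega
  · by_cases hpk : p = k
    · subst hpk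
      rw [conn_sw_p _ hk (Ne.symm hik), conn_sw_k, conn_sw_p _ hk (Ne.symm hik)]
      simp [conn_sg, hp]
    · by_cases hpo : p = o
      · subst hpo
        rw [conn_sw_o _ hi, conn_sw_o _ hk, conn_sw_o _ hi]
        simp only [conn_sg, if_neg hp, if_neg hpk]
        split_ifs <;> first | omega | (subst_vars; omega)
      · rw [conn_sw_p _ hpo hp, conn_sw_p _ hpo hpk, conn_sw_p _ hpo hp]
        simp [conn_sg, hp, hpk]

/-- the unit switch stays in the set of tables and does not change `F` -/
private theorem conn_switch {r : I → ℕ} {c : J → ℕ} {o : I} (hdom : ∀ k, k ≠ o → r k + 2 ≤ r o)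
    (F : (I → J → ℕ) → ℝ)
    (h : ∀ k, k ≠ o → ∀ X ∈ tab r c, ∀ l a, X o l ≠ 0 → (X k + e l) a ≠ 0 →
      F (sw X o k l a) = F X)
    {X : I → J → ℕ} (hX : X ∈ tab r c) {i k : I} (hik : i ≠ k) {a b : J} (hab : a ≠ b)
    (hib : 1 ≤ X i b) (hka : 1 ≤ X k a) :
    conn_sg X i k a b ∈ tab r c ∧ F (conn_sg X i k a b) = F X := by
  by_cases hi : i = o
  · subst hi
    have hk : k ≠ i := Ne.symm hik
    rw [conn_sg_left X hk hab hib]
    have h1 : X i b ≠ 0 := by omega
    have h2 : (X k + e b) a ≠ 0 := by rw [conn_e]; omega
    exact ⟨sw_mem hk hX h1 h2, h k hk X hX b a h1 h2⟩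
  · by_cases hk : k = o
    · subst hk
      rw [conn_sg_right X hi hab hka]
      have h1 : X k a ≠ 0 := by omega
      have h2 : (X i + e a) b ≠ 0 := by rw [conn_e]; omega
      exact ⟨sw_mem hi hX h1 h2, h i hi X hX a b h1 h2⟩
    · obtain ⟨q, hq⟩ : ∃ q, 1 ≤ X o q := by
        by_contra hcon
        have h0 : ∀ q, X o q = 0 := by
          intro q
          by_contra h0
          exact hcon ⟨q, by omega⟩
        have h1 := (conn_mem hX).1 o
        simp [h0] at h1
        have h2 := hdom i hi
        omega
      rw [← conn_three X hi hk hik hib hq]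
      have a1 : X o q ≠ 0 := by omega
      have a2 : (X i + e q) b ≠ 0 := by rw [conn_e]; omega
      have m1 := sw_mem hi hX a1 a2
      have f1 := h i hi X hX q b a1 a2
      have b1 : sw X o i q b o b ≠ 0 := by rw [conn_sw_o X hi]; simp
      have b2 : (sw X o i q b k + e b) a ≠ 0 := by
        rw [conn_e, conn_sw_p X hk (Ne.symm hik)]; omega
      have m2 := sw_mem hk m1 b1 b2
      have f2 := h k hk _ m1 b a b1 b2
      have c1 : sw (sw X o i q b) o k b a o a ≠ 0 := by rw [conn_sw_o _ hk]; simp
      have c2 : (sw (sw X o i q b) o k b a i + e a) q ≠ 0 := by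
        rw [conn_e, conn_sw_p _ hi hik, conn_sw_k]
        by_cases hqb : q = b
        · subst hqb
          simp
          omega
        · simp [hqb]
      have m3 := sw_mem hi m2 c1 c2
      have f3 := h i hi _ m2 a q c1 c2
      exact ⟨m3, by rw [f3, f2, f1]⟩

private theorem conn_dist {X Y : I → J → ℕ} {i k : I} (hik : i ≠ k) {a b : J} (hab : a ≠ b)
    (h1 : X i a < Y i a) (h2 : Y i b < X i b) (h3 : Y k a < X k a) :
    (∑ p, ∑ q, (conn_sg X i k a b p q - Y p q)) < ∑ p, ∑ q, (X p q - Y p q) := by
  have hpt : ∀ p q, (conn_sg X i k a b p q - Y p q) +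
      ((if p = i then (if q = b then 1 else 0) else 0) +
        (if p = k then (if q = a then 1 else 0) else 0)) ≤
      (X p q - Y p q) + (if p = k then (if q = b then 1 else 0) else 0) := by
    intro p q
    by_cases hp : p = i
    · subst hp
      simp only [conn_sg, if_true, if_neg hik]
      by_cases hqa : q = a
      · subst hqa
        simp only [if_true, if_neg hab]
        omega
      · by_cases hqb : q = b
        · subst hqb
          simp only [if_neg hqa, if_true]
          omega
        · simp only [if_neg hqa, if_neg hqb]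
          omega
    · by_cases hpk : p = k
      · subst hpk
        simp only [conn_sg, if_true, if_neg hp]
        by_cases hqa : q = a
        · subst hqa
          simp only [if_true, if_neg hab]
          omega
        · by_cases hqb : q = b
          · subst hqb
            simp only [if_neg hqa, if_true]
            omega
          · simp only [if_neg hqa, if_neg hqb]
            omega
      · simp only [conn_sg, if_neg hp, if_neg hpk]
        omega
  have hs : (∑ p, ∑ q, ((conn_sg X i k a b p q - Y p q) +
      ((if p = i then (if q = b then 1 else 0) else 0) +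
        (if p = k then (if q = a then 1 else 0) else 0)))) ≤
      ∑ p, ∑ q, ((X p q - Y p q) + (if p = k then (if q = b then 1 else 0) else 0)) :=
    Finset.sum_le_sum fun p _ => Finset.sum_le_sum fun q _ => hpt p q
  simp only [Finset.sum_add_distrib] at hs
  have e1 : ∀ (x : I) (y : J), (∑ p, ∑ q, (if p = x then (if q = y then 1 else 0) else 0)) = 1 := by
    intro x y
    rw [Finset.sum_eq_single x]
    · simp
    · intro p _ hp
      simp [hp]
    · intro hx
      exact absurd (Finset.mem_univ x) hx
  rw [e1 i b, e1 k a, e1 k b] at hs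
  omega

private theorem conn_ind {r : I → ℕ} {c : J → ℕ} {o : I} (hdom : ∀ k, k ≠ o → r k + 2 ≤ r o)
    (F : (I → J → ℕ) → ℝ)
    (h : ∀ k, k ≠ o → ∀ X ∈ tab r c, ∀ l a, X o l ≠ 0 → (X k + e l) a ≠ 0 →
      F (sw X o k l a) = F X) {Y : I → J → ℕ} (hY : Y ∈ tab r c) :
    ∀ n : ℕ, ∀ X ∈ tab r c, (∑ p, ∑ q, (X p q - Y p q)) = n → F X = F Y := by
  intro n
  induction n using Nat.strong_induction_on with
  | _ n ih =>
    intro X hX hn
    by_cases hXY : ∀ i a, Y i a ≤ X i a
    · have : X = Y := by
        funext i a
        have h1 : ∑ l, Y i l = ∑ l, X i l := by rw [(conn_mem hX).1 i, (conn_mem hY).1 i]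
        exact ((Finset.sum_eq_sum_iff_of_le fun l _ => hXY i l).1 h1 a (Finset.mem_univ a)).symm
      rw [this]
    · obtain ⟨i, a, hia⟩ : ∃ i a, X i a < Y i a := by
        by_contra hcon
        exact hXY fun i a => not_lt.1 fun hlt => hcon ⟨i, a, hlt⟩
      obtain ⟨b, hb⟩ : ∃ b, Y i b < X i b := by
        by_contra hcon
        have hle : ∀ b, X i b ≤ Y i b := fun b => not_lt.1 fun hlt => hcon ⟨b, hlt⟩
        have h1 : ∑ l, X i l < ∑ l, Y i l :=
          Finset.sum_lt_sum (fun l _ => hle l) ⟨a, Finset.mem_univ a, hia⟩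
        rw [(conn_mem hX).1 i, (conn_mem hY).1 i] at h1
        exact lt_irrefl _ h1
      obtain ⟨k, hk⟩ : ∃ k, Y k a < X k a := by
        by_contra hcon
        have hle : ∀ k, X k a ≤ Y k a := fun k => not_lt.1 fun hlt => hcon ⟨k, hlt⟩
        have h1 : ∑ k, X k a < ∑ k, Y k a :=
          Finset.sum_lt_sum (fun k _ => hle k) ⟨i, Finset.mem_univ i, hia⟩
        rw [(conn_mem hX).2 a, (conn_mem hY).2 a] at h1
        exact lt_irrefl _ h1
      have hik : i ≠ k := by
        intro hik
        subst hik
        omega
      have hab : a ≠ b := by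
        intro hab
        subst hab
        omega
      obtain ⟨hm, hF⟩ := conn_switch hdom F h hX hik hab (by omega) (by omega)
      rw [← hF]
      exact ih _ (by rw [← hn]; exact conn_dist hik hab hia hb hk) _ hm rfl

/-- A function invariant under all exchanges with the centre row is constant on `tab r c`.
Proof.  Unit switches: for rows `i ≠ k`, columns `a ≠ b` with `X i b ≥ 1`, `X k a ≥ 1` the table
`X + e_{i,a} - e_{i,b} - e_{k,a} + e_{k,b}` has the same value of `F`.  If `i = o` or `k = o` this is
one exchange.  Otherwise pick `q` with `X o q ≥ 1` (`r o ≥ 1`): row `i` gives a unit of column `b`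
to `o` and gets one of column `q`; row `k` gives column `a` to `o` and gets column `b`; row `i`
gives column `q` to `o` and gets column `a`.
Connectivity by unit switches: strong induction on the distance `∑ |X i a - Y i a|`.  If `X ≠ Y`
there are `i, a` with `X i a < Y i a`, `b` with `X i b > Y i b` (row sums), `k` with `X k a > Y k a`
(column sums); the switch above reduces the distance. If `I = {o}` the table is unique. -/
theorem conn {r : I → ℕ} {c : J → ℕ} {o : I} (hdom : ∀ k, k ≠ o → r k + 2 ≤ r o)
    (F : (I → J → ℕ) → ℝ)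
    (h : ∀ k, k ≠ o → ∀ X ∈ tab r c, ∀ l a, X o l ≠ 0 → (X k + e l) a ≠ 0 →
      F (sw X o k l a) = F X) :
    ∀ X ∈ tab r c, ∀ Y ∈ tab r c, F X = F Y := by
  intro X hX Y hY
  exact conn_ind hdom F h hY _ X hX rfl

end Vale.Agent.Lib.P328
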