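import Vale.Agent.Lib.P328.Evar

/-!
P328, module EvarMap: splitting and transport of expected conditional variances.
-/

namespace Vale.Agent.Lib.P328

open Finset

variable {α β : Type} [DecidableEq α] [DecidableEq β]

/-- splitting the set along a second label `σ` which is a function of `π` (`π` finer): the
conditional variance is the sum of the conditional variances of the pieces -/
theorem evar_split {γ : Type} [DecidableEq γ] (S : Finset α) (w : α → ℝ) (π : α → β) (σ : α → γ)
    (hσ : ∀ X ∈ S, ∀ Y ∈ S, π X = π Y → σ X = σ Y) (F : α → ℝ) :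
    evar S w π F = ∑ b ∈ S.image σ, evar (S.filter fun X => σ X = b) w π F := by
  unfold evar
  rw [← Finset.sum_fiberwise_of_maps_to (t := S.image σ) (g := σ)
    (fun X hX => Finset.mem_image_of_mem _ hX)]
  refine Finset.sum_congr rfl fun b _ => Finset.sum_congr rfl fun X hX => ?_
  obtain ⟨hXS, hXb⟩ := Finset.mem_filter.1 hX
  have h1 : (S.filter fun X => σ X = b).filter (fun Y => π Y = π X) =
      S.filter fun Y => π Y = π X := by
    ext Y
    simp only [Finset.mem_filter]
    constructor
    · rintro ⟨⟨h1, _⟩, h3⟩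
      exact ⟨h1, h3⟩
    · rintro ⟨h1, h3⟩
      exact ⟨⟨h1, (hσ Y h1 X hXS h3).trans hXb⟩, h3⟩
  unfold cexp
  rw [h1]

/-- transport along an injective map `j : γ → α`, weights multiplied by a positive constant -/
theorem evar_image {γ δ : Type} [DecidableEq γ] [DecidableEq δ] (S : Finset γ) (j : γ → α)
    (hj : Function.Injective j) (w : α → ℝ) (v : γ → ℝ) {κ : ℝ} (hκ : 0 < κ)
    (hwv : ∀ x ∈ S, w (j x) = κ * v x) (π : α → β) (σ : γ → δ)
    (hπ : ∀ x ∈ S, ∀ y ∈ S, (π (j x) = π (j y) ↔ σ x = σ y)) (F : α → ℝ) :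
    evar (S.image j) w π F = κ * evar S v σ (fun x => F (j x)) := by
  unfold evar
  rw [Finset.sum_image fun x _ y _ h => hj h, Finset.mul_sum]
  refine Finset.sum_congr rfl fun x hx => ?_
  have h1 : (S.image j).filter (fun Y => π Y = π (j x)) =
      (S.filter fun y => σ y = σ x).image j := by
    ext Y
    simp only [Finset.mem_filter, Finset.mem_image]
    constructor
    · rintro ⟨⟨y, hy, rfl⟩, h3⟩
      exact ⟨y, ⟨hy, (hπ y hy x hx).1 h3⟩, rfl⟩
    · rintro ⟨y, ⟨hy, h3⟩, rfl⟩
      exact ⟨⟨y, hy, rfl⟩, (hπ y hy x hx).2 h3⟩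
  have h2 : cexp (S.image j) w π F (j x) = cexp S v σ (fun x => F (j x)) x := by
    unfold cexp
    rw [h1, Finset.sum_image fun x _ y _ h => hj h, Finset.sum_image fun x _ y _ h => hj h]
    have h3 : ∑ y ∈ S.filter fun y => σ y = σ x, w (j y) * F (j y) =
        κ * ∑ y ∈ S.filter fun y => σ y = σ x, v y * F (j y) := by
      rw [Finset.mul_sum]
      refine Finset.sum_congr rfl fun y hy => ?_
      rw [hwv y (Finset.mem_filter.1 hy).1]
      ring
    have h4 : ∑ y ∈ S.filter fun y => σ y = σ x, w (j y) =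
        κ * ∑ y ∈ S.filter fun y => σ y = σ x, v y := by
      rw [Finset.mul_sum]
      exact Finset.sum_congr rfl fun y hy => hwv y (Finset.mem_filter.1 hy).1
    rw [h3, h4, mul_div_mul_left _ _ hκ.ne']
  rw [h2, hwv x hx]
  ring

end Vale.Agent.Lib.P328
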