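import Vale.Agent.Lib.P328.SymPSD

/-!
P328, module LogConvex: decay of correlations gives a spectral gap.
-/

namespace Vale.Agent.Lib.P328

open Finset

variable {α : Type}

private theorem LogConvex_quad {A B C : ℝ} (h : ∀ s : ℝ, 0 ≤ A + 2 * s * B + s ^ 2 * C) :
    B ^ 2 ≤ A * C := by
  have h1 : ∀ x : ℝ, 0 ≤ C * (x * x) + (2 * B) * x + A := by
    intro x
    have := h x
    nlinarith
  have h2 := discrim_le_zero h1
  unfold discrim at h2
  nlinarith

private theorem LogConvex_cs {S : Finset α} {w : α → ℝ} (hw : ∀ x ∈ S, 0 < w x) (F G : α → ℝ) :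
    (∑ x ∈ S, w x * (F x * G x)) ^ 2 ≤
      (∑ x ∈ S, w x * (F x * F x)) * ∑ x ∈ S, w x * (G x * G x) := by
  apply LogConvex_quad
  intro s
  have h : ∑ x ∈ S, w x * (F x * F x) + 2 * s * ∑ x ∈ S, w x * (F x * G x) +
      s ^ 2 * ∑ x ∈ S, w x * (G x * G x) = ∑ x ∈ S, w x * (F x + s * G x) ^ 2 := by
    rw [Finset.mul_sum, Finset.mul_sum, ← Finset.sum_add_distrib, ← Finset.sum_add_distrib]
    apply Finset.sum_congr rfl
    intro x _
    ring
  rw [h]
  exact Finset.sum_nonneg fun x hx => mul_nonneg (hw x hx).le (sq_nonneg _)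

private theorem LogConvex_psd_cs {S : Finset α} {w : α → ℝ} {P : (α → ℝ) → (α → ℝ)}
    (hP : SymPSD S w P) (F G : α → ℝ) :
    (∑ x ∈ S, w x * (F x * P G x)) ^ 2 ≤
      (∑ x ∈ S, w x * (F x * P F x)) * ∑ x ∈ S, w x * (G x * P G x) := by
  apply LogConvex_quad
  intro s
  have h1 := hP.psd (fun y => 1 * F y + s * G y)
  have h2 : ∑ x ∈ S, w x * ((1 * F x + s * G x) * P (fun y => 1 * F y + s * G y) x) =
      ∑ x ∈ S, w x * (F x * P F x) + s * ∑ x ∈ S, w x * (F x * P G x) +
        s * ∑ x ∈ S, w x * (G x * P F x) + s ^ 2 * ∑ x ∈ S, w x * (G x * P G x) := by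
    rw [Finset.mul_sum, Finset.mul_sum, Finset.mul_sum, ← Finset.sum_add_distrib,
      ← Finset.sum_add_distrib, ← Finset.sum_add_distrib]
    apply Finset.sum_congr rfl
    intro x hx
    rw [hP.lin 1 s F G x hx]
    ring
  rw [h2, hP.symm F G] at h1
  linarith

/-- Gap from decay.
Proof: `a t = ∑ w g P^t g` satisfies `a (t+1)² ≤ a t * a (t+2)`: for `t = 2i` Cauchy-Schwarz for the
scalar product of `P^i g` and `P^{i+1} g` (`a (2i+1) = ⟨P^i g, P^{i+1} g⟩` by symmetry), for
`t = 2i+1` Cauchy-Schwarz for the positive semidefinite form `⟨F, P G⟩`.  If `a 1 > θ a 0` then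
`a 0 > 0` and inductively `a (t+1) ≥ (a 1/a 0) a t`, so `a t ≥ a 0 (a 1/a 0)^t`, which contradicts
`a t ≤ M θ^t` for large `t`. -/
theorem gap_of_decay {S : Finset α} {w : α → ℝ} (hw : ∀ x ∈ S, 0 < w x)
    {P : (α → ℝ) → (α → ℝ)} (hP : SymPSD S w P) (g : α → ℝ) {θ M : ℝ} (hθ : 0 ≤ θ)
    (h : ∀ t : ℕ, ∑ x ∈ S, w x * (g x * P^[t] g x) ≤ M * θ ^ t) :
    ∑ x ∈ S, w x * (g x * P g x) ≤ θ * ∑ x ∈ S, w x * g x ^ 2 := by
  set a : ℕ → ℝ := fun t => ∑ x ∈ S, w x * (g x * P^[t] g x) with ha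
  -- correlations of iterates
  have hcor : ∀ i j : ℕ, ∑ x ∈ S, w x * (P^[i] g x * P^[j] g x) = a (i + j) := by
    intro i
    induction i with
    | zero =>
      intro j
      simp [ha]
    | succ i ih =>
      intro j
      have h1 := hP.symm (P^[i] g) (P^[j] g)
      have e1 : P^[i + 1] g = P (P^[i] g) := Function.iterate_succ_apply' P i g
      have e2 : P^[j + 1] g = P (P^[j] g) := Function.iterate_succ_apply' P j g
      have h2 := ih (j + 1)
      rw [e2] at h2
      rw [e1]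
      have e3 : i + 1 + j = i + (j + 1) := by ring
      rw [e3, ← h2, ← h1]
      apply Finset.sum_congr rfl
      intro x _
      ring
  have hcorP : ∀ i j : ℕ, ∑ x ∈ S, w x * (P^[i] g x * P (P^[j] g) x) = a (i + j + 1) := by
    intro i j
    have h1 := hcor i (j + 1)
    rw [Function.iterate_succ_apply' P j g] at h1
    rw [h1]
    rfl
  have hlc : ∀ t, a (t + 1) ^ 2 ≤ a t * a (t + 2) := by
    intro t
    rcases Nat.even_or_odd' t with ⟨i, rfl | rfl⟩
    · have h1 := LogConvex_cs hw (P^[i] g) (P^[i + 1] g)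
      rw [hcor, hcor, hcor] at h1
      have e1 : i + (i + 1) = 2 * i + 1 := by ring
      have e2 : i + i = 2 * i := by ring
      have e3 : i + 1 + (i + 1) = 2 * i + 2 := by ring
      rw [e1, e2, e3] at h1
      exact h1
    · have h1 := LogConvex_psd_cs hP (P^[i] g) (P^[i + 1] g)
      rw [hcorP, hcorP, hcorP] at h1
      have e1 : i + (i + 1) + 1 = 2 * i + 1 + 1 := by ring
      have e2 : i + i + 1 = 2 * i + 1 := by ring
      have e3 : i + 1 + (i + 1) + 1 = 2 * i + 1 + 2 := by ring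
      rw [e1, e2, e3] at h1
      exact h1
  have ha0 : a 0 = ∑ x ∈ S, w x * g x ^ 2 := by
    simp only [ha]
    apply Finset.sum_congr rfl
    intro x _
    simp only [Function.iterate_zero, id]
    ring
  have ha1 : a 1 = ∑ x ∈ S, w x * (g x * P g x) := by
    simp only [ha]
    rfl
  rw [← ha0, ← ha1]
  by_contra hcon
  push Not at hcon
  have ha00 : 0 ≤ a 0 := by
    rw [ha0]
    exact Finset.sum_nonneg fun x hx => mul_nonneg (hw x hx).le (sq_nonneg _)
  have ha1pos : 0 < a 1 := lt_of_le_of_lt (mul_nonneg hθ ha00) hcon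
  have ha0pos : 0 < a 0 := by
    rcases ha00.eq_or_lt with h0 | h0
    · have := hlc 0
      rw [← h0, zero_mul] at this
      simp only [zero_add] at this
      nlinarith
    · exact h0
  set q := a 1 / a 0 with hq
  have hqpos : 0 < q := div_pos ha1pos ha0pos
  have hqθ : θ < q := by
    rw [hq, lt_div_iff₀ ha0pos]
    exact hcon
  have hstep : ∀ t, 0 < a t ∧ q * a t ≤ a (t + 1) := by
    intro t
    induction t with
    | zero =>
      refine ⟨ha0pos, ?_⟩
      rw [hq, div_mul_cancel₀ _ ha0pos.ne']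
    | succ t ih =>
      obtain ⟨h1, h2⟩ := ih
      have h3 : 0 < a (t + 1) := lt_of_lt_of_le (mul_pos hqpos h1) h2
      refine ⟨h3, ?_⟩
      have h4 := hlc t
      have h5 : (q * a (t + 1)) * a t ≤ a (t + 1 + 1) * a t := by
        calc (q * a (t + 1)) * a t = (q * a t) * a (t + 1) := by ring
          _ ≤ a (t + 1) * a (t + 1) := mul_le_mul_of_nonneg_right h2 h3.le
          _ = a (t + 1) ^ 2 := by ring
          _ ≤ a t * a (t + 2) := h4
          _ = a (t + 1 + 1) * a t := by ring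
      exact le_of_mul_le_mul_right h5 h1
  have hpow : ∀ t, a 0 * q ^ t ≤ a t := by
    intro t
    induction t with
    | zero => simp
    | succ t ih =>
      calc a 0 * q ^ (t + 1) = q * (a 0 * q ^ t) := by ring
        _ ≤ q * a t := mul_le_mul_of_nonneg_left ih hqpos.le
        _ ≤ a (t + 1) := (hstep t).2
  rcases hθ.eq_or_lt with h0 | hθpos
  · have h1 := h 1
    rw [← h0] at h1
    simp only [pow_one, mul_zero] at h1
    have h2 : a 1 ≤ 0 := h1
    linarith
  · have hr : 1 < q / θ := (one_lt_div hθpos).2 hqθ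
    obtain ⟨t, ht⟩ := pow_unbounded_of_one_lt (M / a 0) hr
    have h1 : a 0 * q ^ t ≤ M * θ ^ t := (hpow t).trans (h t)
    have h2 : q ^ t / θ ^ t ≤ M / a 0 := by
      rw [div_le_div_iff₀ (pow_pos hθpos t) ha0pos]
      linarith
    rw [← div_pow] at h2
    linarith

end Vale.Agent.Lib.P328
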