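import Vale.Agent.Lib.P328.PairHB
import Vale.Agent.Lib.P328.LogConvex

/-!
P328, module FibrePoincare: Poincaré inequality of the two row fibre for pairs of columns.
-/

namespace Vale.Agent.Lib.P328

open Finset

section general

variable {α β : Type} [DecidableEq α] [DecidableEq β]

/-- the label function of the conditional expectation -/
private noncomputable def fpLab (S : Finset α) (w : α → ℝ) (π : α → β) (F : α → ℝ) (b : β) : ℝ :=
  (∑ Y ∈ S.filter fun Y => π Y = b, w Y * F Y) / ∑ Y ∈ S.filter fun Y => π Y = b, w Y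

omit [DecidableEq α] in
private theorem fp_lab (S : Finset α) (w : α → ℝ) (π : α → β) (F : α → ℝ) (x : α) :
    cexp S w π F x = fpLab S w π F (π x) := rfl

private theorem fp_orth (S : Finset α) (w : α → ℝ) (hw : ∀ x ∈ S, 0 < w x) (π : α → β)
    (F G : α → ℝ) : ∑ X ∈ S, w X * (cexp S w π G X * F X) =
      ∑ X ∈ S, w X * (cexp S w π G X * cexp S w π F X) := by
  have h := cexp_orth S w hw π F (fpLab S w π G)
  rw [← sub_eq_zero, ← Finset.sum_sub_distrib, ← h]
  refine Finset.sum_congr rfl fun x _ => ?_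
  rw [fp_lab S w π G x]
  ring

private theorem fp_symm (S : Finset α) (w : α → ℝ) (hw : ∀ x ∈ S, 0 < w x) (π : α → β)
    (F G : α → ℝ) : ∑ X ∈ S, w X * (G X * cexp S w π F X) =
      ∑ X ∈ S, w X * (F X * cexp S w π G X) := by
  have h1 := fp_orth S w hw π F G
  have h2 := fp_orth S w hw π G F
  calc ∑ X ∈ S, w X * (G X * cexp S w π F X) = ∑ X ∈ S, w X * (cexp S w π F X * G X) := by
        refine Finset.sum_congr rfl fun x _ => ?_
        ring
    _ = ∑ X ∈ S, w X * (cexp S w π F X * cexp S w π G X) := h2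
    _ = ∑ X ∈ S, w X * (cexp S w π G X * cexp S w π F X) := by
        refine Finset.sum_congr rfl fun x _ => ?_
        ring
    _ = ∑ X ∈ S, w X * (cexp S w π G X * F X) := h1.symm
    _ = _ := by
        refine Finset.sum_congr rfl fun x _ => ?_
        ring

private theorem fp_psd (S : Finset α) (w : α → ℝ) (hw : ∀ x ∈ S, 0 < w x) (π : α → β)
    (F : α → ℝ) : 0 ≤ ∑ X ∈ S, w X * (F X * cexp S w π F X) := by
  have h1 := fp_orth S w hw π F F
  have h2 : ∑ X ∈ S, w X * (F X * cexp S w π F X) =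
      ∑ X ∈ S, w X * (cexp S w π F X * cexp S w π F X) := by
    rw [← h1]
    refine Finset.sum_congr rfl fun x _ => ?_
    ring
  rw [h2]
  exact Finset.sum_nonneg fun x hx => mul_nonneg (hw x hx).le (mul_self_nonneg _)

omit [DecidableEq α] in
private theorem fp_lin (S : Finset α) (w : α → ℝ) (π : α → β) (a b : ℝ) (F G : α → ℝ) (x : α) :
    cexp S w π (fun y => a * F y + b * G y) x = a * cexp S w π F x + b * cexp S w π G x := by
  unfold cexp
  rw [← mul_div_assoc, ← mul_div_assoc, ← add_div, Finset.mul_sum, Finset.mul_sum,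
    ← Finset.sum_add_distrib]
  congr 1
  refine Finset.sum_congr rfl fun y _ => ?_
  ring

private theorem fp_evar (S : Finset α) (w : α → ℝ) (hw : ∀ x ∈ S, 0 < w x) (π : α → β)
    (F : α → ℝ) : evar S w π F = ∑ X ∈ S, w X * (F X * (F X - cexp S w π F X)) := by
  have h1 := fp_orth S w hw π F F
  unfold evar
  rw [← sub_eq_zero, ← Finset.sum_sub_distrib]
  rw [← sub_eq_zero, ← Finset.sum_sub_distrib] at h1
  rw [← neg_eq_zero, ← Finset.sum_neg_distrib, ← h1]
  refine Finset.sum_congr rfl fun x _ => ?_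
  ring

omit [DecidableEq α] in
private theorem fp_const (S : Finset α) (w : α → ℝ) (hw : ∀ x ∈ S, 0 < w x) (π : α → β)
    (c : ℝ) {x : α} (hx : x ∈ S) : cexp S w π (fun _ => c) x = c := by
  unfold cexp
  have hpos : 0 < ∑ Y ∈ S.filter (fun Y => π Y = π x), w Y := by
    apply Finset.sum_pos
    · intro y hy
      exact hw y (Finset.mem_filter.1 hy).1
    · exact ⟨x, Finset.mem_filter.2 ⟨hx, rfl⟩⟩
  rw [← Finset.sum_mul, mul_comm, mul_div_assoc, div_self hpos.ne', mul_one]

omit [DecidableEq α] in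
private theorem fp_sub_const (S : Finset α) (w : α → ℝ) (hw : ∀ x ∈ S, 0 < w x) (π : α → β)
    (F : α → ℝ) (c : ℝ) {x : α} (hx : x ∈ S) :
    cexp S w π (fun y => F y - c) x = cexp S w π F x - c := by
  have h := fp_lin S w π 1 (-1) F (fun _ => c) x
  rw [fp_const S w hw π c hx] at h
  have h2 : (fun y => 1 * F y + -1 * c) = fun y => F y - c := by
    funext y
    ring
  rw [h2] at h
  rw [h]
  ring

omit [DecidableEq α] in
private theorem fp_evar_sub (S : Finset α) (w : α → ℝ) (hw : ∀ x ∈ S, 0 < w x) (π : α → β)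
    (F : α → ℝ) (c : ℝ) : evar S w π (fun y => F y - c) = evar S w π F := by
  unfold evar
  refine Finset.sum_congr rfl fun x hx => ?_
  rw [fp_sub_const S w hw π F c hx]
  ring

end general

variable {J : Type} [Fintype J] [DecidableEq J]

private theorem fp_wt_pos {ψ : J → ℕ → ℝ} {s : J → ℕ} (h : LCW ψ s) (r : ℕ) :
    ∀ x ∈ lev s r, 0 < wt ψ x := by
  intro x hx
  rw [mem_lev] at hx
  exact Finset.prod_pos fun l _ => h.pos l _ (hx.1 l)

/-- weighted sum against `PP` -/
private theorem fp_sum_PP (ψ : J → ℕ → ℝ) (s : J → ℕ) (r : ℕ) (F G : (J → ℕ) → ℝ) :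
    ∑ x ∈ lev s r, wt ψ x * (G x * PP ψ s r F x) =
      (∑ l, ∑ l', ∑ x ∈ lev s r, wt ψ x * (G x * cexp (lev s r) (wt ψ) (pi2 l l') F x)) /
        (Fintype.card J : ℝ) ^ 2 := by
  unfold PP hb
  rw [Finset.sum_div]
  have h1 : ∀ x, wt ψ x * (G x * ((∑ l, ∑ l', cexp (lev s r) (wt ψ) (pi2 l l') F x) /
      (Fintype.card J : ℝ) ^ 2)) = ∑ l, ∑ l', wt ψ x * (G x *
        cexp (lev s r) (wt ψ) (pi2 l l') F x) / (Fintype.card J : ℝ) ^ 2 := by
    intro x
    rw [← mul_div_assoc, ← mul_div_assoc, Finset.mul_sum, Finset.mul_sum, Finset.sum_div]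
    refine Finset.sum_congr rfl fun l _ => ?_
    rw [Finset.mul_sum, Finset.mul_sum, Finset.sum_div]
  rw [Finset.sum_congr rfl fun x _ => h1 x, Finset.sum_comm]
  refine Finset.sum_congr rfl fun l _ => ?_
  rw [Finset.sum_comm, Finset.sum_div]
  refine Finset.sum_congr rfl fun l' _ => ?_
  rw [Finset.sum_div]

/-- conditional expectations are symmetric projections; hence `PP` is symmetric and positive
semidefinite (`∑ w F (cexp F) = ∑ w (cexp F)²`) -/
theorem PP_sympsd {ψ : J → ℕ → ℝ} {s : J → ℕ} (h : LCW ψ s) (r : ℕ) :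
    SymPSD (lev s r) (wt ψ) (PP ψ s r) := by
  have hw := fp_wt_pos h r
  refine ⟨?_, ?_, ?_⟩
  · intro a b F G x _
    unfold PP hb
    rw [← mul_div_assoc, ← mul_div_assoc, ← add_div, Finset.mul_sum, Finset.mul_sum,
      ← Finset.sum_add_distrib]
    congr 1
    refine Finset.sum_congr rfl fun l _ => ?_
    rw [Finset.mul_sum, Finset.mul_sum, ← Finset.sum_add_distrib]
    refine Finset.sum_congr rfl fun l' _ => ?_
    exact fp_lin _ _ _ _ _ _ _ _
  · intro F G
    rw [fp_sum_PP, fp_sum_PP]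
    congr 1
    refine Finset.sum_congr rfl fun l _ => Finset.sum_congr rfl fun l' _ => ?_
    exact fp_symm _ _ hw _ F G
  · intro F
    rw [fp_sum_PP]
    refine div_nonneg (Finset.sum_nonneg fun l _ => Finset.sum_nonneg fun l' _ => ?_)
      (sq_nonneg _)
    exact fp_psd _ _ hw _ F

/-- Proof: `g = f - mean`, `Lip s r C g` for some `C`, `θ = 1 - 2/n²`; `PP^t g` has Lipschitz
constant `θ^t C` (`PP_lip`) and mean zero (symmetry, `PP 1 = 1`), so `|PP^t g| ≤ r θ^t C` on the
level (`lip_diam`), and `gap_of_decay` gives `∑ w g PP g ≤ θ ∑ w g²`; finally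
`∑ w g (g - PP g) = (1/n²) ∑_{l,l'} evar (pi2 l l') g = (1/n²) ∑ evar (pi2 l l') f`
(`cexp_orth`).  For `n = 0` the level has at most one point; for `n = 1` too. -/
theorem fibre_poincare {ψ : J → ℕ → ℝ} {s : J → ℕ} (h : LCW ψ s) (r : ℕ) (f : (J → ℕ) → ℝ) :
    evar (lev s r) (wt ψ) (fun _ => ()) f ≤
      ∑ l, ∑ l', evar (lev s r) (wt ψ) (pi2 l l') f := by
  have hw := fp_wt_pos h r
  have hrhs : 0 ≤ ∑ l, ∑ l', evar (lev s r) (wt ψ) (pi2 l l') f :=
    Finset.sum_nonneg fun l _ => Finset.sum_nonneg fun l' _ => evar_nonneg _ _ hw _ _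
  rcases (lev s r).eq_empty_or_nonempty with hS | hS
  · have h0 : evar (lev s r) (wt ψ) (fun _ => ()) f = 0 := by
      unfold evar
      rw [hS, Finset.sum_empty]
    rw [h0]
    exact hrhs
  have hW : 0 < ∑ Y ∈ lev s r, wt ψ Y := Finset.sum_pos hw hS
  by_cases hn : Fintype.card J ≤ 1
  · -- at most one point
    have hsub : Subsingleton J := Fintype.card_le_one_iff_subsingleton.1 hn
    have hone : ∀ x ∈ lev s r, ∀ y ∈ lev s r, x = y := by
      intro x hx y hy
      rw [mem_lev] at hx hy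
      funext l
      have h1 : ∀ z : J → ℕ, ∑ l, z l = z l := by
        intro z
        rw [Fintype.sum_subsingleton _ l]
      rw [← h1 x, ← h1 y, hx.2, hy.2]
    have h0 : evar (lev s r) (wt ψ) (fun _ => ()) f = 0 := by
      rw [evar_unit]
      refine Finset.sum_eq_zero fun x hx => ?_
      have h2 : (∑ Y ∈ lev s r, wt ψ Y * f Y) = (∑ Y ∈ lev s r, wt ψ Y) * f x := by
        rw [Finset.sum_mul]
        refine Finset.sum_congr rfl fun y hy => ?_
        rw [hone y hy x hx]
      rw [h2, mul_div_cancel_left₀ _ hW.ne']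
      ring
    rw [h0]
    exact hrhs
  push Not at hn
  have hn2 : (2 : ℝ) ≤ Fintype.card J := by exact_mod_cast hn
  set n : ℝ := (Fintype.card J : ℝ) with hndef
  have hn0 : (0 : ℝ) < n ^ 2 := by positivity
  set θ : ℝ := 1 - 2 / n ^ 2 with hθ
  have hθ0 : 0 ≤ θ := by
    rw [hθ, sub_nonneg, div_le_one hn0]
    nlinarith
  set m : ℝ := (∑ Y ∈ lev s r, wt ψ Y * f Y) / ∑ Y ∈ lev s r, wt ψ Y with hm
  set g : (J → ℕ) → ℝ := fun y => f y - m with hg
  -- `PP 1 = 1`
  have hPP1 : ∀ x ∈ lev s r, PP ψ s r (fun _ => 1) x = 1 := by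
    intro x hx
    unfold PP hb
    have h1 : ∀ l l' : J, cexp (lev s r) (wt ψ) (pi2 l l') (fun _ => 1) x = 1 := fun l l' =>
      fp_const _ _ hw _ 1 hx
    simp only [h1, Finset.sum_const, Finset.card_univ, nsmul_eq_mul, mul_one]
    rw [← hndef, ← pow_two, div_self hn0.ne']
  -- mean zero
  have hmean0 : ∑ x ∈ lev s r, wt ψ x * g x = 0 := by
    simp only [hg, mul_sub]
    rw [Finset.sum_sub_distrib, ← Finset.sum_mul, hm, mul_div_cancel₀ _ hW.ne', sub_self]
  have hmean : ∀ t : ℕ, ∑ x ∈ lev s r, wt ψ x * (PP ψ s r)^[t] g x = 0 := by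
    intro t
    induction t with
    | zero => simpa using hmean0
    | succ t ih =>
      rw [Function.iterate_succ_apply']
      have h1 := (PP_sympsd h r).symm ((PP ψ s r)^[t] g) (fun _ => 1)
      calc ∑ x ∈ lev s r, wt ψ x * PP ψ s r ((PP ψ s r)^[t] g) x
          = ∑ x ∈ lev s r, wt ψ x * (1 * PP ψ s r ((PP ψ s r)^[t] g) x) := by
            refine Finset.sum_congr rfl fun x _ => ?_
            rw [one_mul]
        _ = _ := h1
        _ = ∑ x ∈ lev s r, wt ψ x * (PP ψ s r)^[t] g x := by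
            refine Finset.sum_congr rfl fun x hx => ?_
            rw [hPP1 x hx, mul_one]
        _ = 0 := ih
  -- Lipschitz
  set C : ℝ := 2 * ∑ y ∈ lev s r, |g y| with hC
  have hC0 : 0 ≤ C := mul_nonneg (by norm_num) (Finset.sum_nonneg fun y _ => abs_nonneg _)
  have hle : ∀ y ∈ lev s r, |g y| ≤ ∑ y ∈ lev s r, |g y| := fun y hy =>
    Finset.single_le_sum (f := fun y => |g y|) (fun y _ => abs_nonneg _) hy
  have hLip0 : Lip s r C g := by
    intro x hx a b hab ha hb'
    have hr : r ≠ 0 := by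
      intro hr0
      have h1 := (mem_lev.1 hx).2
      have h2 : x a ≤ ∑ l, x l := Finset.single_le_sum (f := x) (fun l _ => Nat.zero_le _)
        (Finset.mem_univ a)
      omega
    obtain ⟨r', rfl⟩ := Nat.exists_eq_succ_of_ne_zero hr
    have hy1 : x - e a ∈ lev s r' := sub_e_mem hx ha
    have hy2 : x - e a + e b ∈ lev s (r' + 1) := by
      apply add_e_mem hy1
      simp only [Pi.sub_apply]
      omega
    have h1 := hle x hx
    have h2 := hle _ hy2
    calc |g x - g (x - e a + e b)| ≤ |g x| + |g (x - e a + e b)| := abs_sub _ _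
      _ ≤ C := by
        rw [hC]
        simp only [Nat.succ_eq_add_one] at h1 h2 ⊢
        linarith
  have hLip : ∀ t : ℕ, Lip s r (θ ^ t * C) ((PP ψ s r)^[t] g) := by
    intro t
    induction t with
    | zero => simpa using hLip0
    | succ t ih =>
      rw [Function.iterate_succ_apply']
      have h1 := PP_lip h (mul_nonneg (pow_nonneg hθ0 t) hC0) ih
      have h2 : θ ^ (t + 1) * C = (1 - 2 / (Fintype.card J : ℝ) ^ 2) * (θ ^ t * C) := by
        rw [← hndef, ← hθ]
        ring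
      rw [h2]
      exact h1
  have hbound : ∀ t : ℕ, ∀ x ∈ lev s r, |(PP ψ s r)^[t] g x| ≤ r * (θ ^ t * C) := by
    intro t x hx
    set F := (PP ψ s r)^[t] g with hF
    have hd := lip_diam (mul_nonneg (pow_nonneg hθ0 t) hC0) (hLip t) x hx
    have h1 : (∑ y ∈ lev s r, wt ψ y) * F x = ∑ y ∈ lev s r, wt ψ y * (F x - F y) := by
      simp only [mul_sub]
      rw [Finset.sum_sub_distrib, hmean t, sub_zero, Finset.sum_mul]
    have h2 : (∑ y ∈ lev s r, wt ψ y) * |F x| ≤ (∑ y ∈ lev s r, wt ψ y) * (r * (θ ^ t * C)) := by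
      calc (∑ y ∈ lev s r, wt ψ y) * |F x| = |(∑ y ∈ lev s r, wt ψ y) * F x| := by
            rw [abs_mul, abs_of_pos hW]
        _ = |∑ y ∈ lev s r, wt ψ y * (F x - F y)| := by rw [h1]
        _ ≤ ∑ y ∈ lev s r, |wt ψ y * (F x - F y)| := Finset.abs_sum_le_sum_abs _ _
        _ ≤ ∑ y ∈ lev s r, wt ψ y * (r * (θ ^ t * C)) := by
            refine Finset.sum_le_sum fun y hy => ?_
            rw [abs_mul, abs_of_pos (hw y hy)]
            exact mul_le_mul_of_nonneg_left (hd y hy) (hw y hy).le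
        _ = _ := by rw [Finset.sum_mul]
    exact le_of_mul_le_mul_left h2 hW
  have hdecay : ∀ t : ℕ, ∑ x ∈ lev s r, wt ψ x * (g x * (PP ψ s r)^[t] g x) ≤
      (r * C * ∑ x ∈ lev s r, wt ψ x * |g x|) * θ ^ t := by
    intro t
    rw [mul_assoc, Finset.sum_mul, Finset.mul_sum]
    refine Finset.sum_le_sum fun x hx => ?_
    have h1 := hbound t x hx
    have h2 : g x * (PP ψ s r)^[t] g x ≤ |g x| * (r * (θ ^ t * C)) := by
      calc g x * (PP ψ s r)^[t] g x ≤ |g x * (PP ψ s r)^[t] g x| := le_abs_self _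
        _ = |g x| * |(PP ψ s r)^[t] g x| := abs_mul _ _
        _ ≤ _ := mul_le_mul_of_nonneg_left h1 (abs_nonneg _)
    calc wt ψ x * (g x * (PP ψ s r)^[t] g x) ≤ wt ψ x * (|g x| * (r * (θ ^ t * C))) :=
          mul_le_mul_of_nonneg_left h2 (hw x hx).le
      _ = _ := by ring
  have hgap := gap_of_decay hw (PP_sympsd h r) g hθ0 hdecay
  -- final computation
  have hev : ∑ l, ∑ l', evar (lev s r) (wt ψ) (pi2 l l') f =
      n ^ 2 * (∑ x ∈ lev s r, wt ψ x * g x ^ 2 -
        ∑ x ∈ lev s r, wt ψ x * (g x * PP ψ s r g x)) := by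
    have h1 : ∀ l l' : J, evar (lev s r) (wt ψ) (pi2 l l') f =
        ∑ x ∈ lev s r, wt ψ x * g x ^ 2 -
          ∑ x ∈ lev s r, wt ψ x * (g x * cexp (lev s r) (wt ψ) (pi2 l l') g x) := by
      intro l l'
      rw [← fp_evar_sub _ _ hw (pi2 l l') f m, fp_evar _ _ hw, ← Finset.sum_sub_distrib]
      refine Finset.sum_congr rfl fun x _ => ?_
      ring
    simp only [h1]
    rw [fp_sum_PP]
    simp only [Finset.sum_sub_distrib, Finset.sum_const, Finset.card_univ, nsmul_eq_mul]
    rw [← hndef]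
    field_simp
  have hlhs : evar (lev s r) (wt ψ) (fun _ => ()) f = ∑ x ∈ lev s r, wt ψ x * g x ^ 2 := by
    rw [evar_unit]
  rw [hev, hlhs]
  have hA : 0 ≤ ∑ x ∈ lev s r, wt ψ x * g x ^ 2 :=
    Finset.sum_nonneg fun x hx => mul_nonneg (hw x hx).le (sq_nonneg _)
  set A := ∑ x ∈ lev s r, wt ψ x * g x ^ 2 with hAdef
  set B := ∑ x ∈ lev s r, wt ψ x * (g x * PP ψ s r g x) with hBdef
  have h3 : n ^ 2 * θ = n ^ 2 - 2 := by
    rw [hθ]
    field_simp
  have h4 : n ^ 2 * B ≤ n ^ 2 * (θ * A) := mul_le_mul_of_nonneg_left hgap hn0.le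
  have h5 : n ^ 2 * (θ * A) = n ^ 2 * A - 2 * A := by
    rw [← mul_assoc, h3]
    ring
  rw [mul_sub]
  linarith

end Vale.Agent.Lib.P328
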