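import Vale.Agent.Lib.P328.Defs

/-!
P328, module TwoFactor: the monotone coupling for two factors, and log-concavity of convolutions.

`LC f S` : `f` is positive on `[0,S]`, zero beyond, and log-concave.
-/

namespace Vale.Agent.Lib.P328

open Finset

/-- positive on `[0,S]`, zero beyond `S`, log-concave -/
structure LC (f : ℕ → ℝ) (S : ℕ) : Prop where
  pos : ∀ i ≤ S, 0 < f i
  zero : ∀ i, S < i → f i = 0
  lc : ∀ i, f i * f (i + 2) ≤ f (i + 1) ^ 2

theorem LC.nonneg {f : ℕ → ℝ} {S : ℕ} (h : LC f S) (i : ℕ) : 0 ≤ f i := by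
  rcases le_or_gt i S with hi | hi
  · exact (h.pos i hi).le
  · exact (h.zero i hi).ge

private theorem LC.tp_one {f : ℕ → ℝ} {S : ℕ} (h : LC f S) (i n : ℕ) :
    f i * f (i + n + 1) ≤ f (i + 1) * f (i + n) := by
  induction n with
  | zero => simp [mul_comm]
  | succ n ih =>
    rcases le_or_gt (i + (n + 1) + 1) S with hS | hS
    · have h1 := h.pos (i + n) (by omega)
      have h2 := h.pos (i + n + 1) (by omega)
      have h3 := h.lc (i + n)
      have h0 := h.nonneg i
      have h01 := h.nonneg (i + 1)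
      have e1 : i + (n + 1) + 1 = i + n + 2 := by ring
      have e2 : i + (n + 1) = i + n + 1 := by ring
      rw [e1, e2]
      have h4 : 0 ≤ f (i + n + 2) := h.nonneg _
      have hpos : 0 < f (i + n) * f (i + n + 1) := mul_pos h1 h2
      have key : (f i * f (i + n + 2)) * (f (i + n) * f (i + n + 1)) ≤
          (f (i + 1) * f (i + n + 1)) * (f (i + n) * f (i + n + 1)) := by
        calc (f i * f (i + n + 2)) * (f (i + n) * f (i + n + 1))
            = (f i * f (i + n + 1)) * (f (i + n) * f (i + n + 2)) := by ring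
          _ ≤ (f (i + 1) * f (i + n)) * (f (i + n + 1) ^ 2) := by
              apply mul_le_mul ih h3 (mul_nonneg h1.le h4) (mul_nonneg h01 h1.le)
          _ = (f (i + 1) * f (i + n + 1)) * (f (i + n) * f (i + n + 1)) := by ring
      exact le_of_mul_le_mul_right key hpos
    · rw [h.zero _ hS, mul_zero]
      exact mul_nonneg (h.nonneg _) (h.nonneg _)

/-- `TP₂` form of log-concavity: for `i ≤ k` and any `d`: `f i * f (k + d) ≤ f (i + d) * f k` -/
theorem LC.tp {f : ℕ → ℝ} {S : ℕ} (h : LC f S) {i k d : ℕ} (hik : i ≤ k) :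
    f i * f (k + d) ≤ f (i + d) * f k := by
  obtain ⟨n, rfl⟩ := Nat.exists_eq_add_of_le hik
  induction d with
  | zero => simp
  | succ d ih =>
    rcases le_or_gt (i + n + (d + 1)) S with hS | hS
    · have h1 := h.pos (i + n + d) (by omega)
      have h2 := h.pos (i + d) (by omega)
      have h3 := h.tp_one (i + d) n
      have e1 : i + d + n + 1 = i + n + (d + 1) := by ring
      have e2 : i + d + n = i + n + d := by ring
      have e3 : i + d + 1 = i + (d + 1) := by ring
      rw [e1, e2, e3] at h3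
      have hpos : 0 < f (i + n + d) * f (i + d) := mul_pos h1 h2
      have key : (f i * f (i + n + (d + 1))) * (f (i + n + d) * f (i + d)) ≤
          (f (i + (d + 1)) * f (i + n)) * (f (i + n + d) * f (i + d)) := by
        calc (f i * f (i + n + (d + 1))) * (f (i + n + d) * f (i + d))
            = (f i * f (i + n + d)) * (f (i + d) * f (i + n + (d + 1))) := by ring
          _ ≤ (f (i + d) * f (i + n)) * (f (i + (d + 1)) * f (i + n + d)) := by
              apply mul_le_mul ih h3 (mul_nonneg h2.le (h.nonneg _))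
                (mul_nonneg h2.le (h.nonneg _))
          _ = (f (i + (d + 1)) * f (i + n)) * (f (i + n + d) * f (i + d)) := by ring
      exact le_of_mul_le_mul_right key hpos
    · rw [h.zero _ hS, mul_zero]
      exact mul_nonneg (h.nonneg _) (h.nonneg _)

/-- convolution -/
noncomputable def conv (f g : ℕ → ℝ) (j : ℕ) : ℝ := ∑ i ∈ range (j + 1), f i * g (j - i)

/-- extension by zero to the integers -/
private noncomputable def ext (f : ℕ → ℝ) (z : ℤ) : ℝ := if z < 0 then 0 else f z.toNat

private theorem ext_nat (f : ℕ → ℝ) (i : ℕ) : ext f (i : ℤ) = f i := by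
  unfold ext
  rw [if_neg (by omega)]
  simp

private theorem ext_neg (f : ℕ → ℝ) {z : ℤ} (hz : z < 0) : ext f z = 0 := by
  unfold ext
  rw [if_pos hz]

private theorem ext_nonneg {f : ℕ → ℝ} {S : ℕ} (h : LC f S) (z : ℤ) : 0 ≤ ext f z := by
  unfold ext
  split_ifs
  · exact le_rfl
  · exact h.nonneg _

private theorem ext_tp {f : ℕ → ℝ} {S : ℕ} (h : LC f S) {a b : ℤ} (hab : a ≤ b) :
    ext f a * ext f (b + 1) ≤ ext f (a + 1) * ext f b := by
  rcases lt_or_ge a 0 with ha | ha
  · rw [ext_neg f ha, zero_mul]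
    exact mul_nonneg (ext_nonneg h _) (ext_nonneg h _)
  · obtain ⟨i, rfl⟩ := Int.eq_ofNat_of_zero_le ha
    obtain ⟨k, rfl⟩ := Int.eq_ofNat_of_zero_le (le_trans ha hab)
    have hik : i ≤ k := by exact_mod_cast hab
    have := h.tp (d := 1) hik
    have e1 : ((k : ℤ) + 1) = ((k + 1 : ℕ) : ℤ) := by push_cast; ring
    have e2 : ((i : ℤ) + 1) = ((i + 1 : ℕ) : ℤ) := by push_cast; ring
    rw [e1, e2, ext_nat, ext_nat, ext_nat, ext_nat]
    exact this

private theorem conv_ext0 (f g : ℕ → ℝ) (j : ℕ) :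
    conv f g j = ∑ x ∈ range (j + 1), ext f (x : ℤ) * ext g ((j : ℤ) - x) := by
  unfold conv
  apply Finset.sum_congr rfl
  intro x hx
  rw [Finset.mem_range] at hx
  have : ((j : ℤ) - x) = ((j - x : ℕ) : ℤ) := by
    rw [Nat.cast_sub (by omega)]
  rw [this, ext_nat, ext_nat]

private theorem conv_ext1 (f g : ℕ → ℝ) (j : ℕ) :
    conv f g (j + 1) = ∑ x ∈ range (j + 3), ext f (x : ℤ) * ext g ((j : ℤ) + 1 - x) := by
  rw [Finset.sum_range_succ, conv_ext0]
  have : ext g ((j : ℤ) + 1 - ((j + 2 : ℕ) : ℤ)) = 0 := by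
    apply ext_neg
    push_cast
    linarith
  rw [this, mul_zero, add_zero]
  apply Finset.sum_congr rfl
  intro x _
  push_cast
  ring_nf

private theorem conv_ext2 (f g : ℕ → ℝ) (j : ℕ) :
    conv f g (j + 1) = ∑ x ∈ range (j + 3), ext f ((x : ℤ) - 1) * ext g ((j : ℤ) + 2 - x) := by
  rw [Finset.sum_range_succ', conv_ext0]
  have : ext f (((0 : ℕ) : ℤ) - 1) = 0 := by
    apply ext_neg
    simp
  rw [this, zero_mul, add_zero]
  apply Finset.sum_congr rfl
  intro x _
  push_cast
  ring_nf

private theorem conv_ext3 (f g : ℕ → ℝ) (j : ℕ) :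
    conv f g j = ∑ x ∈ range (j + 3), ext f ((x : ℤ) - 1) * ext g ((j : ℤ) + 1 - x) := by
  rw [Finset.sum_range_succ, Finset.sum_range_succ', conv_ext0]
  have h1 : ext g ((j : ℤ) + 1 - ((j + 2 : ℕ) : ℤ)) = 0 := by
    apply ext_neg
    push_cast
    linarith
  have h2 : ext f (((0 : ℕ) : ℤ) - 1) = 0 := by
    apply ext_neg
    simp
  rw [h1, h2, mul_zero, zero_mul, add_zero, add_zero]
  apply Finset.sum_congr rfl
  intro x _
  push_cast
  ring_nf

private theorem conv_ext4 (f g : ℕ → ℝ) (j : ℕ) :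
    conv f g (j + 2) = ∑ x ∈ range (j + 3), ext f (x : ℤ) * ext g ((j : ℤ) + 2 - x) := by
  rw [conv_ext0]
  apply Finset.sum_congr rfl
  intro x _
  push_cast
  ring_nf

/-- a convolution of log-concave sequences is log-concave -/
theorem LC.conv {f g : ℕ → ℝ} {S S' : ℕ} (hf : LC f S) (hg : LC g S') :
    LC (conv f g) (S + S') := by
  refine ⟨?_, ?_, ?_⟩
  · intro i hi
    unfold P328.conv
    apply Finset.sum_pos'
    · intro x _
      exact mul_nonneg (hf.nonneg _) (hg.nonneg _)
    · refine ⟨min i S, ?_, ?_⟩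
      · rw [Finset.mem_range]
        omega
      · apply mul_pos
        · exact hf.pos _ (by omega)
        · exact hg.pos _ (by omega)
  · intro i hi
    unfold P328.conv
    apply Finset.sum_eq_zero
    intro x hx
    rw [Finset.mem_range] at hx
    rcases le_or_gt x S with h | h
    · rw [hg.zero (i - x) (by omega), mul_zero]
    · rw [hf.zero x h, zero_mul]
  · intro j
    have e : P328.conv f g (j + 1) ^ 2 - P328.conv f g j * P328.conv f g (j + 2) =
        ∑ x ∈ range (j + 3), ∑ y ∈ range (j + 3),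
          (ext g ((j : ℤ) + 1 - x) * ext g ((j : ℤ) + 2 - y)) *
          (ext f (x : ℤ) * ext f ((y : ℤ) - 1) - ext f ((x : ℤ) - 1) * ext f (y : ℤ)) := by
      rw [pow_two]
      nth_rewrite 1 [conv_ext1]
      rw [conv_ext2, conv_ext3, conv_ext4, Finset.sum_mul_sum, Finset.sum_mul_sum,
        ← Finset.sum_sub_distrib]
      apply Finset.sum_congr rfl
      intro x _
      rw [← Finset.sum_sub_distrib]
      apply Finset.sum_congr rfl
      intro y _
      ring
    have e2 : 2 * (P328.conv f g (j + 1) ^ 2 - P328.conv f g j * P328.conv f g (j + 2)) =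
        ∑ x ∈ range (j + 3), ∑ y ∈ range (j + 3),
          (ext g ((j : ℤ) + 1 - x) * ext g ((j : ℤ) + 2 - y) -
            ext g ((j : ℤ) + 1 - y) * ext g ((j : ℤ) + 2 - x)) *
          (ext f (x : ℤ) * ext f ((y : ℤ) - 1) - ext f ((x : ℤ) - 1) * ext f (y : ℤ)) := by
      rw [two_mul]
      nth_rewrite 2 [e]
      rw [e, Finset.sum_comm (s := range (j + 3)) (t := range (j + 3))
        (f := fun x y => (ext g ((j : ℤ) + 1 - x) * ext g ((j : ℤ) + 2 - y)) *
          (ext f (x : ℤ) * ext f ((y : ℤ) - 1) - ext f ((x : ℤ) - 1) * ext f (y : ℤ)))]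
      nth_rewrite 1 [Finset.sum_comm]
      rw [← Finset.sum_add_distrib]
      apply Finset.sum_congr rfl
      intro x _
      rw [← Finset.sum_add_distrib]
      apply Finset.sum_congr rfl
      intro y _
      ring
    have e3 : 0 ≤ 2 * (P328.conv f g (j + 1) ^ 2 - P328.conv f g j * P328.conv f g (j + 2)) := by
      rw [e2]
      apply Finset.sum_nonneg
      intro x _
      apply Finset.sum_nonneg
      intro y _
      rcases le_total (x : ℤ) (y : ℤ) with hxy | hxy
      · apply mul_nonneg
        · have := ext_tp hg (a := (j : ℤ) + 1 - y) (b := (j : ℤ) + 1 - x) (by linarith)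
          have e1 : (j : ℤ) + 1 - x + 1 = (j : ℤ) + 2 - x := by ring
          have e2 : (j : ℤ) + 1 - y + 1 = (j : ℤ) + 2 - y := by ring
          rw [e1, e2] at this
          nlinarith [this]
        · have := ext_tp hf (a := (x : ℤ) - 1) (b := (y : ℤ) - 1) (by linarith)
          rw [sub_add_cancel, sub_add_cancel] at this
          linarith
      · apply mul_nonneg_of_nonpos_of_nonpos
        · have := ext_tp hg (a := (j : ℤ) + 1 - x) (b := (j : ℤ) + 1 - y) (by linarith)
          have e1 : (j : ℤ) + 1 - x + 1 = (j : ℤ) + 2 - x := by ring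
          have e2 : (j : ℤ) + 1 - y + 1 = (j : ℤ) + 2 - y := by ring
          rw [e1, e2] at this
          nlinarith [this]
        · have := ext_tp hf (a := (y : ℤ) - 1) (b := (x : ℤ) - 1) (by linarith)
          rw [sub_add_cancel, sub_add_cancel] at this
          nlinarith [this]
    linarith

/-- partial sums and the likelihood ratio order -/
private theorem partial_sum_le {a b : ℕ → ℝ} {p n : ℕ} (hp : p ≤ n)
    (h : ∀ i < p, ∀ k, p ≤ k → k < n → b i * a k ≤ a i * b k) :
    (∑ i ∈ range p, b i) * (∑ k ∈ range n, a k) ≤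
      (∑ i ∈ range p, a i) * (∑ k ∈ range n, b k) := by
  rw [← Finset.sum_range_add_sum_Ico a hp, ← Finset.sum_range_add_sum_Ico b hp]
  have : (∑ i ∈ range p, b i) * (∑ k ∈ Finset.Ico p n, a k) ≤
      (∑ i ∈ range p, a i) * (∑ k ∈ Finset.Ico p n, b k) := by
    rw [Finset.sum_mul_sum, Finset.sum_mul_sum]
    apply Finset.sum_le_sum
    intro i hi
    apply Finset.sum_le_sum
    intro k hk
    rw [Finset.mem_range] at hi
    rw [Finset.mem_Ico] at hk
    exact h i hi k hk.1 hk.2
  nlinarith [this]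

/-- Monotone coupling of two factors.  Put `A i = f i * g (σ - i)` (`i ≤ σ`),
`B i = f i * g (σ + 1 - i)` (`i ≤ σ + 1`).  There are `τ i ∈ [0,1]`, `τ 0 = 0`, with
`A i * conv (σ+1) = conv σ * ((1 - τ i) * B i + τ (i+1) * B (i+1))` for all `i ≤ σ`, and
`(1 - τ (σ+1)) * B (σ+1) = 0`.
Proof: `τ (i+1) * B (i+1) * conv σ = ∑_{i' ≤ i} (A i' * conv (σ+1) - B i' * conv σ) =: D i`
(and `τ (i+1) = 0` if `B (i+1) = 0`); one needs `0 ≤ D i ≤ B (i+1) * conv σ`, which are the two
stochastic orders `law(i | σ) ≤ law(i | σ+1) ≤ law(i | σ) + 1`; they follow by summation from the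
likelihood ratio orders `A i * B i' ≥ B i * A i'` for `i ≤ i'` (log-concavity of `g`) and
`A i * B (i'+1) ≤ ... ` (log-concavity of `f`). -/
theorem two_factor {f g : ℕ → ℝ} {S S' : ℕ} (hf : LC f S) (hg : LC g S') {σ : ℕ}
    (hσ : σ + 1 ≤ S + S') :
    ∃ τ : ℕ → ℝ, (∀ i, 0 ≤ τ i) ∧ (∀ i, τ i ≤ 1) ∧ τ 0 = 0 ∧
      (1 - τ (σ + 1)) * f (σ + 1) = 0 ∧
      ∀ i ≤ σ, f i * g (σ - i) * conv f g (σ + 1) =
        conv f g σ * ((1 - τ i) * (f i * g (σ + 1 - i)) + τ (i + 1) * (f (i + 1) * g (σ - i))) := by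
  classical
  have hC0 : 0 < conv f g σ := (hf.conv hg).pos σ (by omega)
  have hC1 : 0 < conv f g (σ + 1) := (hf.conv hg).pos (σ + 1) hσ
  set C0 := conv f g σ with hC0def
  set C1 := conv f g (σ + 1) with hC1def
  -- the two laws
  let A : ℕ → ℝ := fun i => if i ≤ σ then f i * g (σ - i) else 0
  let B : ℕ → ℝ := fun i => if i ≤ σ + 1 then f i * g (σ + 1 - i) else 0
  have hA : ∀ i, i ≤ σ → A i = f i * g (σ - i) := fun i hi => by simp [A, hi]
  have hB : ∀ i, i ≤ σ + 1 → B i = f i * g (σ + 1 - i) := fun i hi => by simp [B, hi]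
  have hA0 : ∀ i, 0 ≤ A i := fun i => by
    by_cases hi : i ≤ σ
    · rw [hA i hi]; exact mul_nonneg (hf.nonneg _) (hg.nonneg _)
    · simp [A, hi]
  have hB0 : ∀ i, 0 ≤ B i := fun i => by
    by_cases hi : i ≤ σ + 1
    · rw [hB i hi]; exact mul_nonneg (hf.nonneg _) (hg.nonneg _)
    · simp [B, hi]
  have hAs : ∑ i ∈ range (σ + 1), A i = C0 := by
    rw [hC0def]
    unfold conv
    apply Finset.sum_congr rfl
    intro i hi
    rw [Finset.mem_range] at hi
    exact hA i (by omega)
  have hAs' : ∑ i ∈ range (σ + 2), A i = C0 := by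
    rw [Finset.sum_range_succ, hAs]
    simp [A]
  have hBs : ∑ i ∈ range (σ + 2), B i = C1 := by
    rw [hC1def]
    unfold conv
    apply Finset.sum_congr rfl
    intro i hi
    rw [Finset.mem_range] at hi
    exact hB i (by omega)
  let D : ℕ → ℝ := fun i => ∑ k ∈ range i, (A k * C1 - B k * C0)
  have hD0 : ∀ i, i ≤ σ + 2 → 0 ≤ D i := by
    intro i hi
    have := partial_sum_le (a := A) (b := B) (p := i) (n := σ + 2) hi ?_
    · rw [hAs', hBs] at this
      have e : D i = (∑ k ∈ range i, A k) * C1 - (∑ k ∈ range i, B k) * C0 := by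
        simp only [D]
        rw [Finset.sum_sub_distrib, Finset.sum_mul, Finset.sum_mul]
      rw [e]
      linarith
    · intro x hx k hk hk2
      by_cases hkσ : k ≤ σ
      · rw [hA k hkσ, hA x (by omega), hB k (by omega), hB x (by omega)]
        have h1 := hg.tp (i := σ - k) (k := σ - x) (d := 1) (by omega)
        have e1 : σ - x + 1 = σ + 1 - x := by omega
        have e2 : σ - k + 1 = σ + 1 - k := by omega
        rw [e1, e2] at h1
        have h2 : 0 ≤ f x * f k := mul_nonneg (hf.nonneg _) (hf.nonneg _)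
        calc f x * g (σ + 1 - x) * (f k * g (σ - k))
            = (f x * f k) * (g (σ - k) * g (σ + 1 - x)) := by ring
          _ ≤ (f x * f k) * (g (σ + 1 - k) * g (σ - x)) := mul_le_mul_of_nonneg_left h1 h2
          _ = f x * g (σ - x) * (f k * g (σ + 1 - k)) := by ring
      · have : A k = 0 := by simp [A, hkσ]
        rw [this, mul_zero]
        exact mul_nonneg (hA0 _) (hB0 _)
  have hD1 : ∀ i, i ≤ σ + 1 → D i ≤ B i * C0 := by
    intro i hi
    -- `∑_{k<i} A k * C1 ≤ ∑_{k<i+1} B k * C0`
    have key : (∑ k ∈ range i, A k) * C1 ≤ (∑ k ∈ range (i + 1), B k) * C0 := by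
      have h1 := partial_sum_le (a := fun k => B (k + 1)) (b := A) (p := i) (n := σ + 1) hi ?_
      · rw [hAs] at h1
        have e1 : C1 = ∑ k ∈ range (σ + 1), B (k + 1) + B 0 := by
          rw [← hBs, Finset.sum_range_succ']
        have e2 : ∑ k ∈ range (i + 1), B k = ∑ k ∈ range i, B (k + 1) + B 0 := by
          rw [Finset.sum_range_succ']
        have h3 : ∑ k ∈ range i, A k ≤ C0 := by
          rw [← hAs]
          apply Finset.sum_le_sum_of_subset_of_nonneg
          · intro x hx
            rw [Finset.mem_range] at hx ⊢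
            omega
          · intro x _ _
            exact hA0 x
        rw [e2, e1]
        have h4 : (∑ k ∈ range i, A k) * B 0 ≤ C0 * B 0 :=
          mul_le_mul_of_nonneg_right h3 (hB0 0)
        nlinarith [h1, h4]
      · intro x hx k hk hk2
        rw [hA k (by omega), hA x (by omega), hB (k + 1) (by omega), hB (x + 1) (by omega)]
        have h1 := hf.tp (i := x) (k := k) (d := 1) (by omega)
        have e1 : σ + 1 - (x + 1) = σ - x := by omega
        have e2 : σ + 1 - (k + 1) = σ - k := by omega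
        rw [e1, e2]
        have h2 : 0 ≤ g (σ - x) * g (σ - k) := mul_nonneg (hg.nonneg _) (hg.nonneg _)
        calc f x * g (σ - x) * (f (k + 1) * g (σ - k))
            = (f x * f (k + 1)) * (g (σ - x) * g (σ - k)) := by ring
          _ ≤ (f (x + 1) * f k) * (g (σ - x) * g (σ - k)) := mul_le_mul_of_nonneg_right h1 h2
          _ = f (x + 1) * g (σ - x) * (f k * g (σ - k)) := by ring
    have e : D i = (∑ k ∈ range i, A k) * C1 - (∑ k ∈ range i, B k) * C0 := by
      simp only [D]
      rw [Finset.sum_sub_distrib, Finset.sum_mul, Finset.sum_mul]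
    rw [Finset.sum_range_succ, add_mul] at key
    rw [e]
    linarith
  -- the coupling
  let τ : ℕ → ℝ := fun i => if i ≤ σ + 1 then D i / (B i * C0) else 0
  have hτB : ∀ i, i ≤ σ + 1 → τ i * (B i * C0) = D i := by
    intro i hi
    simp only [τ, if_pos hi]
    by_cases h : B i * C0 = 0
    · have h1 := hD1 i hi
      have h2 := hD0 i (by omega)
      rw [h] at h1 ⊢
      rw [mul_zero]
      linarith
    · exact div_mul_cancel₀ _ h
  refine ⟨τ, ?_, ?_, ?_, ?_, ?_⟩
  · intro i
    by_cases hi : i ≤ σ + 1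
    · simp only [τ, if_pos hi]
      exact div_nonneg (hD0 i (by omega)) (mul_nonneg (hB0 i) hC0.le)
    · simp only [τ, if_neg hi]; exact le_rfl
  · intro i
    by_cases hi : i ≤ σ + 1
    · simp only [τ, if_pos hi]
      exact div_le_one_of_le₀ (hD1 i hi) (mul_nonneg (hB0 i) hC0.le)
    · simp only [τ, if_neg hi]; exact zero_le_one
  · simp [τ, D]
  · by_cases h : f (σ + 1) = 0
    · rw [h, mul_zero]
    · have hg0 : 0 < g 0 := hg.pos 0 (Nat.zero_le _)
      have hfpos : 0 < f (σ + 1) := lt_of_le_of_ne (hf.nonneg _) (Ne.symm h)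
      have hBσ : B (σ + 1) = f (σ + 1) * g 0 := by
        rw [hB (σ + 1) le_rfl, Nat.sub_self]
      have hBpos : 0 < B (σ + 1) := by rw [hBσ]; exact mul_pos hfpos hg0
      have hD : D (σ + 1) = B (σ + 1) * C0 := by
        simp only [D]
        rw [Finset.sum_sub_distrib, ← Finset.sum_mul, ← Finset.sum_mul, hAs]
        have : ∑ k ∈ range (σ + 1), B k = C1 - B (σ + 1) := by
          rw [← hBs, Finset.sum_range_succ B (σ + 1)]
          ring
        rw [this]
        ring
      have h1 : τ (σ + 1) = 1 := by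
        simp only [τ, if_pos le_rfl]
        rw [hD]
        exact div_self (ne_of_gt (mul_pos hBpos hC0))
      rw [h1, sub_self, zero_mul]
  · intro i hi
    have h1 := hτB i (by omega)
    have h2 := hτB (i + 1) (by omega)
    have h3 : D (i + 1) = D i + (A i * C1 - B i * C0) := by
      simp only [D]
      rw [Finset.sum_range_succ]
    have e1 : f i * g (σ - i) = A i := (hA i hi).symm
    have e2 : f i * g (σ + 1 - i) = B i := (hB i (by omega)).symm
    have e3 : f (i + 1) * g (σ - i) = B (i + 1) := by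
      rw [hB (i + 1) (by omega)]
      congr 2
      omega
    rw [e1, e2, e3]
    have : A i * C1 = D (i + 1) - D i + B i * C0 := by rw [h3]; ring
    rw [this, ← h2, ← h1]
    ring

end Vale.Agent.Lib.P328
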