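import Vale.Agent.Lib.P328.Level
import Vale.Agent.Lib.P328.TwoFactor

/-!
P328, module Coupling: the monotone coupling of product log-concave weights conditioned on the sum.
-/

namespace Vale.Agent.Lib.P328

open Finset

variable {J : Type} [Fintype J] [DecidableEq J]

/-- truncation -/
noncomputable def trc (S : ℕ) (f : ℕ → ℝ) (i : ℕ) : ℝ := if i ≤ S then f i else 0

/-- column weights which are positive and log-concave on `[0, s l]` -/
structure LCW (ψ : J → ℕ → ℝ) (s : J → ℕ) : Prop where
  pos : ∀ l, ∀ v ≤ s l, 0 < ψ l v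
  lc : ∀ l v, v + 2 ≤ s l → ψ l v * ψ l (v + 2) ≤ ψ l (v + 1) ^ 2

theorem LCW.slice {ψ : J → ℕ → ℝ} {s : J → ℕ} (h : LCW ψ s) (b : J) :
    LCW (psB ψ b) (sB s b) := by
  constructor
  · intro l v hv
    by_cases hl : l = b
    · subst hl
      simp [psB]
    · simp only [psB, sB, Function.update_of_ne hl] at hv ⊢
      exact h.pos l v hv
  · intro l v hv
    by_cases hl : l = b
    · subst hl
      simp [sB] at hv
    · simp only [psB, sB, Function.update_of_ne hl] at hv ⊢
      exact h.lc l v hv

theorem LCW.trc {ψ : J → ℕ → ℝ} {s : J → ℕ} (h : LCW ψ s) (b : J) :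
    LC (trc (s b) (ψ b)) (s b) := by
  constructor
  · intro i hi
    simp only [P328.trc, if_pos hi]
    exact h.pos b i hi
  · intro i hi
    simp only [P328.trc, if_neg (not_le.2 hi)]
  · intro i
    by_cases hi : i + 2 ≤ s b
    · simp only [P328.trc, if_pos hi, if_pos (show i ≤ s b by omega),
        if_pos (show i + 1 ≤ s b by omega)]
      exact h.lc b i hi
    · simp only [P328.trc, if_neg hi, mul_zero]
      positivity

/-- slicing a weighted sum, full range -/
theorem sum_slice_wt (ψ : J → ℕ → ℝ) (s : J → ℕ) (b : J) (ρ : ℕ) (F : (J → ℕ) → ℝ) :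
    ∑ w ∈ lev s ρ, wt ψ w * F w =
      ∑ i ∈ range (ρ + 1), trc (s b) (ψ b) i *
        ∑ v ∈ lev (sB s b) (ρ - i), wt (psB ψ b) v * F (Function.update v b i) := by
  rw [sum_slice s b ρ]
  symm
  have hsub : range (min (s b) ρ + 1) ⊆ range (ρ + 1) := by
    intro x hx
    rw [Finset.mem_range] at hx ⊢
    omega
  rw [← Finset.sum_subset hsub]
  · apply Finset.sum_congr rfl
    intro i hi
    rw [Finset.mem_range] at hi
    rw [Finset.mul_sum]
    apply Finset.sum_congr rfl
    intro v _
    rw [wt_slice, trc, if_pos (by omega)]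
    ring
  · intro i hi hi2
    rw [Finset.mem_range] at hi hi2
    rw [trc, if_neg (by omega), zero_mul]

theorem ZZ_conv (ψ : J → ℕ → ℝ) (s : J → ℕ) (b : J) (j : ℕ) :
    ZZ ψ s j = conv (trc (s b) (ψ b)) (ZZ (psB ψ b) (sB s b)) j := by
  have h := sum_slice_wt ψ s b j (fun _ => 1)
  simp only [mul_one] at h
  exact h

private theorem ZZ_LC_aux (B : Finset J) : ∀ (ψ : J → ℕ → ℝ) (s : J → ℕ), LCW ψ s →
    (∀ l, l ∉ B → s l = 0) → LC (ZZ ψ s) (∑ l, s l) := by
  induction B using Finset.induction_on with
  | empty =>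
    intro ψ s h hs
    have hs0 : s = 0 := by
      funext l
      exact hs l (Finset.notMem_empty l)
    subst hs0
    have hsum : ∑ l : J, (0 : J → ℕ) l = 0 := by simp
    rw [hsum]
    constructor
    · intro i hi
      apply ZZ_pos h.pos
      rw [hsum]
      exact hi
    · intro i hi
      apply ZZ_eq_zero
      rw [hsum]
      exact hi
    · intro i
      rw [ZZ_eq_zero (j := i + 2) (by rw [hsum]; omega), mul_zero]
      positivity
  | insert b B' hb ih =>
    intro ψ s h hs
    have h1 : LC (ZZ (psB ψ b) (sB s b)) (∑ l, sB s b l) := by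
      apply ih _ _ (h.slice b)
      intro l hl
      by_cases hlb : l = b
      · subst hlb
        simp [sB]
      · simp only [sB, Function.update_of_ne hlb]
        apply hs
        simp [hlb, hl]
    have h2 := (h.trc b).conv h1
    have h3 : ZZ ψ s = conv (trc (s b) (ψ b)) (ZZ (psB ψ b) (sB s b)) := by
      funext j
      exact ZZ_conv ψ s b j
    rw [h3]
    have h4 : s b + ∑ l, sB s b l = ∑ l, s l := by
      rw [← sum_sB s b]
      ring
    rw [← h4]
    exact h2

/-- the level weights form a log-concave sequence -/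
theorem ZZ_LC {ψ : J → ℕ → ℝ} {s : J → ℕ} (h : LCW ψ s) : LC (ZZ ψ s) (∑ l, s l) :=
  ZZ_LC_aux Finset.univ ψ s h (fun l hl => absurd (Finset.mem_univ l) hl)

/-- one coupling step -/
private def Cpl (ψ : J → ℕ → ℝ) (s : J → ℕ) (σ : ℕ) (κ : (J → ℕ) → J → ℝ) : Prop :=
  (∀ v a, 0 ≤ κ v a) ∧ (∀ v a, v a = 0 → κ v a = 0) ∧ (∀ v ∈ lev s (σ + 1), ∑ a, κ v a = 1) ∧
    ∀ F : (J → ℕ) → ℝ, ZZ ψ s (σ + 1) * ∑ v ∈ lev s σ, wt ψ v * F v =
      ZZ ψ s σ * ∑ v ∈ lev s (σ + 1), wt ψ v * ∑ a, κ v a * F (v - e a)

private theorem cpl_step {ψ : J → ℕ → ℝ} {s : J → ℕ} (h : LCW ψ s) (b : J)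
    (ih : ∀ σ, σ + 1 ≤ ∑ l, sB s b l → ∃ κ, Cpl (psB ψ b) (sB s b) σ κ) {σ : ℕ}
    (hσ : σ + 1 ≤ ∑ l, s l) : ∃ κ, Cpl ψ s σ κ := by
  classical
  set s' := sB s b with hs'
  set ψ' := psB ψ b with hψ'
  set f := trc (s b) (ψ b) with hf
  set g := ZZ ψ' s' with hg
  have hLf : LC f (s b) := h.trc b
  have hLg : LC g (∑ l, s' l) := ZZ_LC (h.slice b)
  have hsum : ∑ l, s' l + s b = ∑ l, s l := sum_sB s b
  obtain ⟨τ, hτ0, hτ1, hτz, hτe, hτ⟩ := two_factor hLf hLg (σ := σ) (by omega)
  have ih' : ∀ σ', ∃ κ : (J → ℕ) → J → ℝ, σ' + 1 ≤ ∑ l, s' l → Cpl ψ' s' σ' κ := by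
    intro σ'
    by_cases hc : σ' + 1 ≤ ∑ l, s' l
    · obtain ⟨κ, hκ⟩ := ih σ' hc
      exact ⟨κ, fun _ => hκ⟩
    · exact ⟨fun _ _ => 0, fun hc' => absurd hc' hc⟩
  choose κ' hκ' using ih'
  -- make the family nonnegative everywhere
  let ν : ℕ → (J → ℕ) → J → ℝ := fun σ' v a => if σ' + 1 ≤ ∑ l, s' l then κ' σ' v a else 0
  have hν0 : ∀ σ' v a, 0 ≤ ν σ' v a := by
    intro σ' v a
    by_cases hc : σ' + 1 ≤ ∑ l, s' l
    · simp only [ν, if_pos hc]
      exact (hκ' σ' hc).1 v a
    · simp only [ν, if_neg hc]; exact le_rfl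
  have hνz : ∀ σ' v a, v a = 0 → ν σ' v a = 0 := by
    intro σ' v a hva
    by_cases hc : σ' + 1 ≤ ∑ l, s' l
    · simp only [ν, if_pos hc]
      exact (hκ' σ' hc).2.1 v a hva
    · simp only [ν, if_neg hc]
  have hνs : ∀ σ', ∀ v ∈ lev s' (σ' + 1), ∑ a, ν σ' v a = 1 := by
    intro σ' v hv
    by_cases hc : σ' + 1 ≤ ∑ l, s' l
    · simp only [ν, if_pos hc]
      exact (hκ' σ' hc).2.2.1 v hv
    · rw [lev_empty (by omega)] at hv
      exact absurd hv (Finset.notMem_empty v)
  have hνF : ∀ σ', σ' + 1 ≤ ∑ l, s' l → ∀ F : (J → ℕ) → ℝ,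
      g (σ' + 1) * ∑ v ∈ lev s' σ', wt ψ' v * F v =
      g σ' * ∑ v ∈ lev s' (σ' + 1), wt ψ' v * ∑ a, ν σ' v a * F (v - e a) := by
    intro σ' hc F
    simp only [ν, if_pos hc]
    exact (hκ' σ' hc).2.2.2 F
  let κ : (J → ℕ) → J → ℝ := fun v a =>
    if a = b then τ (v b) else (1 - τ (v b)) * ν (σ - v b) (Function.update v b 0) a
  have hsl : ∀ v ∈ lev s (σ + 1), Function.update v b 0 ∈ lev s' (σ + 1 - v b) := by
    intro v hv
    rw [mem_lev] at hv ⊢
    refine ⟨fun l => ?_, ?_⟩
    · by_cases hl : l = b
      · subst hl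
        simp
      · simp only [hs', sB, Function.update_of_ne hl]
        exact hv.1 l
    · rw [Finset.sum_update_of_mem (Finset.mem_univ b)]
      have h1 := Finset.add_sum_erase Finset.univ v (Finset.mem_univ b)
      rw [hv.2] at h1
      rw [← Finset.erase_eq]
      omega
  have hvb : ∀ v ∈ lev s (σ + 1), v b ≤ σ + 1 := by
    intro v hv
    have h1 := (mem_lev.1 hv).2
    have h2 : v b ≤ ∑ l, v l := Finset.single_le_sum (f := v) (fun i _ => Nat.zero_le _)
      (Finset.mem_univ b)
    omega
  refine ⟨κ, ?_, ?_, ?_, ?_⟩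
  · intro v a
    by_cases ha : a = b
    · simp only [κ, if_pos ha]; exact hτ0 _
    · simp only [κ, if_neg ha]
      exact mul_nonneg (by linarith [hτ1 (v b)]) (hν0 _ _ _)
  · intro v a hva
    by_cases ha : a = b
    · subst ha
      simp only [κ, if_pos rfl, hva, hτz]
    · simp only [κ, if_neg ha]
      rw [hνz, mul_zero]
      rw [Function.update_of_ne ha]
      exact hva
  · intro v hv
    have h1 : ∑ a, κ v a = τ (v b) +
        (1 - τ (v b)) * ∑ a, ν (σ - v b) (Function.update v b 0) a := by
      rw [← Finset.add_sum_erase Finset.univ (κ v) (Finset.mem_univ b),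
        ← Finset.add_sum_erase Finset.univ (ν (σ - v b) (Function.update v b 0))
          (Finset.mem_univ b)]
      rw [hνz _ _ b (Function.update_self ..), zero_add, Finset.mul_sum]
      congr 1
      · simp only [κ, if_pos rfl]
      · apply Finset.sum_congr rfl
        intro a ha
        simp only [κ, if_neg (Finset.ne_of_mem_erase ha)]
    rw [h1]
    rcases Nat.lt_or_ge (v b) (σ + 1) with hlt | hge
    · have h2 := hνs (σ - v b) (Function.update v b 0) (by
        have := hsl v hv
        have e1 : σ - v b + 1 = σ + 1 - v b := by omega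
        rw [e1]
        exact this)
      rw [h2]
      ring
    · have h3 : v b = σ + 1 := le_antisymm (hvb v hv) hge
      have h4 : 0 < f (σ + 1) := by
        apply hLf.pos
        rw [← h3]
        exact (mem_lev.1 hv).1 b
      have h5 : 1 - τ (σ + 1) = 0 := by
        rcases mul_eq_zero.1 hτe with h6 | h6
        · exact h6
        · exact absurd h6 h4.ne'
      rw [h3, h5, zero_mul, add_zero]
      linarith
  · intro F
    have hC0 : ZZ ψ s σ = conv f g σ := ZZ_conv ψ s b σ
    have hC1 : ZZ ψ s (σ + 1) = conv f g (σ + 1) := ZZ_conv ψ s b (σ + 1)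
    rw [hC0, hC1, sum_slice_wt ψ s b σ F]
    have hR := sum_slice_wt ψ s b (σ + 1) (fun v => ∑ a, κ v a * F (v - e a))
    rw [hR]
    rw [← hs', ← hψ', ← hf]
    -- the two parts of the right hand side
    let W : ℕ → ℝ := fun i => ∑ v ∈ lev s' (σ - i), wt ψ' v * F (Function.update v b i)
    let V : ℕ → ℝ := fun i => ∑ v ∈ lev s' (σ + 1 - i), wt ψ' v *
      ∑ a, ν (σ - i) v a * F (Function.update (v - e a) b i)
    have hterm : ∀ i ∈ range (σ + 2), f i * ∑ v ∈ lev s' (σ + 1 - i), wt ψ' v *
        ∑ a, κ (Function.update v b i) a * F (Function.update v b i - e a) =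
        (if i = 0 then 0 else τ i * f i * W (i - 1)) +
          (if i ≤ σ then (1 - τ i) * f i * V i else 0) := by
      intro i hi
      rw [Finset.mem_range] at hi
      have hin : ∀ v ∈ lev s' (σ + 1 - i),
          ∑ a, κ (Function.update v b i) a * F (Function.update v b i - e a) =
          τ i * F (Function.update v b i - e b) +
            (1 - τ i) * ∑ a, ν (σ - i) v a * F (Function.update (v - e a) b i) := by
        intro v hv
        have hvb0 : v b = 0 := by
          have := (mem_lev.1 hv).1 b
          simp only [hs', sB, Function.update_self] at this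
          omega
        have hup : Function.update v b 0 = v := by
          rw [← hvb0, Function.update_eq_self]
        rw [← Finset.add_sum_erase Finset.univ _ (Finset.mem_univ b)]
        rw [← Finset.add_sum_erase Finset.univ
          (fun a => ν (σ - i) v a * F (Function.update (v - e a) b i)) (Finset.mem_univ b)]
        rw [hνz _ _ b hvb0, zero_mul, zero_add, Finset.mul_sum]
        congr 1
        · simp only [κ, if_pos rfl, Function.update_self]
        · apply Finset.sum_congr rfl
          intro a ha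
          have hab := Finset.ne_of_mem_erase ha
          simp only [κ, if_neg hab, Function.update_self, Function.update_idem, hup]
          have e1 : Function.update v b i - e a = Function.update (v - e a) b i := by
            funext l
            by_cases hl : l = b
            · subst hl
              simp [Pi.sub_apply, e_ne (Ne.symm hab)]
            · simp [Pi.sub_apply, hl]
          rw [e1]
          ring
      rw [Finset.sum_congr rfl (fun v hv => by rw [hin v hv])]
      have hsplit : ∑ v ∈ lev s' (σ + 1 - i), wt ψ' v *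
          (τ i * F (Function.update v b i - e b) +
            (1 - τ i) * ∑ a, ν (σ - i) v a * F (Function.update (v - e a) b i)) =
          τ i * (∑ v ∈ lev s' (σ + 1 - i), wt ψ' v * F (Function.update v b i - e b)) +
            (1 - τ i) * V i := by
        simp only [V]
        rw [Finset.mul_sum, Finset.mul_sum, ← Finset.sum_add_distrib]
        apply Finset.sum_congr rfl
        intro v _
        ring
      rw [hsplit, mul_add]
      congr 1
      · by_cases hi0 : i = 0
        · subst hi0
          rw [hτz]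
          simp
        · rw [if_neg hi0]
          have e1 : σ - (i - 1) = σ + 1 - i := by omega
          simp only [W, e1]
          rw [← mul_assoc, mul_comm (f i) (τ i)]
          congr 1
          apply Finset.sum_congr rfl
          intro v _
          congr 2
          funext l
          by_cases hl : l = b
          · subst hl
            simp [Pi.sub_apply, e_same]
          · simp [Pi.sub_apply, e_ne hl, hl]
      · by_cases hiσ : i ≤ σ
        · rw [if_pos hiσ]
          ring
        · rw [if_neg hiσ]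
          have hi1 : i = σ + 1 := by omega
          subst hi1
          rw [← mul_assoc, mul_comm (f (σ + 1)), hτe, zero_mul]
    rw [Finset.sum_congr rfl hterm, Finset.sum_add_distrib]
    have hA : ∑ i ∈ range (σ + 2), (if i = 0 then 0 else τ i * f i * W (i - 1)) =
        ∑ i ∈ range (σ + 1), τ (i + 1) * f (i + 1) * W i := by
      rw [Finset.sum_range_succ']
      simp
    have hB : ∑ i ∈ range (σ + 2), (if i ≤ σ then (1 - τ i) * f i * V i else 0) =
        ∑ i ∈ range (σ + 1), (1 - τ i) * f i * V i := by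
      rw [Finset.sum_range_succ, if_neg (by omega), add_zero]
      apply Finset.sum_congr rfl
      intro i hi
      rw [Finset.mem_range] at hi
      rw [if_pos (by omega)]
    rw [hA, hB, ← Finset.sum_add_distrib, Finset.mul_sum, Finset.mul_sum]
    apply Finset.sum_congr rfl
    intro i hi
    rw [Finset.mem_range] at hi
    have h2 := hτ i (by omega)
    show conv f g (σ + 1) * (f i * W i) = _
    by_cases hc : σ - i ≤ ∑ l, s' l
    · have hgpos : 0 < g (σ - i) := hLg.pos _ hc
      by_cases hc2 : σ + 1 - i ≤ ∑ l, s' l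
      · have e1 : σ - i + 1 = σ + 1 - i := by omega
        have h3 := hνF (σ - i) (by omega) (fun v => F (Function.update v b i))
        rw [e1] at h3
        have h3' : g (σ + 1 - i) * W i = g (σ - i) * V i := h3
        have key : g (σ - i) * (conv f g (σ + 1) * (f i * W i)) =
            g (σ - i) * (conv f g σ * (τ (i + 1) * f (i + 1) * W i + (1 - τ i) * f i * V i)) := by
          calc g (σ - i) * (conv f g (σ + 1) * (f i * W i))
              = (f i * g (σ - i) * conv f g (σ + 1)) * W i := by ring
            _ = conv f g σ * ((1 - τ i) * (f i * g (σ + 1 - i)) +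
                  τ (i + 1) * (f (i + 1) * g (σ - i))) * W i := by rw [h2]
            _ = conv f g σ * ((1 - τ i) * f i * (g (σ + 1 - i) * W i) +
                  τ (i + 1) * f (i + 1) * (g (σ - i) * W i)) := by ring
            _ = conv f g σ * ((1 - τ i) * f i * (g (σ - i) * V i) +
                  τ (i + 1) * f (i + 1) * (g (σ - i) * W i)) := by rw [h3']
            _ = _ := by ring
        exact mul_left_cancel₀ hgpos.ne' key
      · have hg0 : g (σ + 1 - i) = 0 := hLg.zero _ (by omega)
        have hV0 : V i = 0 := by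
          simp only [V]
          rw [lev_empty (by omega), Finset.sum_empty]
        rw [hg0, mul_zero, mul_zero, zero_add] at h2
        have key : g (σ - i) * (conv f g (σ + 1) * (f i * W i)) =
            g (σ - i) * (conv f g σ * (τ (i + 1) * f (i + 1) * W i + (1 - τ i) * f i * V i)) := by
          rw [hV0]
          calc g (σ - i) * (conv f g (σ + 1) * (f i * W i))
              = (f i * g (σ - i) * conv f g (σ + 1)) * W i := by ring
            _ = conv f g σ * (τ (i + 1) * (f (i + 1) * g (σ - i))) * W i := by rw [h2]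
            _ = _ := by ring
        exact mul_left_cancel₀ hgpos.ne' key
    · have hW0 : W i = 0 := by
        simp only [W]
        rw [lev_empty (by omega), Finset.sum_empty]
      have hV0 : V i = 0 := by
        simp only [V]
        rw [lev_empty (by omega), Finset.sum_empty]
      rw [hW0, hV0]
      ring

private theorem cpl_aux (B : Finset J) : ∀ (ψ : J → ℕ → ℝ) (s : J → ℕ), LCW ψ s →
    (∀ l, l ∉ B → s l = 0) → ∀ σ, σ + 1 ≤ ∑ l, s l → ∃ κ, Cpl ψ s σ κ := by
  induction B using Finset.induction_on with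
  | empty =>
    intro ψ s h hs σ hσ
    have hs0 : ∑ l, s l = 0 := Finset.sum_eq_zero fun l _ => hs l (Finset.notMem_empty l)
    omega
  | insert b B' hb ih =>
    intro ψ s h hs σ hσ
    apply cpl_step h b _ hσ
    intro σ' hσ'
    apply ih _ _ (h.slice b) _ σ' hσ'
    intro l hl
    by_cases hlb : l = b
    · subst hlb
      simp [sB]
    · simp only [sB, Function.update_of_ne hlb]
      apply hs
      simp [hlb, hl]

/-- Monotone coupling: from the weight on level `σ + 1` one obtains the weight on level `σ` by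
removing one unit, column `a` with probability `κ v a`. -/
theorem coupling {ψ : J → ℕ → ℝ} {s : J → ℕ} (h : LCW ψ s) {σ : ℕ} (hσ : σ + 1 ≤ ∑ l, s l) :
    ∃ κ : (J → ℕ) → J → ℝ, (∀ v a, 0 ≤ κ v a) ∧ (∀ v a, v a = 0 → κ v a = 0) ∧
      (∀ v ∈ lev s (σ + 1), ∑ a, κ v a = 1) ∧
      ∀ F : (J → ℕ) → ℝ, ZZ ψ s (σ + 1) * ∑ v ∈ lev s σ, wt ψ v * F v =
        ZZ ψ s σ * ∑ v ∈ lev s (σ + 1), wt ψ v * ∑ a, κ v a * F (v - e a) :=
  cpl_aux Finset.univ ψ s h (fun l hl => absurd (Finset.mem_univ l) hl) σ hσ

end Vale.Agent.Lib.P328
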