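import Vale.Agent.Lib.P328.Phi
import Vale.Agent.Lib.P328.Coupling

/-!
P328, module LCW: the weights of a two row fibre are log-concave.
-/

namespace Vale.Agent.Lib.P328

open Finset

variable {J : Type} [Fintype J] [DecidableEq J]

/-- the weights of a two row fibre are log-concave: products of `phi_logconcave`, the first factor
read backwards -/
theorem lcw_psi (s T T' : J → ℕ) : LCW (psi s T T') s := by
  constructor
  · intro l v _
    exact mul_pos (phi_pos _ _) (phi_pos _ _)
  · intro l v hv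
    unfold psi
    obtain ⟨z, hz⟩ := Nat.exists_eq_add_of_le hv
    have e0 : s l - v = z + 2 := by omega
    have e1 : s l - (v + 1) = z + 1 := by omega
    have e2 : s l - (v + 2) = z := by omega
    rw [e0, e1, e2]
    have h1 := phi_logconcave (T l) z
    have h2 := phi_logconcave (T' l) v
    calc phi (T l) (z + 2) * phi (T' l) v * (phi (T l) z * phi (T' l) (v + 2))
        = (phi (T l) z * phi (T l) (z + 2)) * (phi (T' l) v * phi (T' l) (v + 2)) := by ring
      _ ≤ phi (T l) (z + 1) ^ 2 * phi (T' l) (v + 1) ^ 2 :=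
          mul_le_mul h1 h2 (mul_nonneg (phi_pos _ _).le (phi_pos _ _).le) (sq_nonneg _)
      _ = (phi (T l) (z + 1) * phi (T' l) (v + 1)) ^ 2 := by ring

theorem lcw_psB {ψ : J → ℕ → ℝ} {s : J → ℕ} (h : LCW ψ s) (b : J) : LCW (psB ψ b) (sB s b) :=
  h.slice b

theorem ZZ_lc {ψ : J → ℕ → ℝ} {s : J → ℕ} (h : LCW ψ s) : LC (ZZ ψ s) (∑ l, s l) :=
  ZZ_LC h

end Vale.Agent.Lib.P328
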