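import Vale.Agent.Lib.P328.Fibre
import Vale.Agent.Lib.P328.FibrePoincare
import Vale.Agent.Lib.P328.EvarMap
import Vale.Agent.Lib.P328.LCW

/-!
P328, module EvarFibre: from pairs of rows to two by two minors.
-/

namespace Vale.Agent.Lib.P328

open Finset

variable {I J : Type} [Fintype I] [DecidableEq I] [Fintype J] [DecidableEq J]

theorem evarFibre_pi (o k : I) (hk : k ≠ o) (s : J → ℕ) (P : I → J → ℕ) (l l' : J)
    (x y : J → ℕ) :
    piL o k l l' (join o k s P x) = piL o k l l' (join o k s P y) ↔ pi2 l l' x = pi2 l l' y := by
  have hrow : ∀ z : J → ℕ, join o k s P z k = z := fun z => by simp [join]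
  constructor
  · intro h
    funext j
    have h1 := congrFun (congrFun h k) j
    simp only [piL, hrow, or_true, true_and] at h1
    exact h1
  · intro h
    funext i j
    have hj := congrFun h j
    simp only [pi2] at hj
    by_cases hjl : j = l ∨ j = l'
    · by_cases hi : i = o ∨ i = k
      · simp [piL, hi, hjl]
      · have h1 : i ≠ o := fun h => hi (Or.inl h)
        have h2 : i ≠ k := fun h => hi (Or.inr h)
        simp [piL, join, h1, h2]
    · rw [if_neg hjl, if_neg hjl] at hj
      simp only [piL, hjl, and_false, if_false]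
      by_cases hik : i = k
      · subst hik
        rw [hrow, hrow, hj]
      · by_cases hio : i = o
        · subst hio
          simp [join, hik, hj]
        · simp [join, hik, hio]

theorem evarFibre_piK (o k : I) (l l' : J) (X Y : I → J → ℕ)
    (h : piL o k l l' X = piL o k l l' Y) : piK o k X = piK o k Y := by
  funext i
  by_cases hi : i = o ∨ i = k
  · simp [piK, hi]
  · funext j
    have h1 := congrFun (congrFun h i) j
    simp only [piL, hi, false_and, if_false] at h1
    simp [piK, hi, h1]

/-- Proof: `evar_split` with `σ = piK o k` for both sides (`piL` determines `piK` because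
`piK o k X = piK o k (piL o k l l' X)`), on each fibre `fibre_eq`, `evar_image` with
`j = join o k (cap c P) P`, `κ = rest τ o k P`, `tw_join`; the label `piK` becomes constant and
`piL o k l l'` becomes `pi2 l l'` (for `x, y` in the level: `join x` and `join y` agree outside the
columns `l`, `l'` iff `x` and `y` do); then `fibre_poincare` with `lcw_psi`. -/
theorem evar_rows (τ : I → J → ℕ) (r : I → ℕ) (c : J → ℕ) {o k : I} (hk : k ≠ o)
    (f : (I → J → ℕ) → ℝ) :
    evar (tab r c) (tw τ) (piK o k) f ≤
      ∑ l, ∑ l', evar (tab r c) (tw τ) (piL o k l l') f := by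
  have hL : evar (tab r c) (tw τ) (piK o k) f =
      ∑ P ∈ labels r c o k, rest τ o k P *
        evar (lev (cap c P) (r k)) (wt (psi (cap c P) (τ o) (τ k))) (fun _ => ())
          (fun x => f (join o k (cap c P) P x)) := by
    rw [evar_split (tab r c) (tw τ) (piK o k) (piK o k) (fun _ _ _ _ h => h) f]
    refine Finset.sum_congr rfl fun P hP => ?_
    have hP' : P ∈ labels r c o k := hP
    rw [fibre_eq hk hP']
    exact evar_image _ _ (join_injective o k _ P) _ _ (rest_pos τ o k P)
      (fun x _ => tw_join τ hk _ P x) _ _
      (fun x _ y _ => by simp [piK_join hP']) f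
  have hR : ∀ l l', evar (tab r c) (tw τ) (piL o k l l') f =
      ∑ P ∈ labels r c o k, rest τ o k P *
        evar (lev (cap c P) (r k)) (wt (psi (cap c P) (τ o) (τ k))) (pi2 l l')
          (fun x => f (join o k (cap c P) P x)) := by
    intro l l'
    rw [evar_split (tab r c) (tw τ) (piL o k l l') (piK o k)
      (fun X _ Y _ h => evarFibre_piK o k l l' X Y h) f]
    refine Finset.sum_congr rfl fun P hP => ?_
    have hP' : P ∈ labels r c o k := hP
    rw [fibre_eq hk hP']
    exact evar_image _ _ (join_injective o k _ P) _ _ (rest_pos τ o k P)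
      (fun x _ => tw_join τ hk _ P x) _ _
      (fun x _ y _ => evarFibre_pi o k hk _ P l l' x y) f
  rw [hL]
  simp only [hR]
  have hswap : ∑ l, ∑ l', ∑ P ∈ labels r c o k, rest τ o k P *
        evar (lev (cap c P) (r k)) (wt (psi (cap c P) (τ o) (τ k))) (pi2 l l')
          (fun x => f (join o k (cap c P) P x)) =
      ∑ P ∈ labels r c o k, rest τ o k P * ∑ l, ∑ l',
        evar (lev (cap c P) (r k)) (wt (psi (cap c P) (τ o) (τ k))) (pi2 l l')
          (fun x => f (join o k (cap c P) P x)) := by
    simp only [Finset.mul_sum]
    rw [Finset.sum_congr rfl fun l _ => Finset.sum_comm, Finset.sum_comm]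
  rw [hswap]
  refine Finset.sum_le_sum fun P _ => ?_
  exact mul_le_mul_of_nonneg_left (fibre_poincare (lcw_psi _ _ _) _ _) (rest_pos τ o k P).le

end Vale.Agent.Lib.P328
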