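import Vale.Agent.Lib.P328.MetroA

/-!
P328, module Metro: the lazy Metropolis steps are symmetric and positive semidefinite; comparison
of the Dirichlet form with the conditional variances.
-/

namespace Vale.Agent.Lib.P328

open Finset

variable {I J : Type} [Fintype I] [DecidableEq I] [Fintype J] [DecidableEq J]

/-! ### auxiliary facts -/

private theorem Metro_id (τ : I → J → ℕ) {o k : I} {l l' : J} (h : k = o ∨ l = l')
    (f : (I → J → ℕ) → ℝ) (X : I → J → ℕ) : Pmin τ o k l l' f X = f X := by
  unfold Pmin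
  rw [if_pos h]

private theorem Metro_acc (τ : I → J → ℕ) (X Y : I → J → ℕ) :
    tw τ X * acc τ X Y = min (tw τ X) (tw τ Y) := by
  have h := tw_pos τ X
  unfold acc
  rw [mul_min_of_nonneg _ _ h.le, mul_one, mul_div_cancel₀ _ h.ne']

/-- swap the two sums over a class -/
private theorem Metro_swap (S : Finset (I → J → ℕ)) (o k : I) (l l' : J)
    (h : (I → J → ℕ) → (I → J → ℕ) → ℝ) :
    ∑ X ∈ S, ∑ Y ∈ S.filter (fun Y => piL o k l l' Y = piL o k l l' X), h X Y =
      ∑ X ∈ S, ∑ Y ∈ S.filter (fun Y => piL o k l l' Y = piL o k l l' X), h Y X := by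
  simp_rw [Finset.sum_filter]
  rw [Finset.sum_comm]
  apply Finset.sum_congr rfl
  intro X _
  apply Finset.sum_congr rfl
  intro Y _
  by_cases hXY : piL o k l l' X = piL o k l l' Y
  · rw [if_pos hXY, if_pos hXY.symm]
  · rw [if_neg hXY, if_neg fun h => hXY h.symm]

private theorem Metro_lineM {r : I → ℕ} {c : J → ℕ} {o k : I} (hk : k ≠ o) {l l' : J}
    (hl : l ≠ l') {X Y : I → J → ℕ} (hX : X ∈ tab r c)
    (hY : Y ∈ (tab r c).filter (fun Y => piL o k l l' Y = piL o k l l' X)) :
    lineM Y o k l l' = lineM X o k l l' := by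
  rw [class_line hk hl hX, Finset.mem_image] at hY
  obtain ⟨u, hu, rfl⟩ := hY
  rw [Finset.mem_range] at hu
  exact lineM_linePt hk hl X (by omega)

private theorem Metro_card {r : I → ℕ} {c : J → ℕ} {o k : I} (hk : k ≠ o) {l l' : J}
    (hl : l ≠ l') {X : I → J → ℕ} (hX : X ∈ tab r c) :
    ((tab r c).filter (fun Y => piL o k l l' Y = piL o k l l' X)).card =
      lineM X o k l l' + 1 := by
  rw [class_line hk hl hX, Finset.card_image_of_injective _ (fun u v h => linePt_inj hk hl X h),
    Finset.card_range]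

private theorem Metro_scalar {a b W n d : ℝ} (ha : 0 < a) (hb : 0 < b) (hW : 0 < W) (hn : 0 < n)
    (h1 : a * n ≤ 19683 * W) (h2 : b * n ≤ 19683 * W) (hd : 0 ≤ d) :
    a * b * d / (2 * W) ≤ 39366 * (min a b * d / (4 * n)) := by
  have h3 : a * b * n ≤ 19683 * W * min a b := by
    rcases le_total a b with h | h
    · rw [min_eq_left h]
      nlinarith
    · rw [min_eq_right h]
      nlinarith
  have h4 : a * b * n * d ≤ 19683 * W * min a b * d := mul_le_mul_of_nonneg_right h3 hd
  rw [mul_div_assoc', div_le_div_iff₀ (by positivity) (by positivity)]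
  linarith

omit [Fintype I] [DecidableEq I] [Fintype J] [DecidableEq J] in
/-- the Dirichlet form as a difference -/
private theorem Metro_sub (S : Finset (I → J → ℕ)) (w f g : (I → J → ℕ) → ℝ) :
    ∑ X ∈ S, w X * (f X * (f X - g X)) =
      ∑ X ∈ S, w X * (f X * f X) - ∑ X ∈ S, w X * (f X * g X) := by
  rw [← Finset.sum_sub_distrib]
  exact Finset.sum_congr rfl fun X _ => by ring

/-- all cases of `k`, `l`, `l'` (identity if `k = o` or `l = l'`).  Positivity: in
`∑ tw f Pmin f` the part `f X / 2` gives `|f|²/2` and the rest is at least `-|f|²/2`. -/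
theorem Pmin_sympsd (τ : I → J → ℕ) (r : I → ℕ) (c : J → ℕ) (o k : I) (l l' : J) :
    SymPSD (tab r c) (tw τ) (Pmin τ o k l l') := by
  by_cases hcase : k = o ∨ l = l'
  · constructor
    · intro a b F G x _
      rw [Metro_id τ hcase, Metro_id τ hcase, Metro_id τ hcase]
    · intro F G
      apply Finset.sum_congr rfl
      intro x _
      rw [Metro_id τ hcase, Metro_id τ hcase]
      ring
    · intro F
      apply Finset.sum_nonneg
      intro x _
      rw [Metro_id τ hcase]
      exact mul_nonneg (tw_pos τ x).le (mul_self_nonneg _)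
  have hk : k ≠ o := fun h => hcase (Or.inl h)
  have hl : l ≠ l' := fun h => hcase (Or.inr h)
  constructor
  · intro a b F G x hx
    rw [Pmin_eq τ hk hl _ hx, Pmin_eq τ hk hl _ hx, Pmin_eq τ hk hl _ hx]
    have h1 : ∑ Y ∈ (tab r c).filter (fun Y => piL o k l l' Y = piL o k l l' x),
        (acc τ x Y * (a * F Y + b * G Y) + (1 - acc τ x Y) * (a * F x + b * G x)) =
        a * ∑ Y ∈ (tab r c).filter (fun Y => piL o k l l' Y = piL o k l l' x),
          (acc τ x Y * F Y + (1 - acc τ x Y) * F x) +
        b * ∑ Y ∈ (tab r c).filter (fun Y => piL o k l l' Y = piL o k l l' x),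
          (acc τ x Y * G Y + (1 - acc τ x Y) * G x) := by
      rw [Finset.mul_sum, Finset.mul_sum, ← Finset.sum_add_distrib]
      exact Finset.sum_congr rfl fun Y _ => by ring
    rw [h1]
    ring
  · intro F G
    -- both sides in symmetric form
    have key : ∀ F G : (I → J → ℕ) → ℝ, ∑ X ∈ tab r c, tw τ X * (G X * Pmin τ o k l l' F X) =
        ∑ X ∈ tab r c, tw τ X * (F X * G X) / 2 +
        (∑ X ∈ tab r c, ∑ Y ∈ (tab r c).filter (fun Y => piL o k l l' Y = piL o k l l' X),
          (tw τ X - min (tw τ X) (tw τ Y)) * (F X * G X) / (2 * ((lineM X o k l l' : ℝ) + 1)) +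
        ∑ X ∈ tab r c, ∑ Y ∈ (tab r c).filter (fun Y => piL o k l l' Y = piL o k l l' X),
          min (tw τ X) (tw τ Y) * (G X * F Y) / (2 * ((lineM X o k l l' : ℝ) + 1))) := by
      intro F G
      rw [← Finset.sum_add_distrib, ← Finset.sum_add_distrib]
      apply Finset.sum_congr rfl
      intro X hX
      rw [Pmin_eq τ hk hl _ hX, ← Finset.sum_add_distrib, mul_add, mul_add, Finset.sum_div,
        Finset.mul_sum, Finset.mul_sum]
      congr 1
      · ring
      · apply Finset.sum_congr rfl
        intro Y _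
        rw [← Metro_acc]
        ring
    rw [key F G, key G F]
    congr 1
    · exact Finset.sum_congr rfl fun X _ => by ring
    · congr 1
      · exact Finset.sum_congr rfl fun X _ => Finset.sum_congr rfl fun Y _ => by ring
      · rw [Metro_swap]
        apply Finset.sum_congr rfl
        intro X hX
        apply Finset.sum_congr rfl
        intro Y hY
        rw [Metro_lineM hk hl hX hY, min_comm]
        ring
  · intro F
    have h1 := Pmin_form τ r c hk hl F
    rw [Metro_sub] at h1
    have h2 : ∑ X ∈ tab r c, (∑ Y ∈ (tab r c).filter (fun Y => piL o k l l' Y = piL o k l l' X),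
        min (tw τ X) (tw τ Y) * (F X - F Y) ^ 2) / (4 * ((lineM X o k l l' : ℝ) + 1)) ≤
        ∑ X ∈ tab r c, tw τ X * (F X * F X) := by
      have h3 : ∑ X ∈ tab r c, (∑ Y ∈ (tab r c).filter
          (fun Y => piL o k l l' Y = piL o k l l' X), min (tw τ X) (tw τ Y) * (F X - F Y) ^ 2) /
            (4 * ((lineM X o k l l' : ℝ) + 1)) ≤
          ∑ X ∈ tab r c, ∑ Y ∈ (tab r c).filter (fun Y => piL o k l l' Y = piL o k l l' X),
            (min (tw τ X) (tw τ Y) * (F X * F X) / (2 * ((lineM X o k l l' : ℝ) + 1)) +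
              min (tw τ X) (tw τ Y) * (F Y * F Y) / (2 * ((lineM X o k l l' : ℝ) + 1))) := by
        apply Finset.sum_le_sum
        intro X _
        rw [Finset.sum_div]
        apply Finset.sum_le_sum
        intro Y _
        have hm : 0 < min (tw τ X) (tw τ Y) := lt_min (tw_pos τ X) (tw_pos τ Y)
        have hn : (0 : ℝ) < (lineM X o k l l' : ℝ) + 1 := by positivity
        rw [← add_div, div_le_div_iff₀ (by positivity) (by positivity)]
        have h4 : (F X - F Y) ^ 2 ≤ 2 * (F X * F X + F Y * F Y) := by nlinarith [sq_nonneg (F X + F Y)]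
        have h5 : min (tw τ X) (tw τ Y) * (F X - F Y) ^ 2 ≤
            min (tw τ X) (tw τ Y) * (2 * (F X * F X + F Y * F Y)) :=
          mul_le_mul_of_nonneg_left h4 hm.le
        have h6 := mul_le_mul_of_nonneg_right h5
          (show 0 ≤ 2 * ((lineM X o k l l' : ℝ) + 1) by positivity)
        calc _ ≤ _ := h6
          _ = _ := by ring
      refine h3.trans ?_
      simp_rw [Finset.sum_add_distrib]
      have h7 : ∑ X ∈ tab r c, ∑ Y ∈ (tab r c).filter
          (fun Y => piL o k l l' Y = piL o k l l' X),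
            min (tw τ X) (tw τ Y) * (F Y * F Y) / (2 * ((lineM X o k l l' : ℝ) + 1)) =
          ∑ X ∈ tab r c, ∑ Y ∈ (tab r c).filter (fun Y => piL o k l l' Y = piL o k l l' X),
            min (tw τ X) (tw τ Y) * (F X * F X) / (2 * ((lineM X o k l l' : ℝ) + 1)) := by
        rw [Metro_swap]
        apply Finset.sum_congr rfl
        intro X hX
        apply Finset.sum_congr rfl
        intro Y hY
        rw [Metro_lineM hk hl hX hY, min_comm]
      rw [h7, ← Finset.sum_add_distrib]
      apply Finset.sum_le_sum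
      intro X hX
      rw [← Finset.sum_add_distrib]
      have hn : (0 : ℝ) < (lineM X o k l l' : ℝ) + 1 := by positivity
      calc ∑ Y ∈ (tab r c).filter (fun Y => piL o k l l' Y = piL o k l l' X),
            (min (tw τ X) (tw τ Y) * (F X * F X) / (2 * ((lineM X o k l l' : ℝ) + 1)) +
              min (tw τ X) (tw τ Y) * (F X * F X) / (2 * ((lineM X o k l l' : ℝ) + 1)))
          ≤ ∑ Y ∈ (tab r c).filter (fun Y => piL o k l l' Y = piL o k l l' X),
            tw τ X * (F X * F X) / ((lineM X o k l l' : ℝ) + 1) := by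
            apply Finset.sum_le_sum
            intro Y _
            have h8 : min (tw τ X) (tw τ Y) * (F X * F X) ≤ tw τ X * (F X * F X) :=
              mul_le_mul_of_nonneg_right (min_le_left _ _) (mul_self_nonneg _)
            rw [← add_div, div_le_div_iff₀ (by positivity) hn]
            have h9 := mul_le_mul_of_nonneg_right h8 hn.le
            linarith
        _ = tw τ X * (F X * F X) := by
            rw [Finset.sum_const, Metro_card hk hl hX, nsmul_eq_mul]
            push_cast
            field_simp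
    linarith

theorem Pmin_one (τ : I → J → ℕ) (o k : I) (l l' : J) (X : I → J → ℕ) :
    Pmin τ o k l l' (fun _ => 1) X = 1 := by
  unfold Pmin
  split_ifs
  · rfl
  · have h1 : ∑ u ∈ range (lineM X o k l l' + 1), (acc τ X (linePt X o k l l' u) * 1 +
        (1 - acc τ X (linePt X o k l l' u)) * 1) = (lineM X o k l l' : ℝ) + 1 := by
      have h2 : ∀ u ∈ range (lineM X o k l l' + 1), (acc τ X (linePt X o k l l' u) * 1 +
        (1 - acc τ X (linePt X o k l l' u)) * 1) = 1 := fun u _ => by ring
      rw [Finset.sum_congr rfl h2, Finset.sum_const, Finset.card_range, nsmul_eq_mul, mul_one]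
      push_cast
      ring
    have hn : (0 : ℝ) < (lineM X o k l l' : ℝ) + 1 := by positivity
    simp only [h1]
    field_simp
    norm_num

/-- `evar (piL) ≤ 39366 * form`: on a line with total weight `W` and `M + 1` points
`∑ w (f - f̄)² = (1/2W) ∑ w w' (f - f')²` (`class_var`), `w w' ≤ max * min w w'`,
`max * (M+1) ≤ 19683 W` (`class_weight`), and `Pmin_form`. -/
theorem evar_le_form (τ : I → J → ℕ) (r : I → ℕ) (c : J → ℕ) {o k : I} (hk : k ≠ o)
    {l l' : J} (hl : l ≠ l') (f : (I → J → ℕ) → ℝ) :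
    evar (tab r c) (tw τ) (piL o k l l') f ≤
      39366 * ∑ X ∈ tab r c, tw τ X * (f X * (f X - Pmin τ o k l l' f X)) := by
  rw [Pmin_form τ r c hk hl f, evar_eq_sum,
    ← Finset.sum_fiberwise_of_maps_to (g := piL o k l l') (t := (tab r c).image (piL o k l l'))
      (fun X hX => Finset.mem_image_of_mem _ hX), Finset.mul_sum]
  apply Finset.sum_le_sum
  intro b hb
  rw [class_var (tab r c) (tw τ) (fun x _ => tw_pos τ x) (piL o k l l') f b, Finset.sum_div]
  conv_rhs => rw [Finset.mul_sum]
  apply Finset.sum_le_sum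
  intro X hX
  obtain ⟨hXS, hXb⟩ := Finset.mem_filter.mp hX
  rw [hXb, Finset.sum_div, Finset.sum_div]
  conv_rhs => rw [Finset.mul_sum]
  apply Finset.sum_le_sum
  intro Y hY
  obtain ⟨hYS, hYb⟩ := Finset.mem_filter.mp hY
  have hWX := class_weight τ hk hl hXS
  have hWY := class_weight τ hk hl hYS
  have hlm : lineM Y o k l l' = lineM X o k l l' :=
    Metro_lineM hk hl hXS (Finset.mem_filter.mpr ⟨hYS, by rw [hYb, hXb]⟩)
  rw [hXb] at hWX
  rw [hYb, hlm] at hWY
  have hwX := tw_pos τ X
  have hwY := tw_pos τ Y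
  have hn : (0 : ℝ) < (lineM X o k l l' : ℝ) + 1 := by positivity
  set W := ∑ Y ∈ (tab r c).filter (fun Y => piL o k l l' Y = b), tw τ Y with hW
  have hWpos : 0 < W := by
    have : 0 < tw τ X * ((lineM X o k l l' : ℝ) + 1) := by positivity
    linarith
  exact Metro_scalar hwX hwY hWpos hn hWX hWY (sq_nonneg _)

/-- for `l = l'` the class is a single table -/
theorem evar_same (τ : I → J → ℕ) (r : I → ℕ) (c : J → ℕ) {o k : I} (hk : k ≠ o)
    (l : J) (f : (I → J → ℕ) → ℝ) : evar (tab r c) (tw τ) (piL o k l l) f = 0 := by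
  unfold evar
  apply Finset.sum_eq_zero
  intro X hX
  have h1 : (tab r c).filter (fun Y => piL o k l l Y = piL o k l l X) = {X} := by
    ext Y
    rw [Finset.mem_filter, Finset.mem_singleton]
    constructor
    · rintro ⟨hY, hYX⟩
      have hout : ∀ i j, ¬ ((i = o ∨ i = k) ∧ (j = l ∨ j = l)) → Y i j = X i j := by
        intro i j hij
        have h2 := congrFun (congrFun hYX i) j
        unfold piL at h2
        rwa [if_neg hij, if_neg hij] at h2
      have hrow : ∀ i, Y i l = X i l := by
        intro i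
        have hYr := (mem_tab.mp hY).1 i
        have hXr := (mem_tab.mp hX).1 i
        rw [← Finset.add_sum_erase _ _ (Finset.mem_univ l)] at hYr hXr
        have h3 : ∑ j ∈ univ.erase l, Y i j = ∑ j ∈ univ.erase l, X i j := by
          apply Finset.sum_congr rfl
          intro j hj
          apply hout
          rintro ⟨-, hj' | hj'⟩
          · exact Finset.ne_of_mem_erase hj hj'
          · exact Finset.ne_of_mem_erase hj hj'
        omega
      funext i j
      by_cases hj : j = l
      · rw [hj]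
        exact hrow i
      · apply hout
        rintro ⟨-, hj' | hj'⟩
        · exact hj hj'
        · exact hj hj'
    · rintro rfl
      exact ⟨hX, rfl⟩
  unfold cexp
  rw [h1, Finset.sum_singleton, Finset.sum_singleton, mul_div_cancel_left₀ _ (tw_pos τ X).ne',
    sub_self]
  ring

private theorem Metro_Pop_sum (τ : I → J → ℕ) (r : I → ℕ) (c : J → ℕ) (o : I)
    (F G : (I → J → ℕ) → ℝ) :
    ∑ X ∈ tab r c, tw τ X * (G X * Pop τ o F X) =
      (∑ k, ∑ l, ∑ l', ∑ X ∈ tab r c, tw τ X * (G X * Pmin τ o k l l' F X)) /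
        ((Fintype.card I : ℝ) * (Fintype.card J : ℝ) ^ 2) := by
  have h1 : ∀ X ∈ tab r c, tw τ X * (G X * Pop τ o F X) =
      (∑ k, ∑ l, ∑ l', tw τ X * (G X * Pmin τ o k l l' F X)) /
        ((Fintype.card I : ℝ) * (Fintype.card J : ℝ) ^ 2) := by
    intro X _
    unfold Pop
    simp_rw [← Finset.mul_sum]
    ring
  rw [Finset.sum_congr rfl h1, ← Finset.sum_div]
  congr 1
  rw [Finset.sum_comm]
  apply Finset.sum_congr rfl
  intro k _
  rw [Finset.sum_comm]
  apply Finset.sum_congr rfl
  intro l _
  rw [Finset.sum_comm]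

theorem Pop_sympsd (τ : I → J → ℕ) (r : I → ℕ) (c : J → ℕ) (o : I) :
    SymPSD (tab r c) (tw τ) (Pop τ o) := by
  constructor
  · intro a b F G x hx
    unfold Pop
    have h1 : ∀ k l l', Pmin τ o k l l' (fun y => a * F y + b * G y) x =
        a * Pmin τ o k l l' F x + b * Pmin τ o k l l' G x := fun k l l' =>
      (Pmin_sympsd τ r c o k l l').lin a b F G x hx
    simp_rw [h1, Finset.sum_add_distrib, ← Finset.mul_sum]
    ring
  · intro F G
    rw [Metro_Pop_sum, Metro_Pop_sum]
    congr 1
    exact Finset.sum_congr rfl fun k _ => Finset.sum_congr rfl fun l _ =>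
      Finset.sum_congr rfl fun l' _ => (Pmin_sympsd τ r c o k l l').symm F G
  · intro F
    rw [Metro_Pop_sum]
    apply div_nonneg _ (by positivity)
    exact Finset.sum_nonneg fun k _ => Finset.sum_nonneg fun l _ =>
      Finset.sum_nonneg fun l' _ => (Pmin_sympsd τ r c o k l l').psd F

theorem Pop_one [Nonempty I] [Nonempty J] (τ : I → J → ℕ) (o : I) (X : I → J → ℕ) :
    Pop τ o (fun _ => 1) X = 1 := by
  unfold Pop
  simp_rw [Pmin_one, Finset.sum_const, Finset.card_univ, nsmul_eq_mul, mul_one]
  have hI : (0 : ℝ) < Fintype.card I := by exact_mod_cast Fintype.card_pos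
  have hJ : (0 : ℝ) < Fintype.card J := by exact_mod_cast Fintype.card_pos
  field_simp

/-- `∑_{k ≠ o} ∑_{l,l'} evar (piL) ≤ 39366 m n² ∑ tw f (f - Pop f)` -/
theorem evar_le_Pop [Nonempty I] [Nonempty J] (τ : I → J → ℕ) (r : I → ℕ) (c : J → ℕ) (o : I)
    (f : (I → J → ℕ) → ℝ) :
    ∑ k ∈ univ.erase o, ∑ l, ∑ l', evar (tab r c) (tw τ) (piL o k l l') f ≤
      39366 * ((Fintype.card I : ℝ) * (Fintype.card J : ℝ) ^ 2) *
        ∑ X ∈ tab r c, tw τ X * (f X * (f X - Pop τ o f X)) := by
  have hI : (0 : ℝ) < Fintype.card I := by exact_mod_cast Fintype.card_pos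
  have hJ : (0 : ℝ) < Fintype.card J := by exact_mod_cast Fintype.card_pos
  set N : ℝ := (Fintype.card I : ℝ) * (Fintype.card J : ℝ) ^ 2 with hN
  have hNpos : 0 < N := by positivity
  -- the form of one minor
  set D : I → J → J → ℝ := fun k l l' =>
    ∑ X ∈ tab r c, tw τ X * (f X * (f X - Pmin τ o k l l' f X)) with hD
  have hid : ∀ k l l', (k = o ∨ l = l') → D k l l' = 0 := by
    intro k l l' h
    apply Finset.sum_eq_zero
    intro X _
    rw [Metro_id τ h, sub_self, mul_zero, mul_zero]
  have hle : ∀ k l l', k ≠ o → evar (tab r c) (tw τ) (piL o k l l') f ≤ 39366 * D k l l' := by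
    intro k l l' hk
    by_cases hl : l = l'
    · subst hl
      rw [evar_same τ r c hk, hid k l l (Or.inr rfl), mul_zero]
    · exact evar_le_form τ r c hk hl f
  have hsum : N * ∑ X ∈ tab r c, tw τ X * (f X * (f X - Pop τ o f X)) =
      ∑ k, ∑ l, ∑ l', D k l l' := by
    rw [Metro_sub, Metro_Pop_sum, mul_sub, ← hN, mul_div_cancel₀ _ hNpos.ne']
    have h1 : ∀ k l l', D k l l' = ∑ X ∈ tab r c, tw τ X * (f X * f X) -
        ∑ X ∈ tab r c, tw τ X * (f X * Pmin τ o k l l' f X) := fun k l l' => Metro_sub _ _ _ _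
    simp_rw [h1, Finset.sum_sub_distrib, Finset.sum_const, Finset.card_univ, nsmul_eq_mul]
    rw [hN]
    ring
  calc ∑ k ∈ univ.erase o, ∑ l, ∑ l', evar (tab r c) (tw τ) (piL o k l l') f
      ≤ ∑ k ∈ univ.erase o, ∑ l, ∑ l', 39366 * D k l l' :=
        Finset.sum_le_sum fun k hk => Finset.sum_le_sum fun l _ => Finset.sum_le_sum fun l' _ =>
          hle k l l' (Finset.ne_of_mem_erase hk)
    _ = ∑ k, ∑ l, ∑ l', 39366 * D k l l' := by
        rw [← Finset.add_sum_erase _ _ (Finset.mem_univ o)]
        have h0 : ∑ l, ∑ l', 39366 * D o l l' = 0 :=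
          Finset.sum_eq_zero fun l _ => Finset.sum_eq_zero fun l' _ => by
            rw [hid o l l' (Or.inl rfl), mul_zero]
        rw [h0, zero_add]
    _ = 39366 * ∑ k, ∑ l, ∑ l', D k l l' := by simp_rw [← Finset.mul_sum]
    _ = _ := by
        rw [← hsum]
        ring

end Vale.Agent.Lib.P328
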