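import Vale.Agent.Lib.P328.SymPSD

/-!
P328, module Mixing: abstract mixing bound.
-/

namespace Vale.Agent.Lib.P328

open Finset

variable {α : Type}

/-- `P F` on `S` depends only on `F` on `S` -/
theorem Mixing_congr {S : Finset α} {w : α → ℝ} (hw : ∀ x ∈ S, 0 < w x)
    {P : (α → ℝ) → (α → ℝ)} (hP : SymPSD S w P) {F G : α → ℝ} (h : ∀ x ∈ S, F x = G x) :
    ∀ x ∈ S, P F x = P G x := by
  have h0 : ∀ H : α → ℝ, (∀ x ∈ S, H x = 0) → ∀ x ∈ S, P H x = 0 := by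
    intro H hH
    have h1 := hP.symm H (P H)
    have h2 : ∑ x ∈ S, w x * (H x * P (P H) x) = 0 :=
      Finset.sum_eq_zero fun x hx => by rw [hH x hx]; ring
    rw [h2] at h1
    intro x hx
    have h3 := (Finset.sum_eq_zero_iff_of_nonneg fun y hy =>
      mul_nonneg (hw y hy).le (mul_self_nonneg (P H y))).1 h1 x hx
    have h4 := (mul_eq_zero.1 h3).resolve_left (hw x hx).ne'
    exact mul_self_eq_zero.1 h4
  intro x hx
  have h1 := h0 (fun y => 1 * F y + (-1) * G y) (fun y hy => by rw [h y hy]; ring) x hx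
  rw [hP.lin 1 (-1) F G x hx] at h1
  linarith

/-- the mean is preserved -/
theorem Mixing_mean {S : Finset α} {w : α → ℝ} {P : (α → ℝ) → (α → ℝ)} (hP : SymPSD S w P)
    (hone : ∀ x ∈ S, P (fun _ => 1) x = 1) (F : α → ℝ) :
    ∑ x ∈ S, w x * P F x = ∑ x ∈ S, w x * F x := by
  have h1 := hP.symm F (fun _ => 1)
  have h2 : ∑ x ∈ S, w x * (F x * P (fun _ => 1) x) = ∑ x ∈ S, w x * F x :=
    Finset.sum_congr rfl fun x hx => by rw [hone x hx, mul_one]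
  rw [h2] at h1
  rw [← h1]
  exact Finset.sum_congr rfl fun x _ => by rw [one_mul]

/-- the form on mean zero functions -/
theorem Mixing_form {S : Finset α} {w : α → ℝ} {P : (α → ℝ) → (α → ℝ)} {lam : ℝ}
    (hgap : ∀ F : α → ℝ, lam * ∑ x ∈ S, w x * (F x - (∑ y ∈ S, w y * F y) / ∑ y ∈ S, w y) ^ 2 ≤
      ∑ x ∈ S, w x * (F x * (F x - P F x)))
    {g : α → ℝ} (hg : ∑ x ∈ S, w x * g x = 0) :
    ∑ x ∈ S, w x * (g x * P g x) ≤ (1 - lam) * ∑ x ∈ S, w x * g x ^ 2 := by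
  have h1 := hgap g
  rw [hg, zero_div] at h1
  simp only [sub_zero] at h1
  have h2 : ∑ x ∈ S, w x * (g x * (g x - P g x)) =
      ∑ x ∈ S, w x * g x ^ 2 - ∑ x ∈ S, w x * (g x * P g x) := by
    rw [← Finset.sum_sub_distrib]
    exact Finset.sum_congr rfl fun x _ => by ring
  rw [h2] at h1
  linarith

/-- contraction on mean zero functions -/
theorem Mixing_step {S : Finset α} {w : α → ℝ} (hw : ∀ x ∈ S, 0 < w x)
    {P : (α → ℝ) → (α → ℝ)} (hP : SymPSD S w P) (hone : ∀ x ∈ S, P (fun _ => 1) x = 1)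
    {lam : ℝ} (hlam : 0 ≤ lam)
    (hgap : ∀ F : α → ℝ, lam * ∑ x ∈ S, w x * (F x - (∑ y ∈ S, w y * F y) / ∑ y ∈ S, w y) ^ 2 ≤
      ∑ x ∈ S, w x * (F x * (F x - P F x)))
    {g : α → ℝ} (hg : ∑ x ∈ S, w x * g x = 0) :
    ∑ x ∈ S, w x * P g x ^ 2 ≤ (1 - lam) * ∑ x ∈ S, w x * g x ^ 2 := by
  have hPg : ∑ x ∈ S, w x * P g x = 0 := by rw [Mixing_mean hP hone, hg]
  have h1 := Mixing_form hgap hg
  have h2 := Mixing_form hgap hPg
  have h3 : 0 ≤ ∑ x ∈ S, w x * P g x ^ 2 :=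
    Finset.sum_nonneg fun x hx => mul_nonneg (hw x hx).le (sq_nonneg _)
  have h4 := hP.psd (fun y => 1 * g y + (-1) * P g y)
  have h5 : ∑ x ∈ S, w x * ((1 * g x + (-1) * P g x) *
      P (fun y => 1 * g y + (-1) * P g y) x) =
      ∑ x ∈ S, w x * (g x * P g x) - ∑ x ∈ S, w x * (g x * P (P g) x)
        - ∑ x ∈ S, w x * P g x ^ 2 + ∑ x ∈ S, w x * (P g x * P (P g) x) := by
    rw [← Finset.sum_sub_distrib, ← Finset.sum_sub_distrib, ← Finset.sum_add_distrib]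
    refine Finset.sum_congr rfl fun x hx => ?_
    rw [hP.lin 1 (-1) g (P g) x hx]
    ring
  rw [h5, hP.symm (P g) g] at h4
  have h6 : ∑ x ∈ S, w x * (P g x * P g x) = ∑ x ∈ S, w x * P g x ^ 2 :=
    Finset.sum_congr rfl fun x _ => by ring
  rw [h6] at h4
  nlinarith

/-- Mixing bound.
Proof: `f₀ = f - μ(f)`.  For mean zero `g`: `|P g|² ≤ ⟨g, P g⟩` (Cauchy-Schwarz for the positive
semidefinite form: `|Pg|² = ⟨g, P (P g)⟩ ≤ ⟨g,Pg⟩^{1/2} ⟨Pg, P P g⟩^{1/2}` and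
`⟨Pg, PPg⟩ ≤ |Pg|²`, which follows from `hgap` with `λ ≥ 0`, i.e. `⟨F, P F⟩ ≤ |F|²`), hence
`|P g|² ≤ (1-λ)|g|²`; `P g` again has mean zero (`symm` with the constant function and `hone`).
So `|P^t f₀|² ≤ (1-λ)^t |f₀|² ≤ (1-λ)^t ∑ w` and `w x * (P^t f₀ x)² ≤ |P^t f₀|²`.
`P^t f = P^t f₀ + μ(f)` on `S` by `lin`, `hone` and `symm` (which shows that `P F` on `S` depends
only on `F` on `S`: if `F = 0` on `S` then `∑ w G P F = 0` for all `G`). -/
theorem mixing {S : Finset α} {w : α → ℝ} (hw : ∀ x ∈ S, 0 < w x)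
    {P : (α → ℝ) → (α → ℝ)} (hP : SymPSD S w P) (hone : ∀ x ∈ S, P (fun _ => 1) x = 1)
    {lam : ℝ} (hlam : 0 ≤ lam) (hlam1 : lam ≤ 1)
    (hgap : ∀ F : α → ℝ, lam * ∑ x ∈ S, w x * (F x - (∑ y ∈ S, w y * F y) / ∑ y ∈ S, w y) ^ 2 ≤
      ∑ x ∈ S, w x * (F x * (F x - P F x)))
    (f : α → ℝ) (hf : ∀ x ∈ S, 0 ≤ f x ∧ f x ≤ 1) (t : ℕ) :
    ∀ x ∈ S, |P^[t] f x - (∑ y ∈ S, w y * f y) / ∑ y ∈ S, w y| ≤
      Real.sqrt ((1 - lam) ^ t * (∑ y ∈ S, w y) / w x) := by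
  intro x hx
  have hW : 0 < ∑ y ∈ S, w y := Finset.sum_pos hw ⟨x, hx⟩
  set μ : ℝ := (∑ y ∈ S, w y * f y) / ∑ y ∈ S, w y with hμ
  have hμ0 : 0 ≤ μ := div_nonneg
    (Finset.sum_nonneg fun y hy => mul_nonneg (hw y hy).le (hf y hy).1) hW.le
  have hμ1 : μ ≤ 1 := by
    rw [hμ, div_le_one hW]
    exact Finset.sum_le_sum fun y hy => by
      have h1 := mul_le_mul_of_nonneg_left (hf y hy).2 (hw y hy).le
      rwa [mul_one] at h1
  set f₀ : α → ℝ := fun y => f y - μ with hf₀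
  have hmean : ∑ y ∈ S, w y * f₀ y = 0 := by
    have h1 : ∑ y ∈ S, w y * f₀ y = ∑ y ∈ S, w y * f y - (∑ y ∈ S, w y) * μ := by
      rw [Finset.sum_mul, ← Finset.sum_sub_distrib]
      exact Finset.sum_congr rfl fun y _ => by rw [hf₀]; ring
    rw [h1, hμ, mul_div_cancel₀ _ hW.ne', sub_self]
  have hit : ∀ s : ℕ, ∑ y ∈ S, w y * P^[s] f₀ y = 0 ∧
      ∑ y ∈ S, w y * (P^[s] f₀ y) ^ 2 ≤ (1 - lam) ^ s * ∑ y ∈ S, w y * f₀ y ^ 2 := by
    intro s
    induction s with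
    | zero =>
      refine ⟨hmean, ?_⟩
      rw [pow_zero, one_mul]
      exact le_rfl
    | succ s ih =>
      rw [Function.iterate_succ_apply']
      refine ⟨by rw [Mixing_mean hP hone, ih.1], ?_⟩
      have h1 := Mixing_step hw hP hone hlam hgap ih.1
      refine h1.trans ?_
      rw [pow_succ', mul_assoc]
      exact mul_le_mul_of_nonneg_left ih.2 (by linarith)
  have hshift : ∀ s : ℕ, ∀ y ∈ S, P^[s] f y = P^[s] f₀ y + μ := by
    intro s
    induction s with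
    | zero =>
      intro y _
      change f y = (f y - μ) + μ
      ring
    | succ s ih =>
      intro y hy
      rw [Function.iterate_succ_apply', Function.iterate_succ_apply']
      have h1 := Mixing_congr hw hP (F := P^[s] f)
        (G := fun y => 1 * P^[s] f₀ y + μ * (fun _ => (1 : ℝ)) y)
        (fun y hy => by rw [ih y hy]; ring) y hy
      rw [h1, hP.lin 1 μ (P^[s] f₀) (fun _ => (1 : ℝ)) y hy, hone y hy]
      ring
  have hf₀sq : ∑ y ∈ S, w y * f₀ y ^ 2 ≤ ∑ y ∈ S, w y :=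
    Finset.sum_le_sum fun y hy => by
      have h1 : f₀ y ^ 2 ≤ 1 := by
        rw [sq_le_one_iff_abs_le_one, abs_le]
        have := hf y hy
        constructor
        · rw [hf₀]; simp only; linarith
        · rw [hf₀]; simp only; linarith
      have h2 := mul_le_mul_of_nonneg_left h1 (hw y hy).le
      rwa [mul_one] at h2
  rw [hshift t x hx, add_sub_cancel_right]
  apply Real.abs_le_sqrt
  rw [le_div_iff₀ (hw x hx)]
  have h1 : w x * (P^[t] f₀ x) ^ 2 ≤ ∑ y ∈ S, w y * (P^[t] f₀ y) ^ 2 :=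
    Finset.single_le_sum (f := fun y => w y * (P^[t] f₀ y) ^ 2)
      (fun y hy => mul_nonneg (hw y hy).le (sq_nonneg _)) hx
  have h2 : (1 - lam) ^ t * ∑ y ∈ S, w y * f₀ y ^ 2 ≤ (1 - lam) ^ t * ∑ y ∈ S, w y :=
    mul_le_mul_of_nonneg_left hf₀sq (pow_nonneg (by linarith) _)
  have h3 := (hit t).2
  linarith

end Vale.Agent.Lib.P328
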