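import Vale.Agent.Lib.P328.Defs

/-!
P328, injection bounds on the cells of a uniform table, and the cell subtraction bijection.

* `card_cell_scale`, `card_cell_min`, `inject_one`  (I1)
* `card_cell_succ`, `inject_two`  (I2)
* `half_le_card_ge`, `card_ge_le_card_ge_succ`, `card_le_card_ge_one`, `card_le_card_ge_two`,
  `thr_small`, `thr_large`: lower bounds on `P(X k l ≥ t)`
* `card_sub_cell`, `card_shift`: subtraction of `t` from a cell
* `tab_nonempty`, `card_tab_one`
-/

namespace Vale.Agent.Lib.P328

open Finset

variable {I J : Type} [Fintype I] [DecidableEq I] [Fintype J] [DecidableEq J]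

theorem mem_tab {r : I → ℕ} {c : J → ℕ} {X : I → J → ℕ} :
    X ∈ tab r c ↔ (∀ i, ∑ l, X i l = r i) ∧ ∀ l, ∑ i, X i l = c l := by
  unfold tab
  simp only [mem_filter, Fintype.mem_piFinset, mem_range]
  constructor
  · intro h; exact h.2
  · intro h
    refine ⟨fun i l => ?_, h⟩
    have h1 : X i l ≤ ∑ i, X i l := single_le_sum (f := fun i => X i l) (fun _ _ => Nat.zero_le _) (mem_univ i)
    have h2 := h.2 l
    omega

/-- rectangle move by `s` -/
def rect (X : I → J → ℕ) (k i' : I) (l l' : J) (s : ℕ) : I → J → ℕ := fun i j =>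
  if (i = k ∧ j = l) ∨ (i = i' ∧ j = l') then X i j + s
  else if (i = k ∧ j = l') ∨ (i = i' ∧ j = l) then X i j - s else X i j

omit [Fintype I] [Fintype J] in
theorem rect_cast (X : I → J → ℕ) {k i' : I} {l l' : J} (hk : i' ≠ k) (hl : l' ≠ l) {s : ℕ}
    (h1 : s ≤ X k l') (h2 : s ≤ X i' l) (i : I) (j : J) :
    (rect X k i' l l' s i j : ℤ) = X i j +
      (s : ℤ) * (((if i = k then 1 else 0) - (if i = i' then 1 else 0)) *
        ((if j = l then 1 else 0) - (if j = l' then 1 else 0))) := by
  unfold rect
  have hk' : k ≠ i' := fun h => hk h.symm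
  have hl' : l ≠ l' := fun h => hl h.symm
  by_cases e1 : i = k
  · subst e1
    by_cases e2 : j = l
    · subst e2; simp [hk', hl']
    · by_cases e3 : j = l'
      · subst e3
        simp [hk', hl]
        omega
      · simp [e2, e3, hk']
  · by_cases e4 : i = i'
    · subst e4
      by_cases e2 : j = l
      · subst e2
        simp [e1, hl']
        omega
      · by_cases e3 : j = l'
        · subst e3; simp [e1, hl]
        · simp [e1, e2, e3]
    · simp [e1, e4]

theorem rect_mem {r : I → ℕ} {c : J → ℕ} {X : I → J → ℕ} (hX : X ∈ tab r c) {k i' : I} {l l' : J}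
    (hk : i' ≠ k) (hl : l' ≠ l) {s : ℕ} (h1 : s ≤ X k l') (h2 : s ≤ X i' l) :
    rect X k i' l l' s ∈ tab r c := by
  rw [mem_tab] at hX ⊢
  constructor
  · intro i
    have h := hX.1 i
    have : ((∑ j, rect X k i' l l' s i j : ℕ) : ℤ) = (r i : ℤ) := by
      push_cast
      rw [sum_congr rfl (fun j _ => rect_cast X hk hl h1 h2 i j), sum_add_distrib, ← mul_sum,
        ← mul_sum, sum_sub_distrib]
      simp only [sum_ite_eq', mem_univ, if_true]
      rw [← h]; push_cast; ring
    exact_mod_cast this
  · intro j
    have h := hX.2 j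
    have : ((∑ i, rect X k i' l l' s i j : ℕ) : ℤ) = (c j : ℤ) := by
      push_cast
      rw [sum_congr rfl (fun i _ => rect_cast X hk hl h1 h2 i j), sum_add_distrib, ← mul_sum,
        ← sum_mul, sum_sub_distrib]
      simp only [sum_ite_eq', mem_univ, if_true]
      rw [← h]; push_cast; ring
    exact_mod_cast this

omit [Fintype I] [Fintype J] in
theorem rect_kl (X : I → J → ℕ) (k i' : I) (l l' : J) (s : ℕ) :
    rect X k i' l l' s k l = X k l + s := by
  unfold rect; simp

omit [Fintype I] [Fintype J] in
/-- the move is injective for fixed indices and fixed amount -/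
theorem rect_inj {X Y : I → J → ℕ} {k i' : I} {l l' : J} (hk : i' ≠ k) (hl : l' ≠ l) {s : ℕ}
    (h1 : s ≤ X k l') (h2 : s ≤ X i' l) (h3 : s ≤ Y k l') (h4 : s ≤ Y i' l)
    (h : rect X k i' l l' s = rect Y k i' l l' s) : X = Y := by
  funext i j
  have e1 := rect_cast X hk hl h1 h2 i j
  have e2 := rect_cast Y hk hl h3 h4 i j
  rw [h, e2] at e1
  have : (X i j : ℤ) = Y i j := by linarith
  exact_mod_cast this

/-- some other cell of the row is large -/
theorem exists_row {r : I → ℕ} {c : J → ℕ} {X : I → J → ℕ} (hX : X ∈ tab r c) (k : I) (l : J)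
    {S : ℕ} (hS : 1 ≤ S) (h : X k l + Fintype.card J * S ≤ r k) : ∃ l', l' ≠ l ∧ S ≤ X k l' := by
  by_contra hcon
  push Not at hcon
  have h1 := (mem_tab.1 hX).1 k
  rw [← add_sum_erase univ _ (mem_univ l)] at h1
  have h2 : ∑ x ∈ univ.erase l, X k x ≤ ∑ _x ∈ univ.erase l, (S - 1) := by
    apply sum_le_sum
    intro x hx
    have := hcon x (ne_of_mem_erase hx)
    omega
  rw [sum_const, card_erase_of_mem (mem_univ l), card_univ, smul_eq_mul] at h2
  have hn : 1 ≤ Fintype.card J := Fintype.card_pos_iff.2 ⟨l⟩
  obtain ⟨n', hn'⟩ : ∃ n', Fintype.card J = n' + 1 := ⟨Fintype.card J - 1, by omega⟩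
  obtain ⟨S', hS'⟩ : ∃ S', S = S' + 1 := ⟨S - 1, by omega⟩
  rw [hn', hS'] at h h2
  simp only [Nat.add_sub_cancel] at h2
  nlinarith

theorem exists_col {r : I → ℕ} {c : J → ℕ} {X : I → J → ℕ} (hX : X ∈ tab r c) (k : I) (l : J)
    {S : ℕ} (hS : 1 ≤ S) (h : X k l + Fintype.card I * S ≤ c l) : ∃ i', i' ≠ k ∧ S ≤ X i' l := by
  by_contra hcon
  push Not at hcon
  have h1 := (mem_tab.1 hX).2 l
  rw [← add_sum_erase univ _ (mem_univ k)] at h1
  have h2 : ∑ x ∈ univ.erase k, X x l ≤ ∑ _x ∈ univ.erase k, (S - 1) := by
    apply sum_le_sum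
    intro x hx
    have := hcon x (ne_of_mem_erase hx)
    omega
  rw [sum_const, card_erase_of_mem (mem_univ k), card_univ, smul_eq_mul] at h2
  have hn : 1 ≤ Fintype.card I := Fintype.card_pos_iff.2 ⟨k⟩
  obtain ⟨n', hn'⟩ : ∃ n', Fintype.card I = n' + 1 := ⟨Fintype.card I - 1, by omega⟩
  obtain ⟨S', hS'⟩ : ∃ S', S = S' + 1 := ⟨S - 1, by omega⟩
  rw [hn', hS'] at h h2
  simp only [Nat.add_sub_cancel] at h2
  nlinarith

/-- (I1) with an explicit scale `S` -/
theorem card_cell_scale (r : I → ℕ) (c : J → ℕ) (k : I) (l : J) (x S : ℕ)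
    (h1 : x + Fintype.card J * S ≤ r k) (h2 : x + Fintype.card I * S ≤ c l) :
    ((tab r c).filter fun X => X k l = x).card * (S + 1) ≤
      Fintype.card I * Fintype.card J * (tab r c).card := by
  rcases Nat.eq_zero_or_pos S with hS | hS
  · subst hS
    have hm : 1 ≤ Fintype.card I := Fintype.card_pos_iff.2 ⟨k⟩
    have hn : 1 ≤ Fintype.card J := Fintype.card_pos_iff.2 ⟨l⟩
    have := card_filter_le (tab r c) (fun X => X k l = x)
    calc _ = ((tab r c).filter fun X => X k l = x).card := by ring
      _ ≤ 1 * 1 * (tab r c).card := by simpa using this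
      _ ≤ _ := by gcongr
  · have hrow : ∀ X ∈ (tab r c).filter fun X => X k l = x, ∃ l', l' ≠ l ∧ S ≤ X k l' := by
      intro X hX
      rw [mem_filter] at hX
      exact exists_row hX.1 k l hS (by rw [hX.2]; exact h1)
    have hcol : ∀ X ∈ (tab r c).filter fun X => X k l = x, ∃ i', i' ≠ k ∧ S ≤ X i' l := by
      intro X hX
      rw [mem_filter] at hX
      exact exists_col hX.1 k l hS (by rw [hX.2]; exact h2)
    classical
    let fl : (I → J → ℕ) → J := fun X =>
      if h : X ∈ (tab r c).filter fun X => X k l = x then (hrow X h).choose else l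
    let fi : (I → J → ℕ) → I := fun X =>
      if h : X ∈ (tab r c).filter fun X => X k l = x then (hcol X h).choose else k
    have hfl : ∀ X ∈ (tab r c).filter fun X => X k l = x, fl X ≠ l ∧ S ≤ X k (fl X) := by
      intro X h
      have := (hrow X h).choose_spec
      simp only [fl, dif_pos h]
      exact this
    have hfi : ∀ X ∈ (tab r c).filter fun X => X k l = x, fi X ≠ k ∧ S ≤ X (fi X) l := by
      intro X h
      have := (hcol X h).choose_spec
      simp only [fi, dif_pos h]
      exact this
    have hcard := card_le_card_of_injOn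
      (s := ((tab r c).filter fun X => X k l = x) ×ˢ range (S + 1))
      (t := (univ : Finset (I × J)) ×ˢ tab r c)
      (fun p => ((fi p.1, fl p.1), rect p.1 k (fi p.1) l (fl p.1) p.2)) ?_ ?_
    · rw [card_product, card_product, card_range, card_univ, Fintype.card_prod] at hcard
      exact hcard
    · intro p hp
      rw [mem_coe, mem_product, mem_range] at hp
      have a1 := hfl p.1 hp.1
      have a2 := hfi p.1 hp.1
      rw [mem_coe, mem_product]
      refine ⟨mem_univ _, ?_⟩
      exact rect_mem (mem_filter.1 hp.1).1 a2.1 a1.1 (by omega) (by omega)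
    · intro p hp q hq hpq
      rw [mem_coe, mem_product, mem_range] at hp hq
      have a1 := hfl p.1 hp.1
      have a2 := hfi p.1 hp.1
      have b1 := hfl q.1 hq.1
      have b2 := hfi q.1 hq.1
      simp only [Prod.mk.injEq] at hpq
      obtain ⟨⟨e1, e2⟩, e3⟩ := hpq
      have e4 := congrFun (congrFun e3 k) l
      rw [rect_kl, rect_kl, (mem_filter.1 hp.1).2, (mem_filter.1 hq.1).2] at e4
      have e5 : p.2 = q.2 := by omega
      rw [← e1, ← e2, ← e5] at e3
      rw [← e2] at b1
      rw [← e1] at b2
      have e6 := rect_inj a2.1 a1.1 (by omega) (by omega) (by omega) (by omega) e3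
      exact Prod.ext e6 e5

/-- (I1) -/
theorem card_cell_min (r : I → ℕ) (c : J → ℕ) (k : I) (l : J) (x : ℕ)
    (hx : 2 * x ≤ min (r k) (c l)) :
    ((tab r c).filter fun X => X k l = x).card *
        (min (r k) (c l) / (2 * (Fintype.card I + Fintype.card J)) + 1) ≤
      Fintype.card I * Fintype.card J * (tab r c).card := by
  have hm : 1 ≤ Fintype.card I := Fintype.card_pos_iff.2 ⟨k⟩
  set S := min (r k) (c l) / (2 * (Fintype.card I + Fintype.card J)) with hS
  have h0 : 2 * (Fintype.card I + Fintype.card J) * S ≤ min (r k) (c l) := Nat.mul_div_le _ _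
  have h3 : Fintype.card J * S ≤ (Fintype.card I + Fintype.card J) * S := by gcongr; omega
  have h4 : Fintype.card I * S ≤ (Fintype.card I + Fintype.card J) * S := by gcongr; omega
  have h5 : min (r k) (c l) ≤ r k := min_le_left _ _
  have h6 : min (r k) (c l) ≤ c l := min_le_right _ _
  apply card_cell_scale
  · nlinarith
  · nlinarith

/-- (I2) -/
theorem card_cell_succ (r : I → ℕ) (c : J → ℕ) (k : I) (l : J) (x : ℕ)
    (h1 : x < r k) (h2 : x < c l) :
    ((tab r c).filter fun X => X k l = x).card ≤
      Fintype.card I * Fintype.card J * ((tab r c).filter fun X => X k l = x + 1).card := by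
  have hrow : ∀ X ∈ (tab r c).filter fun X => X k l = x, ∃ l', l' ≠ l ∧ 1 ≤ X k l' := by
    intro X hX
    rw [mem_filter] at hX
    by_contra hcon
    push Not at hcon
    have e1 := (mem_tab.1 hX.1).1 k
    rw [← add_sum_erase univ _ (mem_univ l)] at e1
    have e2 : ∑ x ∈ univ.erase l, X k x = 0 := by
      apply sum_eq_zero
      intro y hy
      have := hcon y (ne_of_mem_erase hy)
      omega
    omega
  have hcol : ∀ X ∈ (tab r c).filter fun X => X k l = x, ∃ i', i' ≠ k ∧ 1 ≤ X i' l := by
    intro X hX
    rw [mem_filter] at hX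
    by_contra hcon
    push Not at hcon
    have e1 := (mem_tab.1 hX.1).2 l
    rw [← add_sum_erase univ _ (mem_univ k)] at e1
    have e2 : ∑ x ∈ univ.erase k, X x l = 0 := by
      apply sum_eq_zero
      intro y hy
      have := hcon y (ne_of_mem_erase hy)
      omega
    omega
  classical
  let fl : (I → J → ℕ) → J := fun X =>
    if h : X ∈ (tab r c).filter fun X => X k l = x then (hrow X h).choose else l
  let fi : (I → J → ℕ) → I := fun X =>
    if h : X ∈ (tab r c).filter fun X => X k l = x then (hcol X h).choose else k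
  have hfl : ∀ X ∈ (tab r c).filter fun X => X k l = x, fl X ≠ l ∧ 1 ≤ X k (fl X) := by
    intro X h
    have := (hrow X h).choose_spec
    simp only [fl, dif_pos h]
    exact this
  have hfi : ∀ X ∈ (tab r c).filter fun X => X k l = x, fi X ≠ k ∧ 1 ≤ X (fi X) l := by
    intro X h
    have := (hcol X h).choose_spec
    simp only [fi, dif_pos h]
    exact this
  have hcard := card_le_card_of_injOn
    (s := (tab r c).filter fun X => X k l = x)
    (t := (univ : Finset (I × J)) ×ˢ ((tab r c).filter fun X => X k l = x + 1))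
    (fun p => ((fi p, fl p), rect p k (fi p) l (fl p) 1)) ?_ ?_
  · rw [card_product, card_univ, Fintype.card_prod] at hcard
    exact hcard
  · intro p hp
    rw [mem_coe] at hp
    have a1 := hfl p hp
    have a2 := hfi p hp
    rw [mem_coe, mem_product, mem_filter]
    refine ⟨mem_univ _, rect_mem (mem_filter.1 hp).1 a2.1 a1.1 a1.2 a2.2, ?_⟩
    simp only [rect_kl, (mem_filter.1 hp).2]
  · intro p hp q hq hpq
    rw [mem_coe] at hp hq
    have a1 := hfl p hp
    have a2 := hfi p hp
    have b1 := hfl q hq
    have b2 := hfi q hq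
    simp only [Prod.mk.injEq] at hpq
    obtain ⟨⟨e1, e2⟩, e3⟩ := hpq
    rw [← e1, ← e2] at e3
    rw [← e2] at b1
    rw [← e1] at b2
    exact rect_inj a2.1 a1.1 a1.2 a2.2 b1.2 b2.2 e3

/-! ### lower bounds for the upper tail of a cell -/

/-- at most a quarter of the tables have a small entry -/
theorem four_card_lt_le (r : I → ℕ) (c : J → ℕ) (k : I) (l : J) (t : ℕ)
    (ht : 8 * (Fintype.card I * Fintype.card J) * (Fintype.card I + Fintype.card J) * t ≤
      min (r k) (c l)) :
    4 * ((tab r c).filter fun X => X k l < t).card ≤ (tab r c).card := by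
  rcases Nat.eq_zero_or_pos t with h0 | h0
  · subst h0
    simp
  have hm : 1 ≤ Fintype.card I := Fintype.card_pos_iff.2 ⟨k⟩
  have hn : 1 ≤ Fintype.card J := Fintype.card_pos_iff.2 ⟨l⟩
  set m := Fintype.card I with hmdef
  set n := Fintype.card J with hndef
  set M := min (r k) (c l) with hM
  set S := M / (2 * (m + n)) with hS
  have hS1 : 4 * (m * n) * t ≤ S := by
    rw [hS, Nat.le_div_iff_mul_le (by omega)]
    calc 4 * (m * n) * t * (2 * (m + n)) = 8 * (m * n) * (m + n) * t := by ring
      _ ≤ M := ht
  have hcell : ∀ x ∈ range t, ((tab r c).filter fun X => X k l = x).card * (S + 1) ≤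
      m * n * (tab r c).card := by
    intro x hx
    rw [mem_range] at hx
    apply card_cell_min
    have h1 : 1 * t ≤ 4 * (m * n) * (m + n) * t := by
      gcongr
      have : 1 ≤ m * n := Nat.mul_pos hm hn
      nlinarith
    have h2 : 2 * (4 * (m * n) * (m + n) * t) = 8 * (m * n) * (m + n) * t := by ring
    omega
  have hsum : ((tab r c).filter fun X => X k l < t).card =
      ∑ x ∈ range t, ((tab r c).filter fun X => X k l = x).card := by
    rw [card_eq_sum_card_fiberwise (f := fun X => X k l) (t := range t)]
    · apply sum_congr rfl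
      intro x hx
      rw [mem_range] at hx
      congr 1
      rw [filter_filter]
      apply filter_congr
      intro X _
      constructor
      · exact fun h => h.2
      · exact fun h => ⟨by omega, h⟩
    · intro X hX
      simpa using (mem_filter.1 hX).2
  have h1 : ((tab r c).filter fun X => X k l < t).card * (S + 1) ≤
      t * (m * n * (tab r c).card) := by
    rw [hsum, sum_mul]
    calc _ ≤ ∑ _x ∈ range t, m * n * (tab r c).card := sum_le_sum hcell
      _ = _ := by rw [sum_const, card_range, smul_eq_mul]
  have h2 : ((tab r c).filter fun X => X k l < t).card * (4 * (m * n) * t) ≤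
      t * (m * n * (tab r c).card) := by
    refine le_trans ?_ h1
    gcongr
    omega
  have h3 : (m * n * t) * (4 * ((tab r c).filter fun X => X k l < t).card) ≤
      (m * n * t) * (tab r c).card := by
    calc _ = ((tab r c).filter fun X => X k l < t).card * (4 * (m * n) * t) := by ring
      _ ≤ _ := h2
      _ = _ := by ring
  exact Nat.le_of_mul_le_mul_left h3 (Nat.mul_pos (Nat.mul_pos hm hn) h0)

theorem card_split_ge (r : I → ℕ) (c : J → ℕ) (k : I) (l : J) (t : ℕ) :
    ((tab r c).filter fun X => X k l < t).card + ((tab r c).filter fun X => t ≤ X k l).card =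
      (tab r c).card := by
  have h := card_filter_add_card_filter_not (s := tab r c) (fun X => X k l < t)
  simp only [not_lt] at h
  exact h

/-- large entries: `P(X k l ≥ t) ≥ 1/2` -/
theorem half_le_card_ge (r : I → ℕ) (c : J → ℕ) (k : I) (l : J) (t : ℕ)
    (ht : 8 * (Fintype.card I * Fintype.card J) * (Fintype.card I + Fintype.card J) * t ≤
      min (r k) (c l)) :
    (tab r c).card ≤ 2 * ((tab r c).filter fun X => t ≤ X k l).card := by
  have h1 := four_card_lt_le r c k l t ht
  have h2 := card_split_ge r c k l t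
  omega

/-- `P(X k l ≥ x) ≤ (1 + mn) P(X k l ≥ x + 1)` -/
theorem card_ge_le_card_ge_succ (r : I → ℕ) (c : J → ℕ) (k : I) (l : J) (x : ℕ)
    (h1 : x < r k) (h2 : x < c l) :
    ((tab r c).filter fun X => x ≤ X k l).card ≤
      (1 + Fintype.card I * Fintype.card J) *
        ((tab r c).filter fun X => x + 1 ≤ X k l).card := by
  have ha : ((tab r c).filter fun X => x ≤ X k l).card ≤
      ((tab r c).filter fun X => X k l = x).card +
        ((tab r c).filter fun X => x + 1 ≤ X k l).card := by
    refine le_trans (card_le_card ?_) (card_union_le _ _)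
    intro X hX
    rw [mem_filter] at hX
    rw [mem_union, mem_filter, mem_filter]
    by_cases h : X k l = x
    · exact Or.inl ⟨hX.1, h⟩
    · exact Or.inr ⟨hX.1, by omega⟩
  have hb := card_cell_succ r c k l x h1 h2
  have hc : ((tab r c).filter fun X => X k l = x + 1).card ≤
      ((tab r c).filter fun X => x + 1 ≤ X k l).card := by
    apply card_le_card
    intro X hX
    rw [mem_filter] at hX ⊢
    exact ⟨hX.1, by omega⟩
  calc _ ≤ _ := ha
    _ ≤ Fintype.card I * Fintype.card J * ((tab r c).filter fun X => x + 1 ≤ X k l).card +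
        ((tab r c).filter fun X => x + 1 ≤ X k l).card := by
      gcongr
      exact le_trans hb (Nat.mul_le_mul_left _ hc)
    _ = _ := by ring

/-- `P(X k l ≥ 1) ≥ 1 / (1 + mn)` -/
theorem card_le_card_ge_one (r : I → ℕ) (c : J → ℕ) (k : I) (l : J)
    (h1 : 1 ≤ r k) (h2 : 1 ≤ c l) :
    (tab r c).card ≤ (1 + Fintype.card I * Fintype.card J) *
      ((tab r c).filter fun X => 1 ≤ X k l).card := by
  have h := card_ge_le_card_ge_succ r c k l 0 (by omega) (by omega)
  simpa using h

/-- `P(X k l ≥ 2) ≥ 1 / (1 + mn)^2` -/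
theorem card_le_card_ge_two (r : I → ℕ) (c : J → ℕ) (k : I) (l : J)
    (h1 : 2 ≤ r k) (h2 : 2 ≤ c l) :
    (tab r c).card ≤ (1 + Fintype.card I * Fintype.card J) ^ 2 *
      ((tab r c).filter fun X => 2 ≤ X k l).card := by
  have h := card_le_card_ge_one r c k l (by omega) (by omega)
  have h' := card_ge_le_card_ge_succ r c k l 1 (by omega) (by omega)
  calc _ ≤ _ := h
    _ ≤ (1 + Fintype.card I * Fintype.card J) * ((1 + Fintype.card I * Fintype.card J) *
      ((tab r c).filter fun X => 2 ≤ X k l).card) := Nat.mul_le_mul_left _ h'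
    _ = _ := by ring

/-! ### subtraction of `t` from a cell -/

/-- add `t` to the cell `(k, l)` -/
def addCell (X : I → J → ℕ) (k : I) (l : J) (t : ℕ) : I → J → ℕ := fun i j =>
  if i = k ∧ j = l then X i j + t else X i j

omit [Fintype I] in
theorem addCell_row (X : I → J → ℕ) (k : I) (l : J) (t : ℕ) (i : I) :
    ∑ j, addCell X k l t i j = (∑ j, X i j) + if i = k then t else 0 := by
  unfold addCell
  by_cases h : i = k
  · subst h
    have : ∀ j, (if i = i ∧ j = l then X i j + t else X i j) = X i j + if j = l then t else 0 := by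
      intro j; by_cases hj : j = l <;> simp [hj]
    rw [sum_congr rfl fun j _ => this j, sum_add_distrib]
    simp
  · simp [h]

omit [Fintype J] in
theorem addCell_col (X : I → J → ℕ) (k : I) (l : J) (t : ℕ) (j : J) :
    ∑ i, addCell X k l t i j = (∑ i, X i j) + if j = l then t else 0 := by
  unfold addCell
  by_cases h : j = l
  · subst h
    have : ∀ i, (if i = k ∧ j = j then X i j + t else X i j) = X i j + if i = k then t else 0 := by
      intro i; by_cases hi : i = k <;> simp [hi]
    rw [sum_congr rfl fun i _ => this i, sum_add_distrib]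
    simp
  · simp [h]

omit [Fintype I] [Fintype J] in
theorem addCell_inj {X Y : I → J → ℕ} {k : I} {l : J} {t : ℕ}
    (h : addCell X k l t = addCell Y k l t) : X = Y := by
  funext i j
  have := congrFun (congrFun h i) j
  unfold addCell at this
  split_ifs at this <;> omega

/-- subtract `t` from the cell `(k, l)` -/
def subCell (X : I → J → ℕ) (k : I) (l : J) (t : ℕ) : I → J → ℕ := fun i j =>
  if i = k ∧ j = l then X i j - t else X i j

omit [Fintype I] [Fintype J] in
theorem addCell_subCell {X : I → J → ℕ} {k : I} {l : J} {t : ℕ} (h : t ≤ X k l) :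
    addCell (subCell X k l t) k l t = X := by
  funext i j
  unfold addCell subCell
  by_cases h1 : i = k ∧ j = l
  · obtain ⟨rfl, rfl⟩ := h1
    simp only [and_self, if_true]
    omega
  · simp only [h1, if_false]

/-- the subtraction bijection -/
theorem card_sub_cell (r : I → ℕ) (c : J → ℕ) (k : I) (l : J) (t : ℕ)
    (h1 : t ≤ r k) (h2 : t ≤ c l) :
    (tab (Function.update r k (r k - t)) (Function.update c l (c l - t))).card =
      ((tab r c).filter fun X => t ≤ X k l).card := by
  apply card_bij (fun X _ => addCell X k l t)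
  · intro X hX
    rw [mem_tab] at hX
    rw [mem_filter, mem_tab]
    refine ⟨⟨fun i => ?_, fun j => ?_⟩, ?_⟩
    · rw [addCell_row, hX.1 i]
      by_cases h : i = k
      · subst h; simp only [Function.update_self, if_true]; omega
      · simp [h]
    · rw [addCell_col, hX.2 j]
      by_cases h : j = l
      · subst h; simp only [Function.update_self, if_true]; omega
      · simp [h]
    · unfold addCell; simp
  · intro X _ Y _ h
    exact addCell_inj h
  · intro X hX
    rw [mem_filter, mem_tab] at hX
    obtain ⟨⟨hr, hc⟩, hkl⟩ := hX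
    have hadd : addCell (subCell X k l t) k l t = X := addCell_subCell hkl
    refine ⟨subCell X k l t, ?_, hadd⟩
    rw [mem_tab]
    constructor
    · intro i
      have e1 := addCell_row (subCell X k l t) k l t i
      rw [hadd, hr i] at e1
      by_cases h : i = k
      · subst h
        rw [if_pos rfl] at e1
        rw [Function.update_self]
        omega
      · rw [if_neg h] at e1
        rw [Function.update_of_ne h]
        omega
    · intro j
      have e1 := addCell_col (subCell X k l t) k l t j
      rw [hadd, hc j] at e1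
      by_cases h : j = l
      · subst h
        rw [if_pos rfl] at e1
        rw [Function.update_self]
        omega
      · rw [if_neg h] at e1
        rw [Function.update_of_ne h]
        omega

/-! ### existence and uniqueness of tables -/

theorem tab_nonempty_aux (N : ℕ) : ∀ (r : I → ℕ) (c : J → ℕ), ∑ i, r i = N → ∑ j, c j = N →
    (tab r c).Nonempty := by
  induction N with
  | zero =>
    intro r c hr hc
    rw [sum_eq_zero_iff] at hr hc
    refine ⟨fun _ _ => 0, mem_tab.2 ⟨fun i => ?_, fun j => ?_⟩⟩
    · rw [hr i (mem_univ i)]; simp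
    · rw [hc j (mem_univ j)]; simp
  | succ N ih =>
    intro r c hr hc
    obtain ⟨k, hk⟩ : ∃ k, 1 ≤ r k := by
      by_contra h
      push Not at h
      have : ∑ i, r i = 0 := sum_eq_zero fun i _ => by have := h i; omega
      omega
    obtain ⟨l, hl⟩ : ∃ l, 1 ≤ c l := by
      by_contra h
      push Not at h
      have : ∑ i, c i = 0 := sum_eq_zero fun i _ => by have := h i; omega
      omega
    have h1 : ∑ i, Function.update r k (r k - 1) i = N := by
      have e1 := sum_update_of_mem (mem_univ k) r (r k - 1)
      have e2 := add_sum_erase univ r (mem_univ k)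
      rw [e1, ← erase_eq univ k] at *
      omega
    have h2 : ∑ j, Function.update c l (c l - 1) j = N := by
      have e1 := sum_update_of_mem (mem_univ l) c (c l - 1)
      have e2 := add_sum_erase univ c (mem_univ l)
      rw [e1, ← erase_eq univ l] at *
      omega
    have h3 := card_pos.2 (ih _ _ h1 h2)
    rw [card_sub_cell r c k l 1 hk hl] at h3
    obtain ⟨X, hX⟩ := card_pos.1 h3
    exact ⟨X, (mem_filter.1 hX).1⟩

/-! ### the forms used by the algorithm -/

section Fin

variable {m n : ℕ}

/-- (I1) -/
theorem inject_one (r : Fin m → ℕ) (c : Fin n → ℕ) (k : Fin m) (l : Fin n) (x : ℕ)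
    (hx : 2 * x ≤ min (r k) (c l)) :
    ((tab r c).filter fun X => X k l = x).card * (min (r k) (c l) / (2 * max m n) + 1) ≤
      m * n * (tab r c).card := by
  have h := card_cell_scale r c k l x (min (r k) (c l) / (2 * max m n))
  simp only [Fintype.card_fin] at h
  have h0 : 2 * max m n * (min (r k) (c l) / (2 * max m n)) ≤ min (r k) (c l) :=
    Nat.mul_div_le _ _
  set S := min (r k) (c l) / (2 * max m n) with hS
  have h3 : n * S ≤ max m n * S := Nat.mul_le_mul_right _ (le_max_right _ _)
  have h4 : m * S ≤ max m n * S := Nat.mul_le_mul_right _ (le_max_left _ _)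
  have h5 : min (r k) (c l) ≤ r k := min_le_left _ _
  have h6 : min (r k) (c l) ≤ c l := min_le_right _ _
  apply h
  · nlinarith
  · nlinarith

/-- (I2) -/
theorem inject_two (r : Fin m → ℕ) (c : Fin n → ℕ) (k : Fin m) (l : Fin n) (j : ℕ)
    (hr : j + 1 ≤ r k) (hc : j + 1 ≤ c l) :
    ((tab r c).filter fun X => X k l = j).card ≤
      m * n * ((tab r c).filter fun X => X k l = j + 1).card := by
  have h := card_cell_succ r c k l j (by omega) (by omega)
  simpa only [Fintype.card_fin] using h

/-- lower bound for the probability of `X k l ≥ t`: small thresholds -/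
theorem thr_small (r : Fin m → ℕ) (c : Fin n → ℕ) (k : Fin m) (l : Fin n) (t : ℕ) (ht : t ≤ 2)
    (hr : t ≤ r k) (hc : t ≤ c l) :
    (tab r c).card ≤ (1 + m * n) ^ 2 * ((tab r c).filter fun X => t ≤ X k l).card := by
  interval_cases t
  · have h0 : ((tab r c).filter fun X => 0 ≤ X k l) = tab r c := by simp
    rw [h0]
    exact Nat.le_mul_of_pos_left _ (by positivity)
  · have h := card_le_card_ge_one r c k l hr hc
    simp only [Fintype.card_fin] at h
    refine le_trans h (Nat.mul_le_mul_right _ ?_)
    nlinarith [Nat.zero_le (m * n)]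
  · have h := card_le_card_ge_two r c k l hr hc
    simpa only [Fintype.card_fin] using h

/-- lower bound for the probability of `X k l ≥ t`: large thresholds -/
theorem thr_large (r : Fin m → ℕ) (c : Fin n → ℕ) (k : Fin m) (l : Fin n) (t : ℕ)
    (ht : 8 * (m * n) * (m + n) * t ≤ min (r k) (c l)) :
    (tab r c).card ≤ (1 + m * n) ^ 2 * ((tab r c).filter fun X => t ≤ X k l).card := by
  have h := half_le_card_ge r c k l t (by simpa only [Fintype.card_fin] using ht)
  refine le_trans h (Nat.mul_le_mul_right _ ?_)
  have hm : 0 < m := lt_of_le_of_lt (Nat.zero_le _) k.2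
  have hn : 0 < n := lt_of_le_of_lt (Nat.zero_le _) l.2
  have : 1 ≤ m * n := Nat.mul_pos hm hn
  nlinarith

/-- removing `t` from the cell `(k, l)`: a bijection -/
theorem card_shift (r : Fin m → ℕ) (c : Fin n → ℕ) (k : Fin m) (l : Fin n) (t : ℕ)
    (hr : t ≤ r k) (hc : t ≤ c l) :
    ((tab r c).filter fun X => t ≤ X k l).card =
      (tab (Function.update r k (r k - t)) (Function.update c l (c l - t))).card :=
  (card_sub_cell r c k l t hr hc).symm

/-- there is a table for all margins with equal sums -/
theorem tab_nonempty (r : Fin m → ℕ) (c : Fin n → ℕ) (h : ∑ i, r i = ∑ j, c j) :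
    (tab r c).Nonempty := tab_nonempty_aux _ r c rfl h.symm

/-- if all rows except `o` are zero there is exactly one table -/
theorem card_tab_one (r : Fin m → ℕ) (c : Fin n → ℕ) (o : Fin m) (h : ∑ i, r i = ∑ j, c j)
    (h0 : ∀ k, k ≠ o → r k = 0) : (tab r c).card = 1 := by
  rw [card_eq_one]
  obtain ⟨X, hX⟩ := tab_nonempty r c h
  refine ⟨X, ?_⟩
  have key : ∀ Y ∈ tab r c, ∀ i j, Y i j = if i = o then c j else 0 := by
    intro Y hY i j
    rw [mem_tab] at hY
    have hz : ∀ i, i ≠ o → ∀ j, Y i j = 0 := by
      intro i hi j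
      have h1 := hY.1 i
      rw [h0 i hi] at h1
      exact (sum_eq_zero_iff.1 h1) j (mem_univ j)
    by_cases hi : i = o
    · subst hi
      rw [if_pos rfl, ← hY.2 j]
      symm
      apply sum_eq_single
      · intro b _ hb
        exact hz b hb j
      · intro hh
        exact absurd (mem_univ _) hh
    · rw [if_neg hi]
      exact hz i hi j
  ext Y
  rw [mem_singleton]
  constructor
  · intro hY
    funext i j
    rw [key Y hY, key X hX]
  · intro hY
    rw [hY]
    exact hX

end Fin

end Vale.Agent.Lib.P328
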