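import Vale.Agent.Lib.P328.Defs

/-!
P328, module Level: level sets of a box, shifting and slicing of sums.
-/

namespace Vale.Agent.Lib.P328

open Finset

variable {J : Type} [Fintype J] [DecidableEq J]

theorem mem_lev {s : J → ℕ} {j : ℕ} {x : J → ℕ} :
    x ∈ lev s j ↔ (∀ l, x l ≤ s l) ∧ ∑ l, x l = j := by
  simp [lev, Fintype.mem_piFinset]

theorem e_same (l : J) : e l l = 1 := by
  simp [e]

theorem e_ne {l a : J} (h : a ≠ l) : e l a = 0 := by
  simp [e, h]

theorem sum_e (l : J) : ∑ a, e l a = 1 := by
  simp [e, Pi.single_apply]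

private theorem e_le {w : J → ℕ} {a : J} (ha : w a ≠ 0) (l : J) : e a l ≤ w l := by
  by_cases h : l = a
  · subst h
    rw [e_same]
    omega
  · rw [e_ne h]
    omega

theorem add_sub_e (x : J → ℕ) (a : J) : x + e a - e a = x := by
  funext l
  simp [Pi.sub_apply, Pi.add_apply]

theorem sub_add_e {w : J → ℕ} {a : J} (ha : w a ≠ 0) : w - e a + e a = w := by
  funext l
  have := e_le ha l
  simp only [Pi.sub_apply, Pi.add_apply]
  omega

private theorem sum_add_e (x : J → ℕ) (a : J) : ∑ l, (x + e a) l = ∑ l, x l + 1 := by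
  simp only [Pi.add_apply]
  rw [Finset.sum_add_distrib, sum_e]

/-- removing a unit -/
theorem sub_e_mem {s : J → ℕ} {j : ℕ} {w : J → ℕ} {a : J} (hw : w ∈ lev s (j + 1))
    (ha : w a ≠ 0) : w - e a ∈ lev s j := by
  rw [mem_lev] at hw ⊢
  refine ⟨fun l => ?_, ?_⟩
  · have := hw.1 l
    simp only [Pi.sub_apply]
    omega
  · have h1 := sum_add_e (w - e a) a
    rw [sub_add_e ha, hw.2] at h1
    omega

/-- adding a unit -/
theorem add_e_mem {s : J → ℕ} {j : ℕ} {x : J → ℕ} {a : J} (hx : x ∈ lev s j)
    (ha : x a < s a) : x + e a ∈ lev s (j + 1) := by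
  rw [mem_lev] at hx ⊢
  refine ⟨fun l => ?_, ?_⟩
  · have := hx.1 l
    simp only [Pi.add_apply]
    by_cases h : l = a
    · subst h
      rw [e_same]
      omega
    · rw [e_ne h]
      omega
  · rw [sum_add_e, hx.2]

/-- shift of sums between consecutive levels, for one column -/
theorem sum_shift_one (s : J → ℕ) (r : ℕ) (l : J) (F : (J → ℕ) → ℝ) :
    ∑ x ∈ lev s r, (if x l < s l then F x else 0) =
      ∑ w ∈ lev s (r + 1), (if w l = 0 then 0 else F (w - e l)) := by
  have h1 : ∑ x ∈ lev s r, (if x l < s l then F x else 0) =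
      ∑ x ∈ (lev s r).filter (fun x => x l < s l), F x := by
    rw [Finset.sum_filter]
  have h2 : ∑ w ∈ lev s (r + 1), (if w l = 0 then 0 else F (w - e l)) =
      ∑ w ∈ (lev s (r + 1)).filter (fun w => ¬ w l = 0), F (w - e l) := by
    rw [Finset.sum_filter]
    apply Finset.sum_congr rfl
    intro w _
    by_cases h : w l = 0 <;> simp [h]
  rw [h1, h2]
  refine Finset.sum_bij' (fun x _ => x + e l) (fun w _ => w - e l) ?_ ?_ ?_ ?_ ?_
  · intro x hx
    rw [Finset.mem_filter] at hx ⊢
    refine ⟨add_e_mem hx.1 hx.2, ?_⟩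
    simp only [Pi.add_apply, e_same]
    omega
  · intro w hw
    rw [Finset.mem_filter] at hw ⊢
    refine ⟨sub_e_mem hw.1 hw.2, ?_⟩
    have h3 := (mem_lev.1 hw.1).1 l
    simp only [Pi.sub_apply, e_same]
    have := hw.2
    omega
  · intro x _
    exact add_sub_e x l
  · intro w hw
    rw [Finset.mem_filter] at hw
    exact sub_add_e hw.2
  · intro x _
    simp only [add_sub_e]

/-- shift of sums between consecutive levels: `w = x + e_l` -/
theorem sum_shift (s : J → ℕ) (r : ℕ) (F : (J → ℕ) → J → ℝ) :
    ∑ x ∈ lev s r, ∑ l, (if x l < s l then F x l else 0) =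
      ∑ w ∈ lev s (r + 1), ∑ l, (if w l = 0 then 0 else F (w - e l) l) := by
  rw [Finset.sum_comm]
  rw [Finset.sum_comm (s := lev s (r + 1))]
  apply Finset.sum_congr rfl
  intro l _
  exact sum_shift_one s r l (fun x => F x l)

/-- shift by two units: `y = x + e_a + e_b`; the condition `y ≤ s` on the left, `e_a + e_b ≤ y` on
the right -/
theorem sum_shift2 (s : J → ℕ) (r : ℕ) (F : (J → ℕ) → J → J → ℝ) :
    ∑ x ∈ lev s r, ∑ a, ∑ b, (if x a < s a ∧ (x + e a) b < s b then F x a b else 0) =
      ∑ y ∈ lev s (r + 2), ∑ a, ∑ b,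
        (if y a = 0 ∨ (y - e a) b = 0 then 0 else F (y - e a - e b) a b) := by
  have key : ∀ a b : J, ∑ x ∈ lev s r, (if x a < s a ∧ (x + e a) b < s b then F x a b else 0) =
      ∑ y ∈ lev s (r + 2), (if y a = 0 ∨ (y - e a) b = 0 then 0 else F (y - e a - e b) a b) := by
    intro a b
    -- first step: add `e a`
    have h1 : ∑ x ∈ lev s r, (if x a < s a ∧ (x + e a) b < s b then F x a b else 0) =
        ∑ x ∈ lev s r, (if x a < s a then (if (x + e a) b < s b then F x a b else 0) else 0) := by
      apply Finset.sum_congr rfl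
      intro x _
      by_cases h : x a < s a <;> by_cases h' : (x + e a) b < s b <;> simp [h, h']
    rw [h1, sum_shift_one s r a (fun x => if (x + e a) b < s b then F x a b else 0)]
    -- second step: add `e b`
    have h2 : ∑ w ∈ lev s (r + 1), (if w a = 0 then 0 else
          (if (w - e a + e a) b < s b then F (w - e a) a b else 0)) =
        ∑ w ∈ lev s (r + 1), (if w b < s b then (if w a = 0 then 0 else F (w - e a) a b)
          else 0) := by
      apply Finset.sum_congr rfl
      intro w _
      by_cases h : w a = 0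
      · simp [h]
      · rw [sub_add_e h]
        simp [h]
    rw [h2, sum_shift_one s (r + 1) b (fun w => if w a = 0 then 0 else F (w - e a) a b)]
    apply Finset.sum_congr rfl
    intro y hy
    by_cases hab : a = b
    · subst hab
      by_cases h : y a = 0
      · simp [h]
      · by_cases h' : (y - e a) a = 0
        · simp [h, h']
        · simp [h, h']
    · have e1 : (y - e a) b = y b := by
        simp [Pi.sub_apply, e_ne (Ne.symm hab)]
      have e2 : (y - e b) a = y a := by
        simp [Pi.sub_apply, e_ne hab]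
      rw [e1]
      simp only [e2]
      by_cases h : y a = 0
      · simp [h]
      · by_cases h' : y b = 0
        · simp [h, h']
        · have e3 : y - e b - e a = y - e a - e b := by
            funext l
            simp only [Pi.sub_apply]
            omega
          simp [h, h', e3]
  calc ∑ x ∈ lev s r, ∑ a, ∑ b, (if x a < s a ∧ (x + e a) b < s b then F x a b else 0)
      = ∑ a, ∑ b, ∑ x ∈ lev s r, (if x a < s a ∧ (x + e a) b < s b then F x a b else 0) := by
        rw [Finset.sum_comm]
        apply Finset.sum_congr rfl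
        intro a _
        rw [Finset.sum_comm]
    _ = ∑ a, ∑ b, ∑ y ∈ lev s (r + 2),
        (if y a = 0 ∨ (y - e a) b = 0 then 0 else F (y - e a - e b) a b) := by
        apply Finset.sum_congr rfl
        intro a _
        apply Finset.sum_congr rfl
        intro b _
        exact key a b
    _ = _ := by
        symm
        rw [Finset.sum_comm]
        apply Finset.sum_congr rfl
        intro a _
        rw [Finset.sum_comm]

/-- slicing a level along column `b` -/
theorem sum_slice (s : J → ℕ) (b : J) (ρ : ℕ) (F : (J → ℕ) → ℝ) :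
    ∑ w ∈ lev s ρ, F w =
      ∑ i ∈ range (min (s b) ρ + 1), ∑ v ∈ lev (sB s b) (ρ - i), F (Function.update v b i) := by
  have hmaps : ∀ w ∈ lev s ρ, w b ∈ range (min (s b) ρ + 1) := by
    intro w hw
    rw [mem_lev] at hw
    rw [Finset.mem_range]
    have h1 := hw.1 b
    have h2 : w b ≤ ∑ l, w l := Finset.single_le_sum (f := w) (fun i _ => Nat.zero_le _)
      (Finset.mem_univ b)
    rw [hw.2] at h2
    omega
  rw [← Finset.sum_fiberwise_of_maps_to hmaps]
  apply Finset.sum_congr rfl
  intro i hi
  rw [Finset.mem_range] at hi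
  refine Finset.sum_bij' (fun w _ => Function.update w b 0) (fun v _ => Function.update v b i)
    ?_ ?_ ?_ ?_ ?_
  · intro w hw
    rw [Finset.mem_filter, mem_lev] at hw
    rw [mem_lev]
    refine ⟨fun l => ?_, ?_⟩
    · by_cases h : l = b
      · subst h
        simp
      · simp only [sB, Function.update_of_ne h]
        exact hw.1.1 l
    · rw [Finset.sum_update_of_mem (Finset.mem_univ b)]
      have h1 := Finset.add_sum_erase Finset.univ w (Finset.mem_univ b)
      rw [hw.1.2, hw.2] at h1
      rw [← Finset.erase_eq]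
      omega
  · intro v hv
    rw [mem_lev] at hv
    rw [Finset.mem_filter, mem_lev]
    have hvb : v b = 0 := by
      have := hv.1 b
      simp only [sB, Function.update_self] at this
      omega
    refine ⟨⟨fun l => ?_, ?_⟩, ?_⟩
    · by_cases h : l = b
      · subst h
        simp only [Function.update_self]
        omega
      · have := hv.1 l
        simp only [sB, Function.update_of_ne h] at this ⊢
        exact this
    · rw [Finset.sum_update_of_mem (Finset.mem_univ b)]
      have h1 := Finset.add_sum_erase Finset.univ v (Finset.mem_univ b)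
      rw [hv.2, hvb] at h1
      rw [← Finset.erase_eq]
      omega
    · simp
  · intro w hw
    rw [Finset.mem_filter] at hw
    rw [Function.update_idem, ← hw.2, Function.update_eq_self]
  · intro v hv
    have hvb : v b = 0 := by
      have := (mem_lev.1 hv).1 b
      simp only [sB, Function.update_self] at this
      omega
    rw [Function.update_idem, ← hvb, Function.update_eq_self]
  · intro w hw
    rw [Finset.mem_filter] at hw
    rw [Function.update_idem, ← hw.2, Function.update_eq_self]

/-- the weight of a slice -/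
theorem wt_slice (ψ : J → ℕ → ℝ) (b : J) (v : J → ℕ) (i : ℕ) :
    wt ψ (Function.update v b i) = ψ b i * wt (psB ψ b) v := by
  unfold wt
  rw [← Finset.mul_prod_erase Finset.univ (fun l => ψ l (Function.update v b i l))
    (Finset.mem_univ b), ← Finset.mul_prod_erase Finset.univ (fun l => psB ψ b l (v l))
    (Finset.mem_univ b)]
  have h1 : psB ψ b b (v b) = 1 := by
    simp [psB]
  rw [h1, one_mul, Function.update_self]
  congr 1
  apply Finset.prod_congr rfl
  intro l hl
  have hlb : l ≠ b := Finset.ne_of_mem_erase hl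
  simp [psB, hlb]

theorem sum_sB (s : J → ℕ) (b : J) : ∑ l, sB s b l + s b = ∑ l, s l := by
  unfold sB
  rw [Finset.sum_update_of_mem (Finset.mem_univ b), ← Finset.erase_eq, zero_add]
  rw [add_comm]
  exact Finset.add_sum_erase Finset.univ s (Finset.mem_univ b)

theorem lev_nonempty {s : J → ℕ} {j : ℕ} (h : j ≤ ∑ l, s l) : (lev s j).Nonempty := by
  induction j with
  | zero => exact ⟨0, mem_lev.2 ⟨fun l => Nat.zero_le _, by simp⟩⟩
  | succ j ih =>
    obtain ⟨x, hx⟩ := ih (by omega)
    have hx' := mem_lev.1 hx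
    have : ∃ l, x l < s l := by
      by_contra hcon
      push Not at hcon
      have : ∑ l, s l ≤ ∑ l, x l := Finset.sum_le_sum fun l _ => hcon l
      rw [hx'.2] at this
      omega
    obtain ⟨l, hl⟩ := this
    exact ⟨x + e l, add_e_mem hx hl⟩

theorem lev_empty {s : J → ℕ} {j : ℕ} (h : ∑ l, s l < j) : lev s j = ∅ := by
  rw [Finset.eq_empty_iff_forall_notMem]
  intro x hx
  rw [mem_lev] at hx
  have : ∑ l, x l ≤ ∑ l, s l := Finset.sum_le_sum fun l _ => hx.1 l
  rw [hx.2] at this
  omega

theorem ZZ_pos {ψ : J → ℕ → ℝ} {s : J → ℕ} {j : ℕ} (hψ : ∀ l, ∀ v ≤ s l, 0 < ψ l v)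
    (h : j ≤ ∑ l, s l) : 0 < ZZ ψ s j := by
  unfold ZZ
  apply Finset.sum_pos
  · intro v hv
    rw [mem_lev] at hv
    exact Finset.prod_pos fun l _ => hψ l _ (hv.1 l)
  · exact lev_nonempty h

theorem ZZ_eq_zero {ψ : J → ℕ → ℝ} {s : J → ℕ} {j : ℕ} (h : ∑ l, s l < j) : ZZ ψ s j = 0 := by
  unfold ZZ
  rw [lev_empty h, Finset.sum_empty]

/-- the total weight sliced along column `b` -/
theorem ZZ_slice (ψ : J → ℕ → ℝ) (s : J → ℕ) (b : J) (j : ℕ) :
    ZZ ψ s j = ∑ i ∈ range (min (s b) j + 1), ψ b i * ZZ (psB ψ b) (sB s b) (j - i) := by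
  unfold ZZ
  rw [sum_slice s b j]
  apply Finset.sum_congr rfl
  intro i _
  rw [Finset.mul_sum]
  apply Finset.sum_congr rfl
  intro v _
  exact wt_slice ψ b v i

end Vale.Agent.Lib.P328
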