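import Vale.Agent.Lib.P328.Phi
import Vale.Agent.Lib.P328.Level
import Vale.Agent.Lib.P328.Inject

/-!
P328, module TabBase: basic facts on tables (`mem_tab` is in `Inject`).
-/

namespace Vale.Agent.Lib.P328

open Finset

variable {I J : Type} [Fintype I] [DecidableEq I] [Fintype J] [DecidableEq J]

theorem tw_pos (τ : I → J → ℕ) (X : I → J → ℕ) : 0 < tw τ X :=
  Finset.prod_pos fun _ _ => Finset.prod_pos fun _ _ => phi_pos _ _

/-- product weights, one point: for nonnegative `α`, `β` with positive sums and a matrix `F`,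
`P1 F b = (∑ a, α a * F a b) / ∑ α`, `P2 F a = (∑ b, β b * F a b) / ∑ β`:
`∑ α_a β_b (F_ab - P1 F b) (F_ab - P2 F a) = ∑ α_a β_b (F_ab - P1 F b - P2 F a + P1 P2 F)² ≥ 0` -/
theorem product_nonneg (α β : J → ℝ) (hα : ∀ a, 0 ≤ α a) (hβ : ∀ b, 0 ≤ β b) (F : J → J → ℝ) :
    0 ≤ ∑ a, ∑ b, α a * β b *
      ((F a b - (∑ a', α a' * F a' b) / ∑ a', α a') *
        (F a b - (∑ b', β b' * F a b') / ∑ b', β b')) := by
  rcases (Finset.sum_nonneg fun a (_ : a ∈ univ) => hα a).eq_or_lt with hA | hA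
  · have h0 : ∀ a, α a = 0 := fun a =>
      (Finset.sum_eq_zero_iff_of_nonneg fun a (_ : a ∈ univ) => hα a).1 hA.symm a (mem_univ a)
    simp [h0]
  rcases (Finset.sum_nonneg fun b (_ : b ∈ univ) => hβ b).eq_or_lt with hB | hB
  · have h0 : ∀ b, β b = 0 := fun b =>
      (Finset.sum_eq_zero_iff_of_nonneg fun b (_ : b ∈ univ) => hβ b).1 hB.symm b (mem_univ b)
    simp [h0]
  obtain ⟨P, hP⟩ : ∃ P : J → ℝ, ∀ b, (∑ a', α a' * F a' b) / ∑ a', α a' = P b := ⟨_, fun _ => rfl⟩
  obtain ⟨Q, hQ⟩ : ∃ Q : J → ℝ, ∀ a, (∑ b', β b' * F a b') / ∑ b', β b' = Q a := ⟨_, fun _ => rfl⟩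
  simp only [hP, hQ]
  set A : ℝ := ∑ a', α a' with hAdef
  set B : ℝ := ∑ b', β b' with hBdef
  have h1 : ∀ b, ∑ a, α a * F a b = A * P b := fun b => by
    rw [← hP b]; field_simp
  have h2 : ∀ a, ∑ b, β b * F a b = B * Q a := fun a => by
    rw [← hQ a]; field_simp
  obtain ⟨m, hm⟩ : ∃ m : ℝ, ∑ a, α a * Q a = A * m := ⟨(∑ a, α a * Q a) / A, by field_simp⟩
  have hm2 : ∑ b, β b * P b = B * m := by
    have h3 : A * ∑ b, β b * P b = A * (B * m) := by
      calc A * ∑ b, β b * P b = ∑ b, β b * ∑ a, α a * F a b := by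
            rw [Finset.mul_sum]
            exact Finset.sum_congr rfl fun b _ => by rw [h1 b]; ring
        _ = ∑ a, α a * ∑ b, β b * F a b := by
            simp only [Finset.mul_sum]
            rw [Finset.sum_comm]
            exact Finset.sum_congr rfl fun a _ => Finset.sum_congr rfl fun b _ => by ring
        _ = B * ∑ a, α a * Q a := by
            rw [Finset.mul_sum]
            exact Finset.sum_congr rfl fun a _ => by rw [h2 a]; ring
        _ = A * (B * m) := by rw [hm]; ring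
    exact mul_left_cancel₀ hA.ne' h3
  -- the cross terms
  have c1 : ∑ a, ∑ b, α a * β b * ((F a b - m) * (P b - m)) =
      A * ∑ b, β b * (P b - m) ^ 2 := by
    rw [Finset.sum_comm, Finset.mul_sum]
    refine Finset.sum_congr rfl fun b _ => ?_
    have h3 : ∑ a, α a * β b * ((F a b - m) * (P b - m)) =
        β b * (P b - m) * (∑ a, α a * F a b - m * ∑ a, α a) := by
      rw [Finset.mul_sum, ← Finset.sum_sub_distrib, Finset.mul_sum]
      exact Finset.sum_congr rfl fun a _ => by ring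
    rw [h3, h1 b]
    ring
  have c2 : ∑ a, ∑ b, α a * β b * ((F a b - m) * (Q a - m)) =
      B * ∑ a, α a * (Q a - m) ^ 2 := by
    rw [Finset.mul_sum]
    refine Finset.sum_congr rfl fun a _ => ?_
    have h3 : ∑ b, α a * β b * ((F a b - m) * (Q a - m)) =
        α a * (Q a - m) * (∑ b, β b * F a b - m * ∑ b, β b) := by
      rw [Finset.mul_sum, ← Finset.sum_sub_distrib, Finset.mul_sum]
      exact Finset.sum_congr rfl fun b _ => by ring
    rw [h3, h2 a]
    ring
  have c3 : ∑ a, ∑ b, α a * β b * ((Q a - m) * (P b - m)) = 0 := by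
    have h3 : ∑ b, β b * (P b - m) = 0 := by
      have h4 : ∑ b, β b * (P b - m) = ∑ b, β b * P b - m * ∑ b, β b := by
        rw [Finset.mul_sum, ← Finset.sum_sub_distrib]
        exact Finset.sum_congr rfl fun b _ => by ring
      rw [h4, hm2]
      ring
    refine Finset.sum_eq_zero fun a _ => ?_
    have h5 : ∑ b, α a * β b * ((Q a - m) * (P b - m)) =
        α a * (Q a - m) * ∑ b, β b * (P b - m) := by
      rw [Finset.mul_sum]
      exact Finset.sum_congr rfl fun b _ => by ring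
    rw [h5, h3, mul_zero]
  have c4 : ∑ a, ∑ b, α a * β b * (P b - m) ^ 2 = A * ∑ b, β b * (P b - m) ^ 2 := by
    rw [Finset.sum_comm, Finset.mul_sum]
    refine Finset.sum_congr rfl fun b _ => ?_
    rw [hAdef, Finset.sum_mul]
    exact Finset.sum_congr rfl fun a _ => by ring
  have c5 : ∑ a, ∑ b, α a * β b * (Q a - m) ^ 2 = B * ∑ a, α a * (Q a - m) ^ 2 := by
    rw [Finset.mul_sum]
    refine Finset.sum_congr rfl fun a _ => ?_
    rw [hBdef, Finset.sum_mul]
    exact Finset.sum_congr rfl fun b _ => by ring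
  have key : ∑ a, ∑ b, α a * β b * ((F a b - P b) * (F a b - Q a)) =
      ∑ a, ∑ b, α a * β b * (F a b - P b - Q a + m) ^ 2 := by
    have h6 : ∑ a, ∑ b, α a * β b * ((F a b - P b) * (F a b - Q a)) =
        ∑ a, ∑ b, α a * β b * (F a b - P b - Q a + m) ^ 2 +
        (∑ a, ∑ b, α a * β b * ((F a b - m) * (P b - m)) +
          ∑ a, ∑ b, α a * β b * ((F a b - m) * (Q a - m)) -
          ∑ a, ∑ b, α a * β b * ((Q a - m) * (P b - m)) -
          ∑ a, ∑ b, α a * β b * (P b - m) ^ 2 -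
          ∑ a, ∑ b, α a * β b * (Q a - m) ^ 2) := by
      simp only [← Finset.sum_add_distrib, ← Finset.sum_sub_distrib]
      exact Finset.sum_congr rfl fun a _ => Finset.sum_congr rfl fun b _ => by ring
    rw [h6, c1, c2, c3, c4, c5]
    ring
  rw [key]
  exact Finset.sum_nonneg fun a _ => Finset.sum_nonneg fun b _ =>
    mul_nonneg (mul_nonneg (hα a) (hβ b)) (sq_nonneg _)

end Vale.Agent.Lib.P328
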