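import Vale.Agent.Lib.P328.Numeric
import Vale.Agent.Lib.P328.TabBase

/-!
P328, module Params: admissibility of the windows and numerical bounds.
-/

namespace Vale.Agent.Lib.P328

open Finset

theorem Qsc_pos {m n A : ℕ} (hm : 1 ≤ m) (hn : 1 ≤ n) (hA : 1 ≤ A) : 1 ≤ Qsc m n A := by
  unfold Qsc
  have h1 : 0 < m * n := Nat.mul_pos hm hn
  have h2 : 0 < m + n := by omega
  have h3 : 0 < A := hA
  exact Nat.mul_pos (Nat.mul_pos (Nat.mul_pos (by norm_num) (pow_pos h1 4)) h2) (pow_pos h3 2)

theorem Twin_le {m n : ℕ} (A : ℕ) (r : Fin m → ℕ) (c : Fin n → ℕ) (o : Fin m) (l : Fin n) :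
    Twin A r c o l ≤ c l := by
  unfold Twin
  exact le_trans (Nat.div_le_self _ _) (min_le_left _ _)

theorem tau_le {m n : ℕ} (A : ℕ) (r : Fin m → ℕ) (c : Fin n → ℕ) (o k : Fin m) (l : Fin n) :
    tau A r c o k l ≤ c l := by
  unfold tau
  split_ifs
  · exact Twin_le A r c o l
  · exact Nat.zero_le _

/-- Proof.  `Q = Qsc m n A ≥ 1`, `τ o l = Twin l` (since `r o ≤ 16 n r o`).
scale: `min (c l) (r o/(16n)) + 1 ≤ Q (Twin + 1)`, `r k + 1 ≤ r o < 16 n (r o/(16 n) + 1)`, so
`min (c l) (r k + 1) ≤ 16 n (min (c l) (r o/(16n)) + 1) ≤ 16 n Q (Twin + 1)`.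
kind: if `r o ≤ 16 n r k` the windows agree; otherwise `τ k = 0` and either `r k = 0` or
`8 n (r k + 1) ≤ 16 n r k < r o`. -/
theorem adm_tau {m n : ℕ} (r : Fin m → ℕ) (c : Fin n → ℕ) (o : Fin m) {A : ℕ} (hn : 1 ≤ n)
    (hA : 1 ≤ A) (hdom : ∀ k, k ≠ o → r k + 2 ≤ r o) :
    Adm (tau A r c o) r c o (Ksc m n A) := by
  have hm : 1 ≤ m := by have := o.2; omega
  have hQ := Qsc_pos hm hn hA
  have h16 : 1 ≤ 16 * n := by omega
  have hto : ∀ l, tau A r c o o l = Twin A r c o l := by
    intro l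
    unfold tau
    rw [if_pos]
    nlinarith
  refine ⟨?_, hdom, ?_, ?_⟩
  · unfold Ksc
    exact Nat.mul_pos h16 hQ
  · intro k hk l
    rw [hto l]
    have h1 : min (c l) (r o / (16 * n)) < Qsc m n A * (Twin A r c o l + 1) := by
      unfold Twin
      exact Nat.lt_mul_div_succ _ hQ
    have h2 : min (c l) (r k + 1) ≤ 16 * n * (min (c l) (r o / (16 * n)) + 1) := by
      rcases le_total (c l) (r o / (16 * n)) with h | h
      · rw [min_eq_left h]
        have := min_le_left (c l) (r k + 1)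
        nlinarith
      · rw [min_eq_right h]
        have h3 : r o < 16 * n * (r o / (16 * n) + 1) := Nat.lt_mul_div_succ _ h16
        have h4 := hdom k hk
        have h5 := min_le_right (c l) (r k + 1)
        omega
    calc min (c l) (r k + 1) ≤ 16 * n * (min (c l) (r o / (16 * n)) + 1) := h2
      _ ≤ 16 * n * (Qsc m n A * (Twin A r c o l + 1)) := Nat.mul_le_mul_left _ h1
      _ = Ksc m n A * (Twin A r c o l + 1) := by unfold Ksc; ring
  · intro k hk
    by_cases h0 : r k = 0
    · exact Or.inl h0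
    right
    by_cases h : r o ≤ 16 * n * r k
    · left
      intro l
      rw [hto l]
      unfold tau
      rw [if_pos h]
    · right
      refine ⟨fun l => ?_, ?_⟩
      · unfold tau
        rw [if_neg h]
      · have h1 : 16 * n * r k < r o := by omega
        rw [Fintype.card_fin]
        have h3 : r k + 1 ≤ 2 * r k := by omega
        calc 8 * n * (r k + 1) ≤ 8 * n * (2 * r k) := Nat.mul_le_mul_left _ h3
          _ = 16 * n * r k := by ring
          _ ≤ r o := h1.le

/-- harmonic numbers: `∑_{i < j} 1/(i+1) ≤ Nat.size j` -/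
theorem harmonic_le (j : ℕ) : ∑ i ∈ range j, 1 / ((i : ℝ) + 1) ≤ (Nat.size j : ℝ) := by
  have key : ∀ s : ℕ, ∀ j : ℕ, j < 2 ^ s → ∑ i ∈ range j, 1 / ((i : ℝ) + 1) ≤ (s : ℝ) := by
    intro s
    induction s with
    | zero =>
      intro j hj
      have : j = 0 := by simpa using hj
      subst this
      simp
    | succ s ih =>
      intro j hj
      have h1 : j / 2 < 2 ^ s := by
        rw [pow_succ] at hj
        omega
      have h2 := ih (j / 2) h1
      have h3 : j / 2 ≤ j := Nat.div_le_self _ _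
      have h4 := Finset.sum_range_add_sum_Ico (fun i : ℕ => 1 / ((i : ℝ) + 1)) h3
      have h5 : ∑ i ∈ Ico (j / 2) j, 1 / ((i : ℝ) + 1) ≤ 1 := by
        have hb : ∀ i ∈ Ico (j / 2) j, 1 / ((i : ℝ) + 1) ≤ 1 / (((j / 2 : ℕ) : ℝ) + 1) := by
          intro i hi
          rw [mem_Ico] at hi
          have : ((j / 2 : ℕ) : ℝ) ≤ i := by exact_mod_cast hi.1
          apply one_div_le_one_div_of_le (by positivity)
          linarith
        refine le_trans (sum_le_sum hb) ?_
        rw [sum_const, Nat.card_Ico, nsmul_eq_mul, mul_one_div, div_le_one (by positivity)]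
        have : j - j / 2 ≤ j / 2 + 1 := by omega
        exact_mod_cast this
      push_cast
      linarith
  exact key _ j (Nat.lt_size_self j)

/-- number of tables: `#tab ≤ (N+1)^(m n)`, `N = ∑ c` -/
theorem card_tab_le {m n : ℕ} (r : Fin m → ℕ) (c : Fin n → ℕ) :
    (tab r c).card ≤ (∑ l, c l + 1) ^ (m * n) := by
  have h1 : (tab r c).card ≤ (Fintype.piFinset fun _ : Fin m => Fintype.piFinset fun l : Fin n =>
      range (c l + 1)).card := by
    apply card_le_card
    intro X hX
    have hc := (mem_tab.1 hX).2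
    simp only [Fintype.mem_piFinset, mem_range]
    intro i l
    have := single_le_sum (f := fun i => X i l) (fun _ _ => Nat.zero_le _) (mem_univ i)
    have h2 := hc l
    omega
  refine le_trans h1 ?_
  rw [Fintype.card_piFinset]
  simp only [Fintype.card_piFinset, card_range]
  calc ∏ _i : Fin m, ∏ l : Fin n, (c l + 1) ≤ ∏ _i : Fin m, ∏ _l : Fin n, (∑ l, c l + 1) := by
        apply prod_le_prod' fun i _ => prod_le_prod' fun l _ => ?_
        have := single_le_sum (f := c) (fun _ _ => Nat.zero_le _) (mem_univ l)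
        omega
    _ = (∑ l, c l + 1) ^ (m * n) := by
        simp only [prod_const, card_univ, Fintype.card_fin]
        rw [← pow_mul, mul_comm]

/-- lower bound for the weight: each factor is at least `1/(N+2)²` (`Twin ≤ c l ≤ N`, value at
`z ≥ 0` at least `phi T 0 = 2/((1+T)(2+T))`) -/
theorem tw_lower {m n : ℕ} (r : Fin m → ℕ) (c : Fin n → ℕ) (o : Fin m) (A : ℕ)
    (X : Fin m → Fin n → ℕ) :
    1 / ((∑ l, c l : ℕ) + 2 : ℝ) ^ (2 * (m * n)) ≤ tw (tau A r c o) X := by
  set N : ℕ := ∑ l, c l with hN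
  have hN0 : (0 : ℝ) ≤ N := Nat.cast_nonneg _
  have hcell : ∀ k l, 1 / ((N : ℝ) + 2) ^ 2 ≤ phi (tau A r c o k l) (X k l) := by
    intro k l
    have hT : tau A r c o k l ≤ N :=
      le_trans (tau_le A r c o k l) (single_le_sum (f := c) (fun _ _ => Nat.zero_le _) (mem_univ l))
    have hT' : (tau A r c o k l : ℝ) ≤ N := by exact_mod_cast hT
    have hT0 : (0 : ℝ) ≤ (tau A r c o k l : ℝ) := Nat.cast_nonneg _
    refine le_trans ?_ (phi_mono (tau A r c o k l) (Nat.zero_le _))
    unfold phi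
    rw [div_le_div_iff₀ (by positivity) (by positivity)]
    push_cast
    nlinarith
  have h1 : 1 / ((N : ℝ) + 2) ^ (2 * (m * n)) = ∏ _k : Fin m, ∏ _l : Fin n, 1 / ((N : ℝ) + 2) ^ 2 := by
    simp only [prod_const, card_univ, Fintype.card_fin]
    rw [← pow_mul, one_div, one_div, inv_pow, ← pow_mul]
    congr 2
    ring
  rw [h1]
  unfold tw
  apply prod_le_prod
  · intro k _
    exact prod_nonneg fun l _ => by positivity
  · intro k _
    exact prod_le_prod (fun l _ => by positivity) fun l _ => hcell k l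

theorem tw_le_one {m n : ℕ} (τ : Fin m → Fin n → ℕ) (X : Fin m → Fin n → ℕ) : tw τ X ≤ 1 := by
  unfold tw
  apply prod_le_one
  · intro k _
    exact prod_nonneg fun l _ => (phi_pos _ _).le
  · intro k _
    exact prod_le_one (fun l _ => (phi_pos _ _).le) fun l _ => phi_le_one _ _

end Vale.Agent.Lib.P328
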