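import Vale.Agent.Lib.P328.Defs

/-!
P328, module Evar: general facts on expected conditional variances.
-/

namespace Vale.Agent.Lib.P328

open Finset

variable {α β : Type} [DecidableEq α] [DecidableEq β]

/-- mean of one class -/
private noncomputable def Evar_cb (S : Finset α) (w : α → ℝ) (π : α → β) (F : α → ℝ) (b : β) : ℝ :=
  (∑ Y ∈ S.filter fun Y => π Y = b, w Y * F Y) / ∑ Y ∈ S.filter fun Y => π Y = b, w Y

omit [DecidableEq α] in
private theorem Evar_cexp (S : Finset α) (w : α → ℝ) (π : α → β) (F : α → ℝ) (X : α) :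
    cexp S w π F X = Evar_cb S w π F (π X) := rfl

omit [DecidableEq α] in
private theorem Evar_fiber (S : Finset α) (π : α → β) (h : α → ℝ) :
    ∑ X ∈ S, h X = ∑ b ∈ S.image π, ∑ X ∈ S.filter (fun X => π X = b), h X :=
  (Finset.sum_fiberwise_of_maps_to (fun _ hx => Finset.mem_image_of_mem π hx) h).symm

omit [DecidableEq α] in
private theorem Evar_pos (S : Finset α) (w : α → ℝ) (hw : ∀ x ∈ S, 0 < w x) (π : α → β) {b : β}
    (hb : b ∈ S.image π) : 0 < ∑ X ∈ S.filter (fun X => π X = b), w X := by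
  obtain ⟨X, hX, hXb⟩ := Finset.mem_image.mp hb
  apply Finset.sum_pos
  · intro x hx
    exact hw x (Finset.mem_filter.mp hx).1
  · exact ⟨X, Finset.mem_filter.mpr ⟨hX, hXb⟩⟩

omit [DecidableEq α] in
private theorem Evar_var (T : Finset α) (w : α → ℝ) (F : α → ℝ) (hW : ∑ X ∈ T, w X ≠ 0) :
    ∑ X ∈ T, w X * (F X - (∑ Y ∈ T, w Y * F Y) / ∑ Y ∈ T, w Y) ^ 2 =
      ∑ X ∈ T, w X * F X ^ 2 - (∑ Y ∈ T, w Y * F Y) ^ 2 / ∑ Y ∈ T, w Y := by
  set W := ∑ Y ∈ T, w Y with hWdef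
  set A := ∑ Y ∈ T, w Y * F Y with hA
  have h1 : ∀ X ∈ T, w X * (F X - A / W) ^ 2 =
      w X * F X ^ 2 - 2 * (A / W) * (w X * F X) + (A / W) ^ 2 * w X := fun X _ => by ring
  rw [Finset.sum_congr rfl h1, Finset.sum_add_distrib, Finset.sum_sub_distrib, ← Finset.mul_sum,
    ← Finset.mul_sum, ← hA, ← hWdef]
  field_simp
  ring

omit [DecidableEq α] in
private theorem Evar_double (T : Finset α) (w : α → ℝ) (F : α → ℝ) :
    ∑ X ∈ T, ∑ Y ∈ T, w X * w Y * (F X - F Y) ^ 2 =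
      2 * ((∑ Y ∈ T, w Y) * ∑ X ∈ T, w X * F X ^ 2 - (∑ Y ∈ T, w Y * F Y) ^ 2) := by
  have h1 : ∀ X ∈ T, ∑ Y ∈ T, w X * w Y * (F X - F Y) ^ 2 =
      (∑ Y ∈ T, w Y) * (w X * F X ^ 2) - 2 * (∑ Y ∈ T, w Y * F Y) * (w X * F X) +
        (∑ Y ∈ T, w Y * F Y ^ 2) * w X := by
    intro X _
    rw [Finset.sum_mul, Finset.sum_mul, Finset.mul_sum, Finset.sum_mul, ← Finset.sum_sub_distrib,
      ← Finset.sum_add_distrib]
    apply Finset.sum_congr rfl
    intro Y _
    ring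
  rw [Finset.sum_congr rfl h1, Finset.sum_add_distrib, Finset.sum_sub_distrib, ← Finset.mul_sum,
    ← Finset.mul_sum, ← Finset.mul_sum]
  ring

theorem evar_nonneg (S : Finset α) (w : α → ℝ) (hw : ∀ x ∈ S, 0 < w x) (π : α → β) (F : α → ℝ) :
    0 ≤ evar S w π F :=
  Finset.sum_nonneg fun x hx => mul_nonneg (hw x hx).le (sq_nonneg _)

/-- `F - cexp F` is orthogonal to functions of the label -/
theorem cexp_orth (S : Finset α) (w : α → ℝ) (hw : ∀ x ∈ S, 0 < w x) (π : α → β) (F : α → ℝ)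
    (g : β → ℝ) : ∑ X ∈ S, w X * (g (π X) * (F X - cexp S w π F X)) = 0 := by
  rw [Evar_fiber S π]
  apply Finset.sum_eq_zero
  intro b hb
  have hW := Evar_pos S w hw π hb
  have h1 : ∀ X ∈ S.filter (fun X => π X = b), w X * (g (π X) * (F X - cexp S w π F X)) =
      g b * (w X * F X - Evar_cb S w π F b * w X) := by
    intro X hX
    rw [Evar_cexp, (Finset.mem_filter.mp hX).2]
    ring
  rw [Finset.sum_congr rfl h1, ← Finset.mul_sum, Finset.sum_sub_distrib, ← Finset.mul_sum]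
  unfold Evar_cb
  rw [div_mul_cancel₀ _ hW.ne', sub_self, mul_zero]

/-- variational characterisation -/
theorem evar_le (S : Finset α) (w : α → ℝ) (hw : ∀ x ∈ S, 0 < w x) (π : α → β) (F : α → ℝ)
    (g : β → ℝ) : evar S w π F ≤ ∑ X ∈ S, w X * (F X - g (π X)) ^ 2 := by
  have h1 := cexp_orth S w hw π F (fun b => Evar_cb S w π F b - g b)
  have h2 : ∑ X ∈ S, w X * (F X - g (π X)) ^ 2 = evar S w π F +
      2 * ∑ X ∈ S, w X * ((fun b => Evar_cb S w π F b - g b) (π X) * (F X - cexp S w π F X)) +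
      ∑ X ∈ S, w X * (cexp S w π F X - g (π X)) ^ 2 := by
    unfold evar
    rw [Finset.mul_sum, ← Finset.sum_add_distrib, ← Finset.sum_add_distrib]
    apply Finset.sum_congr rfl
    intro X _
    rw [Evar_cexp]
    ring
  rw [h2, h1]
  have h3 : 0 ≤ ∑ X ∈ S, w X * (cexp S w π F X - g (π X)) ^ 2 :=
    Finset.sum_nonneg fun x hx => mul_nonneg (hw x hx).le (sq_nonneg _)
  linarith

/-- the class of one label: `∑_{class} w (F - cexp F)² = (1/2W) ∑_{Y,Y'} w w' (F - F')²` -/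
theorem class_var (S : Finset α) (w : α → ℝ) (hw : ∀ x ∈ S, 0 < w x) (π : α → β) (F : α → ℝ)
    (b : β) :
    ∑ X ∈ S.filter (fun X => π X = b), w X * (F X - cexp S w π F X) ^ 2 =
      (∑ X ∈ S.filter (fun X => π X = b), ∑ Y ∈ S.filter (fun X => π X = b),
        w X * w Y * (F X - F Y) ^ 2) / (2 * ∑ X ∈ S.filter (fun X => π X = b), w X) := by
  by_cases hb : b ∈ S.image π
  · have hW := Evar_pos S w hw π hb
    have h1 : ∀ X ∈ S.filter (fun X => π X = b), w X * (F X - cexp S w π F X) ^ 2 =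
        w X * (F X - (∑ Y ∈ S.filter (fun X => π X = b), w Y * F Y) /
          ∑ Y ∈ S.filter (fun X => π X = b), w Y) ^ 2 := by
      intro X hX
      rw [Evar_cexp, (Finset.mem_filter.mp hX).2]
      rfl
    rw [Finset.sum_congr rfl h1, Evar_var _ w F hW.ne', Evar_double]
    field_simp
  · have h1 : S.filter (fun X => π X = b) = ∅ := by
      rw [Finset.filter_eq_empty_iff]
      intro X hX hXb
      exact hb (Finset.mem_image.mpr ⟨X, hX, hXb⟩)
    rw [h1]
    simp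

theorem evar_eq_sum (S : Finset α) (w : α → ℝ) (π : α → β) (F : α → ℝ) :
    evar S w π F = ∑ b ∈ S.image π, ∑ X ∈ S.filter (fun X => π X = b),
      w X * (F X - cexp S w π F X) ^ 2 :=
  Evar_fiber S π _

/-- the constant label: variance -/
theorem evar_unit (S : Finset α) (w : α → ℝ) (F : α → ℝ) :
    evar S w (fun _ => ()) F = ∑ X ∈ S, w X * (F X - (∑ Y ∈ S, w Y * F Y) / ∑ Y ∈ S, w Y) ^ 2 := by
  unfold evar cexp
  simp only [Finset.filter_true]

/-- Pythagoras for the mean -/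
theorem evar_unit_eq (S : Finset α) (w : α → ℝ) (hw : ∀ x ∈ S, 0 < w x) (hS : S.Nonempty)
    (F : α → ℝ) :
    evar S w (fun _ => ()) F =
      ∑ X ∈ S, w X * F X ^ 2 - (∑ Y ∈ S, w Y * F Y) ^ 2 / ∑ Y ∈ S, w Y := by
  rw [evar_unit, Evar_var S w F (Finset.sum_pos hw hS).ne']

end Vale.Agent.Lib.P328
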