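import Vale.Agent.Lib.P328.StarFibre
import Vale.Agent.Lib.P328.Conn
import Vale.Agent.Lib.P328.Evar
import Vale.Agent.Lib.P328.AbsPoincare

/-!
P328, module StarPoincare: the Poincaré inequality for the star block dynamics.
-/

namespace Vale.Agent.Lib.P328

open Finset

variable {I J : Type} [Fintype I] [DecidableEq I] [Fintype J] [DecidableEq J]

/-- extension by zero -/
noncomputable def StarPoincare_ext {α : Type} [DecidableEq α] (S : Finset α)
    (F : {x // x ∈ S} → ℝ) : α → ℝ := fun X => if h : X ∈ S then F ⟨X, h⟩ else 0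

theorem StarPoincare_ext_val {α : Type} [DecidableEq α] (S : Finset α)
    (F : {x // x ∈ S} → ℝ) (x : {x // x ∈ S}) : StarPoincare_ext S F x.1 = F x := by
  unfold StarPoincare_ext
  rw [dif_pos x.2]

theorem StarPoincare_sum {α : Type} [DecidableEq α] (S : Finset α) (g : α → ℝ) :
    ∑ x : {x // x ∈ S}, g x.1 = ∑ x ∈ S, g x := Finset.sum_coe_sort S g

omit [Fintype I] in
theorem StarPoincare_one (τ : I → J → ℕ) (o k : I) (X : I → J → ℕ) :
    LK τ o k (fun _ => 1) X = 0 := by
  unfold LK
  refine sum_eq_zero fun l _ => ?_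
  have hQ : QQ (τ k) (X k + e l) ≠ 0 := by
    apply ne_of_gt
    apply QQ_pos
    intro h
    have := congrFun h l
    simp only [Pi.add_apply, e_same, Pi.zero_apply] at this
    omega
  have hD : DK τ o k (fun _ => (1 : ℝ)) X l = 1 := by
    unfold DK
    simp only [mul_one]
    exact div_self hQ
  rw [hD]
  ring

theorem StarPoincare_erase (o : I) (f : I → ℝ) :
    ∑ k : {k // k ≠ o}, f k.1 = ∑ k ∈ univ.erase o, f k := by
  symm
  apply Finset.sum_subtype
  intro x
  simp

theorem StarPoincare_cexp {α β : Type} [DecidableEq β] (S : Finset α) (w : α → ℝ) (π : α → β)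
    {F G : α → ℝ} (h : ∀ X ∈ S, F X = G X) (X : α) : cexp S w π F X = cexp S w π G X := by
  unfold cexp
  congr 1
  refine sum_congr rfl fun Y hY => ?_
  rw [h Y (mem_filter.1 hY).1]

/-- Proof: `abs_poincare` on the subtype `{X // X ∈ tab r c}` with `L k = LK τ o k` (functions
extended by zero, `LK_congr`), index type `{k // k ≠ o}`, `E k = cexp (tab r c) (tw τ) (piK o k)`;
`hE` is `LK_orth` (`cexp` is a function of the label), `hker`: `LK_symm`, `LK_nonneg`, `LK_zero`,
`conn`; `hC` is `star_block`. -/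
theorem star_poincare {τ : I → J → ℕ} {r : I → ℕ} {c : J → ℕ} {o : I} {K : ℕ}
    (hadm : Adm τ r c o K) {H : ℝ} (hH1 : 1 ≤ H)
    (hH : ∀ k, k ≠ o → ∑ i ∈ range (r k + 2), 1 / ((i : ℝ) + 1) ≤ H)
    (f : (I → J → ℕ) → ℝ) :
    evar (tab r c) (tw τ) (fun _ => ()) f ≤
      (1 + 10 ^ 24 * (Fintype.card J : ℝ) ^ 2 * (K : ℝ) ^ 3 * H) *
        ∑ k ∈ univ.erase o, evar (tab r c) (tw τ) (piK o k) f := by
  set S := tab r c with hS
  set C : ℝ := 1 + 10 ^ 24 * (Fintype.card J : ℝ) ^ 2 * (K : ℝ) ^ 3 * H with hC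
  have hK0 : (0 : ℝ) ≤ (K : ℝ) := Nat.cast_nonneg _
  have hC0 : 0 ≤ C := by rw [hC]; positivity
  have hlinE : ∀ (a b : ℝ) (F G : {x // x ∈ S} → ℝ),
      StarPoincare_ext S (fun y => a * F y + b * G y) =
        fun y => a * StarPoincare_ext S F y + b * StarPoincare_ext S G y := by
    intro a b F G
    funext X
    unfold StarPoincare_ext
    by_cases h : X ∈ S
    · simp only [dif_pos h]
    · simp only [dif_neg h]; ring
  have main := abs_poincare (α := {x // x ∈ S}) (ι := {k // k ≠ o})
    (fun x => tw τ x.1) (fun x => tw_pos τ x.1)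
    (fun k F x => LK τ o k.1 (StarPoincare_ext S F) x.1)
    (by
      intro k a b F G x
      rw [hlinE]
      exact LK_linear τ o k.1 a b _ _ x.1)
    (by
      intro k F G
      have h := LK_symm τ r c k.2 (StarPoincare_ext S F) (StarPoincare_ext S G)
      rw [← hS] at h
      rw [← StarPoincare_sum S, ← StarPoincare_sum S] at h
      simpa only [StarPoincare_ext_val] using h)
    (by
      intro k x
      have h := LK_congr τ (r := r) (c := c) k.2
        (F := StarPoincare_ext S (fun _ => 1)) (G := fun _ => 1) (fun X hX => by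
          unfold StarPoincare_ext
          rw [dif_pos hX]) x.1 x.2
      rw [h]
      exact StarPoincare_one τ o k.1 x.1)
    (by
      intro F hF x y
      set G := StarPoincare_ext S F with hG
      have h0 : ∑ k ∈ univ.erase o, ∑ X ∈ S, tw τ X * (G X * LK τ o k G X) = 0 := by
        rw [sum_comm, ← StarPoincare_sum S]
        refine sum_eq_zero fun X _ => ?_
        have h1 := hF X
        rw [StarPoincare_erase o (fun k => LK τ o k G X.1)] at h1
        rw [← mul_sum, ← mul_sum, h1]
        ring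
      have h1 : ∀ k ∈ univ.erase o, ∑ X ∈ S, tw τ X * (G X * LK τ o k G X) = 0 := by
        apply (sum_eq_zero_iff_of_nonneg _).1 h0
        intro k hk
        exact LK_nonneg τ r c (mem_erase.1 hk).1 G
      have h2 := conn (r := r) (c := c) (o := o) hadm.dom G (fun k hk X hX l a hl ha =>
        LK_zero τ r c hk G (h1 k (mem_erase.2 ⟨hk, mem_univ k⟩)) X hX l a hl ha) x.1 x.2 y.1 y.2
      rw [hG, StarPoincare_ext_val, StarPoincare_ext_val] at h2
      exact h2)
    (fun k f x => cexp S (tw τ) (piK o k.1) (StarPoincare_ext S f) x.1)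
    (by
      intro k f F
      have h := LK_orth τ r c k.2 (StarPoincare_ext S F)
        (fun b => (∑ Y ∈ S.filter fun Y => piK o k.1 Y = b, tw τ Y * StarPoincare_ext S f Y) /
          ∑ Y ∈ S.filter fun Y => piK o k.1 Y = b, tw τ Y)
      rw [← hS, ← StarPoincare_sum S] at h
      exact h)
    hC0
    (by
      intro F
      have h := star_block hadm hH1 hH (StarPoincare_ext S F)
      rw [← hS, ← hC] at h
      rw [← StarPoincare_erase o
        (fun k => ∑ X ∈ S, tw τ X * LK τ o k (StarPoincare_ext S F) X ^ 2)] at h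
      rw [← StarPoincare_sum S (fun X => tw τ X * (∑ k ∈ univ.erase o,
        LK τ o k (StarPoincare_ext S F) X) ^ 2)] at h
      have e1 : ∀ k : {k // k ≠ o}, ∑ X ∈ S, tw τ X * LK τ o k.1 (StarPoincare_ext S F) X ^ 2 =
          ∑ x : {x // x ∈ S}, tw τ x.1 * LK τ o k.1 (StarPoincare_ext S F) x.1 ^ 2 := by
        intro k
        rw [StarPoincare_sum S (fun X => tw τ X * LK τ o k.1 (StarPoincare_ext S F) X ^ 2)]
      have e2 : ∀ x : {x // x ∈ S}, ∑ k ∈ univ.erase o, LK τ o k (StarPoincare_ext S F) x.1 =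
          ∑ k : {k // k ≠ o}, LK τ o k.1 (StarPoincare_ext S F) x.1 := by
        intro x
        rw [StarPoincare_erase o (fun k => LK τ o k (StarPoincare_ext S F) x.1)]
      simp only [e1, e2] at h
      exact h)
    (fun x => f x.1)
  have hf : ∀ X ∈ S, StarPoincare_ext S (fun x => f x.1) X = f X := by
    intro X hX
    unfold StarPoincare_ext
    rw [dif_pos hX]
  have e0 : ∑ y : {x // x ∈ S}, tw τ y.1 * f y.1 = ∑ y ∈ S, tw τ y * f y :=
    StarPoincare_sum S (fun X => tw τ X * f X)
  have e1 : ∑ y : {x // x ∈ S}, tw τ y.1 = ∑ y ∈ S, tw τ y := StarPoincare_sum S (tw τ)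
  rw [evar_unit]
  rw [← StarPoincare_sum S (fun X => tw τ X *
    (f X - (∑ Y ∈ S, tw τ Y * f Y) / ∑ Y ∈ S, tw τ Y) ^ 2), ← e0, ← e1]
  refine le_trans main (le_of_eq ?_)
  congr 1
  rw [← StarPoincare_erase o (fun k => evar S (tw τ) (piK o k) f)]
  refine sum_congr rfl fun k _ => ?_
  unfold evar
  rw [← StarPoincare_sum S (fun X => tw τ X * (f X - cexp S (tw τ) (piK o k.1) f X) ^ 2)]
  refine sum_congr rfl fun x _ => ?_
  rw [StarPoincare_cexp S (tw τ) (piK o k.1) hf x.1]

end Vale.Agent.Lib.P328
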