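import Vale.Agent.Lib.P328.ChainDefs
import Vale.Agent.Lib.P328.Inject
import Vale.Agent.Lib.P328.Phi

/-!
P328, module TVclose: the weighted law is close to the uniform law.
-/

namespace Vale.Agent.Lib.P328

open Finset

/-- number of tables with a small entry -/
theorem card_lt_scale {m n : ℕ} (r : Fin m → ℕ) (c : Fin n → ℕ) (k : Fin m) (l : Fin n) (t : ℕ)
    (ht : 2 * t ≤ min (r k) (c l)) :
    ((tab r c).filter fun X => X k l < t).card * min (r k) (c l) ≤
      t * (2 * (m + n) * (m * n * (tab r c).card)) := by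
  set M := min (r k) (c l) with hM
  set S := M / (2 * (m + n)) with hS
  have hcell : ∀ x ∈ range t, ((tab r c).filter fun X => X k l = x).card * (S + 1) ≤
      m * n * (tab r c).card := by
    intro x hx
    rw [mem_range] at hx
    have h := card_cell_min r c k l x (by rw [← hM]; omega)
    simp only [Fintype.card_fin] at h
    exact h
  have hsum : ((tab r c).filter fun X => X k l < t).card =
      ∑ x ∈ range t, ((tab r c).filter fun X => X k l = x).card := by
    rw [card_eq_sum_card_fiberwise (f := fun X => X k l) (t := range t)]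
    · apply sum_congr rfl
      intro x hx
      rw [mem_range] at hx
      congr 1
      rw [filter_filter]
      apply filter_congr
      intro X _
      constructor
      · exact fun h => h.2
      · exact fun h => ⟨by omega, h⟩
    · intro X hX
      simpa using (mem_filter.1 hX).2
  have h1 : ((tab r c).filter fun X => X k l < t).card * (S + 1) ≤
      t * (m * n * (tab r c).card) := by
    rw [hsum, sum_mul]
    calc _ ≤ ∑ _x ∈ range t, m * n * (tab r c).card := sum_le_sum hcell
      _ = _ := by rw [sum_const, card_range, smul_eq_mul]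
  have hm : 0 < m := by have := k.2; omega
  have h2 : M ≤ 2 * (m + n) * (S + 1) := (Nat.lt_mul_div_succ M (by omega)).le
  calc _ ≤ ((tab r c).filter fun X => X k l < t).card * (2 * (m + n) * (S + 1)) :=
        Nat.mul_le_mul_left _ h2
    _ = 2 * (m + n) * (((tab r c).filter fun X => X k l < t).card * (S + 1)) := by ring
    _ ≤ 2 * (m + n) * (t * (m * n * (tab r c).card)) := Nat.mul_le_mul_left _ h1
    _ = _ := by ring

/-- one cell: `∑_X (1 - phi T (X k l)) ≤ #tab / (8 A m n)` for `T = tau A r c o k l`.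
Proof: if `T = 0` the left side is `0`.  If `T ≥ 1` then `r o ≤ 16 n r k` and, with
`M = min (r k) (c l)`, `T * Qsc m n A ≤ M` (`r o / (16 n) ≤ r k`).  Put `R = 32 m n A`, `x₀ = R T`
(`2 x₀ ≤ M` because `2 R ≤ Qsc`).  `1 - phi T x ≤ 1` for `x < x₀` and `≤ 2T/x₀ = 2/R` for `x ≥ x₀`
(`one_sub_phi_le`).  By `card_cell_min` (of `Inject`) summed over `x < x₀`,
`#{X k l < x₀} ≤ R T 2 (m+n) m n / M * #tab ≤ 2 R (m+n) m n / Qsc * #tab ≤ #tab/(16 A m n)`, and
`2/R = 1/(16 A m n)`. -/
theorem cell_close {m n : ℕ} (r : Fin m → ℕ) (c : Fin n → ℕ) (o k : Fin m) (l : Fin n) {A : ℕ}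
    (hA : 1 ≤ A) :
    ∑ X ∈ tab r c, (1 - phi (tau A r c o k l) (X k l)) ≤
      ((tab r c).card : ℝ) / (8 * A * m * n) := by
  have hm : 0 < m := by have := k.2; omega
  have hn : 0 < n := by have := l.2; omega
  have hmn : 0 < m * n := Nat.mul_pos hm hn
  set T := tau A r c o k l with hT
  rcases Nat.eq_zero_or_pos T with h0 | h0
  · rw [h0]
    simp only [phi_zero, sub_self, sum_const_zero]
    positivity
  -- the window is small
  have hTQ : T * Qsc m n A ≤ min (r k) (c l) := by
    have h1 : r o ≤ 16 * n * r k := by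
      by_contra hcon
      have : T = 0 := by
        rw [hT]
        unfold tau
        rw [if_neg hcon]
      omega
    have h2 : T = min (c l) (r o / (16 * n)) / Qsc m n A := by
      rw [hT]
      unfold tau Twin
      rw [if_pos h1]
    have h3 : T * Qsc m n A ≤ min (c l) (r o / (16 * n)) := by
      rw [h2]
      exact Nat.div_mul_le_self _ _
    have h4 : r o / (16 * n) ≤ r k := by
      apply Nat.div_le_of_le_mul
      exact h1
    have h5 := min_le_left (c l) (r o / (16 * n))
    have h6 := min_le_right (c l) (r o / (16 * n))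
    exact le_min (by omega) (by omega)
  set L := ((tab r c).filter fun X => X k l < 32 * (m * n) * A * T).card with hL
  have hQ : 2 * (32 * (m * n) * A) ≤ Qsc m n A := by
    unfold Qsc
    have e1 : m * n ≤ (m * n) ^ 4 := Nat.le_self_pow (by norm_num) _
    have e2 : A ≤ A ^ 2 := Nat.le_self_pow (by norm_num) _
    have e3 : 1 ≤ m + n := by omega
    calc 2 * (32 * (m * n) * A) = 64 * (m * n) * 1 * A := by ring
      _ ≤ 1024 * (m * n) ^ 4 * (m + n) * A ^ 2 := by gcongr; norm_num
  have h2x : 2 * (32 * (m * n) * A * T) ≤ min (r k) (c l) := by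
    refine le_trans ?_ hTQ
    calc 2 * (32 * (m * n) * A * T) = T * (2 * (32 * (m * n) * A)) := by ring
      _ ≤ T * Qsc m n A := Nat.mul_le_mul_left _ hQ
  have hLM := card_lt_scale r c k l _ h2x
  rw [← hL] at hLM
  have hLb : L * (16 * (A * (m * n))) ≤ (tab r c).card := by
    have h1 : L * (T * Qsc m n A) ≤ 32 * (m * n) * A * T *
        (2 * (m + n) * (m * n * (tab r c).card)) := le_trans (Nat.mul_le_mul_left _ hTQ) hLM
    have h2 : (64 * (m + n) * (m * n) ^ 2 * A * T) * (L * (16 * (m * n) ^ 2 * A)) ≤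
        (64 * (m + n) * (m * n) ^ 2 * A * T) * (tab r c).card := by
      calc _ = L * (T * Qsc m n A) := by unfold Qsc; ring
        _ ≤ _ := h1
        _ = _ := by ring
    have hpos : 0 < 64 * (m + n) * (m * n) ^ 2 * A * T := by positivity
    have h3 := Nat.le_of_mul_le_mul_left h2 hpos
    refine le_trans ?_ h3
    apply Nat.mul_le_mul_left
    have e1 : m * n ≤ (m * n) ^ 2 := Nat.le_self_pow (by norm_num) _
    calc 16 * (A * (m * n)) = 16 * (m * n) * A := by ring
      _ ≤ 16 * (m * n) ^ 2 * A := by gcongr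
  -- split the sum
  have hsplit : ∑ X ∈ tab r c, (1 - phi T (X k l)) ≤
      (L : ℝ) + ((tab r c).card : ℝ) * (1 / (16 * (A * (m * n)))) := by
    have hAr : (0 : ℝ) < A := by exact_mod_cast hA
    have hmr : (0 : ℝ) < m := by exact_mod_cast hm
    have hnr : (0 : ℝ) < n := by exact_mod_cast hn
    have hTr : (0 : ℝ) < T := by exact_mod_cast h0
    have hpt : ∀ X ∈ tab r c, 1 - phi T (X k l) ≤
        (if X k l < 32 * (m * n) * A * T then 1 else 0) + 1 / (16 * (A * (m * n))) := by
      intro X _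
      by_cases hX : X k l < 32 * (m * n) * A * T
      · rw [if_pos hX]
        have h1 := phi_pos T (X k l)
        have h2 : (0 : ℝ) ≤ 1 / (16 * (A * (m * n))) := by positivity
        linarith
      · rw [if_neg hX, zero_add]
        refine le_trans (one_sub_phi_le T (X k l)) ?_
        have h1 : 32 * ((m : ℝ) * n) * A * T ≤ X k l := by
          have : 32 * (m * n) * A * T ≤ X k l := by omega
          exact_mod_cast this
        rw [div_le_div_iff₀ (by positivity) (by positivity)]
        have h2 : (0 : ℝ) ≤ T := hTr.le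
        nlinarith
    refine le_trans (sum_le_sum hpt) ?_
    rw [sum_add_distrib, sum_const, nsmul_eq_mul, ← sum_filter, sum_const, nsmul_eq_mul, mul_one]
  refine le_trans hsplit ?_
  have hAr : (0 : ℝ) < A := by exact_mod_cast hA
  have hmr : (0 : ℝ) < m := by exact_mod_cast hm
  have hnr : (0 : ℝ) < n := by exact_mod_cast hn
  have hLr : (L : ℝ) * (16 * (A * (m * n))) ≤ ((tab r c).card : ℝ) := by exact_mod_cast hLb
  have h1 : (L : ℝ) ≤ ((tab r c).card : ℝ) / (16 * (A * (m * n))) := by
    rw [le_div_iff₀ (by positivity)]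
    exact hLr
  calc (L : ℝ) + ((tab r c).card : ℝ) * (1 / (16 * (A * (m * n))))
      ≤ ((tab r c).card : ℝ) / (16 * (A * (m * n))) +
        ((tab r c).card : ℝ) * (1 / (16 * (A * (m * n)))) := by linarith
    _ = ((tab r c).card : ℝ) / (8 * A * m * n) := by
        field_simp
        ring

theorem one_sub_prod_le {ι : Type} (s : Finset ι) (x : ι → ℝ)
    (h : ∀ i ∈ s, 0 ≤ x i ∧ x i ≤ 1) : 1 - ∏ i ∈ s, x i ≤ ∑ i ∈ s, (1 - x i) := by
  classical
  induction s using Finset.induction_on with
  | empty => simp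
  | insert a s ha ih =>
    rw [prod_insert ha, sum_insert ha]
    have h1 := ih fun i hi => h i (mem_insert_of_mem hi)
    have h2 := h a (mem_insert_self a s)
    have h3 : 0 ≤ ∏ i ∈ s, x i := prod_nonneg fun i hi => (h i (mem_insert_of_mem hi)).1
    have h4 : ∏ i ∈ s, x i ≤ 1 := prod_le_one (fun i hi => (h i (mem_insert_of_mem hi)).1)
      fun i hi => (h i (mem_insert_of_mem hi)).2
    nlinarith [mul_nonneg (sub_nonneg.2 h2.2) (sub_nonneg.2 h4)]

/-- all cells: `1 - ∏ φ ≤ ∑ (1 - φ)` -/
theorem tw_close {m n : ℕ} (r : Fin m → ℕ) (c : Fin n → ℕ) (o : Fin m) (hn : 1 ≤ n) {A : ℕ}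
    (hA : 1 ≤ A) :
    ∑ X ∈ tab r c, (1 - tw (tau A r c o) X) ≤ ((tab r c).card : ℝ) / (8 * A) := by
  have hm : 0 < m := by have := o.2; omega
  have hAr : (0 : ℝ) < A := by exact_mod_cast hA
  have hmr : (0 : ℝ) < m := by exact_mod_cast hm
  have hnr : (0 : ℝ) < n := by exact_mod_cast hn
  have hpt : ∀ X ∈ tab r c, 1 - tw (tau A r c o) X ≤
      ∑ k, ∑ l, (1 - phi (tau A r c o k l) (X k l)) := by
    intro X _
    unfold tw
    have hrow : ∀ k ∈ (univ : Finset (Fin m)),
        0 ≤ ∏ l, phi (tau A r c o k l) (X k l) ∧ ∏ l, phi (tau A r c o k l) (X k l) ≤ 1 :=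
      fun k _ => ⟨prod_nonneg fun l _ => (phi_pos _ _).le,
        prod_le_one (fun l _ => (phi_pos _ _).le) fun l _ => phi_le_one _ _⟩
    refine le_trans (one_sub_prod_le univ _ hrow) ?_
    apply sum_le_sum
    intro k _
    exact one_sub_prod_le univ _ fun l _ => ⟨(phi_pos _ _).le, phi_le_one _ _⟩
  refine le_trans (sum_le_sum hpt) ?_
  rw [sum_comm]
  rw [sum_congr rfl fun k _ => sum_comm]
  calc ∑ k : Fin m, ∑ l : Fin n, ∑ X ∈ tab r c, (1 - phi (tau A r c o k l) (X k l))
      ≤ ∑ _k : Fin m, ∑ _l : Fin n, ((tab r c).card : ℝ) / (8 * A * m * n) :=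
        sum_le_sum fun k _ => sum_le_sum fun l _ => cell_close r c o k l hA
    _ = ((tab r c).card : ℝ) / (8 * A) := by
        simp only [sum_const, card_univ, Fintype.card_fin, nsmul_eq_mul]
        field_simp

/-- Total variation distance: for `0 ≤ f ≤ 1`, `δ = avg (1 - tw) ≤ 1/(8A)`:
`avg (tw f) / avg tw - avg f` is at most `δ/(1-δ)` and at least `-δ`. -/
theorem tv_close {m n : ℕ} (r : Fin m → ℕ) (c : Fin n → ℕ) (o : Fin m) (hn : 1 ≤ n) {A : ℕ}
    (hA : 1 ≤ A) (hne : (tab r c).Nonempty) (f : (Fin m → Fin n → ℕ) → ℝ)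
    (hf : ∀ X, 0 ≤ f X ∧ f X ≤ 1) :
    |(∑ X ∈ tab r c, tw (tau A r c o) X * f X) / (∑ X ∈ tab r c, tw (tau A r c o) X) -
        (∑ X ∈ tab r c, f X) / ((tab r c).card : ℝ)| ≤ 1 / (2 * A) := by
  have hAr : (1 : ℝ) ≤ A := by exact_mod_cast hA
  have hclose := tw_close r c o hn hA
  set τ := tau A r c o with hτ
  have hN : (0 : ℝ) < ((tab r c).card : ℝ) := by exact_mod_cast hne.card_pos
  have htw0 : ∀ X : Fin m → Fin n → ℕ, 0 ≤ tw τ X := fun X =>
    prod_nonneg fun k _ => prod_nonneg fun l _ => (phi_pos _ _).le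
  have htw1 : ∀ X : Fin m → Fin n → ℕ, tw τ X ≤ 1 := fun X =>
    prod_le_one (fun k _ => prod_nonneg fun l _ => (phi_pos _ _).le) fun k _ =>
      prod_le_one (fun l _ => (phi_pos _ _).le) fun l _ => phi_le_one _ _
  set N : ℝ := ((tab r c).card : ℝ) with hNdef
  set W : ℝ := ∑ X ∈ tab r c, tw τ X with hW
  set a : ℝ := ∑ X ∈ tab r c, tw τ X * f X with ha
  set b : ℝ := ∑ X ∈ tab r c, f X with hb
  set D : ℝ := ∑ X ∈ tab r c, (1 - tw τ X) with hD
  have hDN : D = N - W := by
    rw [hD, sum_sub_distrib, sum_const, nsmul_eq_mul, mul_one]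
  have hD0 : 0 ≤ D := sum_nonneg fun X _ => sub_nonneg.2 (htw1 X)
  have hba : b - a ≤ D := by
    rw [hb, ha, hD, ← sum_sub_distrib]
    apply sum_le_sum
    intro X _
    have h1 := hf X
    have h2 := htw1 X
    nlinarith [mul_nonneg (sub_nonneg.2 h2) (sub_nonneg.2 h1.2)]
  have hab : a ≤ b := by
    apply sum_le_sum
    intro X _
    have h1 := hf X
    have h2 := htw1 X
    nlinarith
  have ha0 : 0 ≤ a := sum_nonneg fun X _ => mul_nonneg (htw0 X) (hf X).1
  have hbN : b ≤ N := by
    calc b ≤ ∑ _X ∈ tab r c, (1 : ℝ) := sum_le_sum fun X _ => (hf X).2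
      _ = N := by rw [sum_const, nsmul_eq_mul, mul_one]
  have hD8 : D * (8 * A) ≤ N := by
    have := (le_div_iff₀ (by positivity)).1 hclose
    exact this
  have hDle : D ≤ N / 8 := by
    rw [le_div_iff₀ (by norm_num)]
    nlinarith
  have hWpos : 0 < W := by linarith
  have hWN : W ≤ N := by linarith
  rw [abs_le]
  constructor
  · -- lower bound
    have h1 : a / N ≤ a / W := div_le_div_of_nonneg_left ha0 hWpos hWN
    have h2 : -(1 / (2 * (A : ℝ))) ≤ a / N - b / N := by
      rw [← sub_div, neg_le, ← neg_div, neg_sub, div_le_div_iff₀ hN (by positivity)]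
      nlinarith
    linarith
  · have h1 : a / W - b / N ≤ b / W - b / N := by
      have : a / W ≤ b / W := div_le_div_of_nonneg_right hab hWpos.le
      linarith
    have h2 : b / W - b / N ≤ 1 / (2 * (A : ℝ)) := by
      rw [div_sub_div _ _ hWpos.ne' hN.ne', div_le_div_iff₀ (mul_pos hWpos hN) (by positivity)]
      have h3 : b * N - W * b = b * D := by rw [hDN]; ring
      rw [h3]
      have h4 : b * D ≤ N * D := mul_le_mul_of_nonneg_right hbN hD0
      have h5 : N * D * (2 * A) ≤ N * (N / 4) := by nlinarith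
      nlinarith
    linarith

end Vale.Agent.Lib.P328
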