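import Vale.Agent.Lib.P328.ChainDefs
import Vale.Agent.Lib.P328.StarPoincare
import Vale.Agent.Lib.P328.EvarFibre
import Vale.Agent.Lib.P328.Metro
import Vale.Agent.Lib.P328.TVclose
import Vale.Agent.Lib.P328.Mixing
import Vale.Agent.Lib.P328.Params

/-!
P328, target of the analytic part.
-/

namespace Vale.Agent.Lib.P328

open Finset

/-- the spectral gap of the chain -/
theorem Core_gap {m n : ℕ} (r : Fin m → ℕ) (c : Fin n → ℕ) (o : Fin m) (A : ℕ) (hn : 1 ≤ n)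
    (hA : 1 ≤ A) (hdom : ∀ k, k ≠ o → r k + 2 ≤ r o) (hN : ∀ k, r k ≤ ∑ l, c l)
    (f : (Fin m → Fin n → ℕ) → ℝ) :
    1 / (39366 * (m * n ^ 2) * (1 + 10 ^ 24 * (n : ℝ) ^ 2 * (Ksc m n A : ℝ) ^ 3 *
        (Nat.size (∑ l, c l + 2) : ℝ))) *
      ∑ x ∈ tab r c, tw (tau A r c o) x * (f x - (∑ y ∈ tab r c, tw (tau A r c o) y * f y) /
        ∑ y ∈ tab r c, tw (tau A r c o) y) ^ 2 ≤
      ∑ x ∈ tab r c, tw (tau A r c o) x * (f x * (f x - Pop (tau A r c o) o f x)) := by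
  have hm : 0 < m := lt_of_le_of_lt (Nat.zero_le _) o.2
  have : Nonempty (Fin m) := ⟨o⟩
  have : Nonempty (Fin n) := ⟨⟨0, hn⟩⟩
  have hadm := adm_tau r c o hn hA hdom
  set τ := tau A r c o with hτ
  set H : ℝ := (Nat.size (∑ l, c l + 2) : ℝ) with hHdef
  have hH1 : 1 ≤ H := by
    have : 0 < Nat.size (∑ l, c l + 2) := Nat.size_pos.2 (by omega)
    rw [hHdef]
    exact_mod_cast this
  have hH : ∀ k, k ≠ o → ∑ i ∈ range (r k + 2), 1 / ((i : ℝ) + 1) ≤ H := by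
    intro k _
    refine le_trans (harmonic_le (r k + 2)) ?_
    rw [hHdef]
    have := hN k
    exact_mod_cast Nat.size_le_size (by omega)
  have h1 := star_poincare hadm hH1 hH f
  have h2 : ∑ k ∈ univ.erase o, evar (tab r c) (tw τ) (piK o k) f ≤
      ∑ k ∈ univ.erase o, ∑ l, ∑ l', evar (tab r c) (tw τ) (piL o k l l') f :=
    sum_le_sum fun k hk => evar_rows τ r c (mem_erase.1 hk).1 f
  have h3 := evar_le_Pop τ r c o f
  rw [evar_unit] at h1
  simp only [Fintype.card_fin] at h1 h3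
  set V := ∑ x ∈ tab r c, tw τ x * (f x - (∑ y ∈ tab r c, tw τ y * f y) /
        ∑ y ∈ tab r c, tw τ y) ^ 2 with hV
  set F := ∑ x ∈ tab r c, tw τ x * (f x * (f x - Pop τ o f x)) with hF
  set C : ℝ := 1 + 10 ^ 24 * (n : ℝ) ^ 2 * (Ksc m n A : ℝ) ^ 3 * H with hC
  have hC0 : 0 < C := by rw [hC]; positivity
  have hmn : (0 : ℝ) < 39366 * ((m : ℝ) * (n : ℝ) ^ 2) := by
    have h5 : (0 : ℝ) < m := by exact_mod_cast hm
    have h6 : (0 : ℝ) < n := by exact_mod_cast hn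
    positivity
  have h4 : V ≤ 39366 * ((m : ℝ) * (n : ℝ) ^ 2) * C * F := by
    calc V ≤ C * ∑ k ∈ univ.erase o, evar (tab r c) (tw τ) (piK o k) f := h1
      _ ≤ C * (39366 * ((m : ℝ) * (n : ℝ) ^ 2) * F) :=
          mul_le_mul_of_nonneg_left (le_trans h2 h3) hC0.le
      _ = _ := by ring
  rw [one_div, inv_mul_le_iff₀ (by positivity)]
  exact h4

/-- The chain is within total variation distance `1 / A` of the uniform law after `steps` steps,
if the centre row `o` is larger than every other row by at least two.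
Proof: `star_poincare` (with `adm_tau`, `H = Nat.size (N+2)`), `evar_rows`, `evar_le_Pop` give
the gap `lam`; `mixing` with `Pop_sympsd`, `Pop_one`; `numeric`, `card_tab_le`, `tw_lower`,
`tw_le_one`; `tv_close`. -/
theorem core : ∃ a : ℕ, ∀ (m n : ℕ) (r : Fin m → ℕ) (c : Fin n → ℕ) (o : Fin m) (A t : ℕ),
    1 ≤ n → 1 ≤ A → (∀ k, k ≠ o → r k + 2 ≤ r o) → steps a m n (∑ l, c l) A ≤ t →
    ∀ X ∈ tab r c, ∀ f : (Fin m → Fin n → ℕ) → ℝ, (∀ Y, 0 ≤ f Y ∧ f Y ≤ 1) →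
      |(Pop (tau A r c o) o)^[t] f X - (∑ Y ∈ tab r c, f Y) / ((tab r c).card : ℝ)| ≤
        1 / (A : ℝ) := by
  obtain ⟨a, ha⟩ := numeric
  refine ⟨a, ?_⟩
  intro m n r c o A t hn hA hdom ht X hX f hf
  have hm : 0 < m := lt_of_le_of_lt (Nat.zero_le _) o.2
  have : Nonempty (Fin m) := ⟨o⟩
  have : Nonempty (Fin n) := ⟨⟨0, hn⟩⟩
  have hAr : (0 : ℝ) < A := by exact_mod_cast hA
  have hN : ∀ k, r k ≤ ∑ l, c l := by
    intro k
    have h1 := mem_tab.1 hX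
    rw [← h1.1 k]
    refine sum_le_sum fun l _ => ?_
    rw [← h1.2 l]
    exact single_le_sum (f := fun i => X i l) (fun _ _ => Nat.zero_le _) (mem_univ k)
  obtain ⟨hl0, hl1, hsq⟩ := ha m n A (∑ l, c l) t _ hm hn hA ht rfl
  have hgap := Core_gap r c o A hn hA hdom hN
  set τ := tau A r c o with hτ
  set lam : ℝ := 1 / (39366 * (m * n ^ 2) * (1 + 10 ^ 24 * (n : ℝ) ^ 2 * (Ksc m n A : ℝ) ^ 3 *
        (Nat.size (∑ l, c l + 2) : ℝ))) with hlam
  have hmix := mixing (S := tab r c) (w := tw τ) (fun x _ => tw_pos τ x)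
    (Pop_sympsd τ r c o) (fun x _ => Pop_one τ o x) hl0.le hl1 hgap f (fun x _ => hf x) t X hX
  have htv := tv_close r c o hn hA ⟨X, hX⟩ f hf
  have hW : ∑ y ∈ tab r c, tw τ y ≤ (((∑ l, c l : ℕ) : ℝ) + 1) ^ (m * n) := by
    calc ∑ y ∈ tab r c, tw τ y ≤ ∑ _y ∈ tab r c, (1 : ℝ) :=
          sum_le_sum fun y _ => tw_le_one τ y
      _ = ((tab r c).card : ℝ) := by simp
      _ ≤ _ := by exact_mod_cast card_tab_le r c
  have hW0 : 0 ≤ ∑ y ∈ tab r c, tw τ y := sum_nonneg fun y _ => (tw_pos τ y).le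
  have hw : 1 / tw τ X ≤ (((∑ l, c l : ℕ) : ℝ) + 2) ^ (2 * (m * n)) := by
    have h1 := tw_lower r c o A X
    rw [← hτ] at h1
    have hp : (0 : ℝ) < (((∑ l, c l : ℕ) : ℝ) + 2) ^ (2 * (m * n)) := by positivity
    rw [div_le_iff₀ (tw_pos τ X)]
    rw [div_le_iff₀ hp] at h1
    linarith
  have hb : Real.sqrt ((1 - lam) ^ t * (∑ y ∈ tab r c, tw τ y) / tw τ X) ≤ 1 / (2 * A) := by
    refine le_trans (Real.sqrt_le_sqrt ?_) hsq
    have h1 : 0 ≤ (1 - lam) ^ t := pow_nonneg (by linarith) t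
    calc (1 - lam) ^ t * (∑ y ∈ tab r c, tw τ y) / tw τ X
        = (1 - lam) ^ t * ((∑ y ∈ tab r c, tw τ y) * (1 / tw τ X)) := by ring
      _ ≤ _ := by
          refine mul_le_mul_of_nonneg_left ?_ h1
          exact mul_le_mul hW hw (by have := tw_pos τ X; positivity) (by positivity)
  have h1 : |(Pop τ o)^[t] f X - (∑ y ∈ tab r c, tw τ y * f y) / ∑ y ∈ tab r c, tw τ y| ≤
      1 / (2 * A) := le_trans hmix hb
  have h2 : (1 : ℝ) / A = 1 / (2 * A) + 1 / (2 * A) := by field_simp; norm_num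
  rw [h2]
  refine le_trans (abs_sub_le _ ((∑ y ∈ tab r c, tw τ y * f y) / ∑ y ∈ tab r c, tw τ y) _) ?_
  exact add_le_add h1 htv

end Vale.Agent.Lib.P328
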