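import Vale.Agent.Lib.P328.TabBase

/-!
P328, module Cross: the cross terms of two different leaf rows.
-/

namespace Vale.Agent.Lib.P328

open Finset

variable {I J : Type} [Fintype I] [DecidableEq I] [Fintype J] [DecidableEq J]

/-! ### moving a unit from row `a` to row `b` in column `l` -/

/-- move a unit from row `a` to row `b` in column `l` -/
def mvu (X : I → J → ℕ) (a b : I) (l : J) : I → J → ℕ :=
  Function.update (Function.update X a (X a - e l)) b (X b + e l)

omit [Fintype I] [Fintype J] in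
theorem mvu_fst {X : I → J → ℕ} {a b : I} (h : a ≠ b) (l : J) : mvu X a b l a = X a - e l := by
  unfold mvu
  rw [Function.update_of_ne h, Function.update_self]

omit [Fintype I] [Fintype J] in
theorem mvu_snd (X : I → J → ℕ) (a b : I) (l : J) : mvu X a b l b = X b + e l := by
  unfold mvu
  rw [Function.update_self]

omit [Fintype I] [Fintype J] in
theorem mvu_other {X : I → J → ℕ} {a b i : I} (ha : i ≠ a) (hb : i ≠ b) (l : J) :
    mvu X a b l i = X i := by
  unfold mvu
  rw [Function.update_of_ne hb, Function.update_of_ne ha]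

omit [Fintype I] in
theorem mvu_mvu {X : I → J → ℕ} {a b : I} (h : a ≠ b) {l : J} (hl : X a l ≠ 0) :
    mvu (mvu X a b l) b a l = X := by
  funext i
  by_cases h1 : i = a
  · subst h1
    rw [mvu_snd, mvu_fst h, sub_add_e hl]
  · by_cases h2 : i = b
    · subst h2
      rw [mvu_fst h.symm, mvu_snd, add_sub_e]
    · rw [mvu_other h2 h1, mvu_other h1 h2]

/-- margins after the move -/
def mrg (r : I → ℕ) (a b : I) : I → ℕ := Function.update (Function.update r a (r a - 1)) b (r b + 1)

theorem le_row {r : I → ℕ} {c : J → ℕ} {X : I → J → ℕ} (hX : X ∈ tab r c) (a : I) (l : J) :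
    X a l ≤ r a := by
  rw [← (mem_tab.1 hX).1 a]
  exact single_le_sum (f := fun l => X a l) (fun _ _ => Nat.zero_le _) (mem_univ l)

theorem mvu_mem {r : I → ℕ} {c : J → ℕ} {X : I → J → ℕ} (hX : X ∈ tab r c) {a b : I} (h : a ≠ b)
    {l : J} (hl : X a l ≠ 0) : mvu X a b l ∈ tab (mrg r a b) c := by
  have hX' := mem_tab.1 hX
  have hra : X a l ≤ r a := le_row hX a l
  have hsub : ∀ j, (X a - e l) j + e l j = X a j := fun j => congrFun (sub_add_e hl) j
  rw [mem_tab]
  constructor
  · intro i
    by_cases h1 : i = b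
    · subst h1
      rw [mvu_snd]
      simp only [Pi.add_apply, sum_add_distrib, sum_e, hX'.1]
      unfold mrg
      rw [Function.update_self]
    · by_cases h2 : i = a
      · subst h2
        rw [mvu_fst h]
        have e1 : ∑ j, (X i - e l) j + 1 = r i := by
          rw [← hX'.1 i, ← sum_e l, ← sum_add_distrib]
          exact sum_congr rfl fun j _ => hsub j
        unfold mrg
        rw [Function.update_of_ne h, Function.update_self]
        omega
      · rw [mvu_other h2 h1, hX'.1]
        unfold mrg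
        rw [Function.update_of_ne h1, Function.update_of_ne h2]
  · intro j
    have hb : b ∈ univ.erase a := mem_erase.2 ⟨h.symm, mem_univ _⟩
    rw [← hX'.2 j, ← add_sum_erase univ _ (mem_univ a), ← add_sum_erase _ _ hb,
      ← add_sum_erase univ (fun i => X i j) (mem_univ a), ← add_sum_erase _ (fun i => X i j) hb]
    have e1 : ∑ x ∈ (univ.erase a).erase b, mvu X a b l x j =
        ∑ x ∈ (univ.erase a).erase b, X x j := by
      apply sum_congr rfl
      intro x hx
      rw [mem_erase, mem_erase] at hx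
      rw [mvu_other hx.2.1 hx.1]
    rw [e1, mvu_fst h, mvu_snd]
    have := hsub j
    simp only [Pi.add_apply]
    omega

/-! ### weights -/

omit [Fintype I] [DecidableEq I] in
theorem row_weight (T : J → ℕ) {v : J → ℕ} {l : J} (hl : v l ≠ 0) :
    (∏ j, phi (T j) (v j)) * gr (T l) (v l) = ∏ j, phi (T j) ((v - e l) j) := by
  rw [← mul_prod_erase univ _ (mem_univ l), ← mul_prod_erase univ (fun j => phi (T j) ((v - e l) j))
    (mem_univ l)]
  have e1 : ∏ j ∈ univ.erase l, phi (T j) ((v - e l) j) = ∏ j ∈ univ.erase l, phi (T j) (v j) := by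
    apply prod_congr rfl
    intro j hj
    have : e l j = 0 := e_ne (ne_of_mem_erase hj)
    simp only [Pi.sub_apply, this, Nat.sub_zero]
  obtain ⟨z, hz⟩ : ∃ z, v l = z + 1 := ⟨v l - 1, by omega⟩
  have e2 : (v - e l) l = z := by
    simp only [Pi.sub_apply, e_same, hz]
    omega
  have e3 := gr_succ_mul (T l) z
  rw [e1, e2, hz, ← e3]
  ring

omit [DecidableEq J] in
theorem tw_two (τ : I → J → ℕ) (X : I → J → ℕ) {a b : I} (h : a ≠ b) :
    tw τ X = (∏ j, phi (τ a j) (X a j)) * ((∏ j, phi (τ b j) (X b j)) *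
      ∏ i ∈ (univ.erase a).erase b, ∏ j, phi (τ i j) (X i j)) := by
  have hb : b ∈ univ.erase a := mem_erase.2 ⟨h.symm, mem_univ _⟩
  unfold tw
  rw [mul_prod_erase _ (fun i => ∏ j, phi (τ i j) (X i j)) hb,
    mul_prod_erase _ (fun i => ∏ j, phi (τ i j) (X i j)) (mem_univ a)]

/-- the weight is moved along -/
theorem tw_mvu (τ : I → J → ℕ) {X : I → J → ℕ} {a b : I} (h : a ≠ b) {l : J} (hl : X a l ≠ 0) :
    tw τ X * gr (τ a l) (X a l) =
      tw τ (mvu X a b l) * gr (τ b l) (mvu X a b l b l) := by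
  have hl' : mvu X a b l b l ≠ 0 := by
    rw [mvu_snd]
    simp only [Pi.add_apply, e_same]
    omega
  have e1 := row_weight (τ a) hl
  have e2 := row_weight (τ b) hl'
  rw [tw_two τ X h, tw_two τ (mvu X a b l) h]
  have e3 : ∏ i ∈ (univ.erase a).erase b, ∏ j, phi (τ i j) (mvu X a b l i j) =
      ∏ i ∈ (univ.erase a).erase b, ∏ j, phi (τ i j) (X i j) := by
    apply prod_congr rfl
    intro i hi
    rw [mem_erase, mem_erase] at hi
    rw [mvu_other hi.2.1 hi.1]
  have e4 : ∏ j, phi (τ b j) ((mvu X a b l b - e l) j) = ∏ j, phi (τ b j) (X b j) := by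
    rw [mvu_snd, add_sub_e]
  rw [e4] at e2
  rw [e3, mvu_fst h, ← e1]
  calc _ = ((∏ j, phi (τ a j) (X a j)) * gr (τ a l) (X a l)) * ((∏ j, phi (τ b j) (X b j)) *
        ∏ i ∈ (univ.erase a).erase b, ∏ j, phi (τ i j) (X i j)) := by ring
    _ = ((∏ j, phi (τ a j) (X a j)) * gr (τ a l) (X a l)) *
        (((∏ j, phi (τ b j) (mvu X a b l b j)) * gr (τ b l) (mvu X a b l b l)) *
        ∏ i ∈ (univ.erase a).erase b, ∏ j, phi (τ i j) (X i j)) := by rw [e2]
    _ = _ := by ring

/-- change of variables -/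
theorem tab_shift (τ : I → J → ℕ) {r : I → ℕ} {c : J → ℕ} {a b : I} (h : a ≠ b) (hr : r a ≠ 0)
    (l : J) (Φ : (I → J → ℕ) → ℝ) :
    ∑ X ∈ tab r c, tw τ X * gr (τ a l) (X a l) * Φ X =
      ∑ Y ∈ tab (mrg r a b) c, tw τ Y * gr (τ b l) (Y b l) * Φ (mvu Y b a l) := by
  have hback : mrg (mrg r a b) b a = r := by
    funext i
    unfold mrg
    by_cases h1 : i = a
    · subst h1
      rw [Function.update_self, Function.update_of_ne h, Function.update_self]
      omega
    · rw [Function.update_of_ne h1]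
      by_cases h2 : i = b
      · subst h2
        rw [Function.update_self, Function.update_self]
        omega
      · rw [Function.update_of_ne h2, Function.update_of_ne h2, Function.update_of_ne h1]
  apply sum_bij_ne_zero (fun X _ _ => mvu X a b l)
  · intro X hX hne
    apply mvu_mem hX h
    intro h0
    apply hne
    rw [h0, gr_zero]
    ring
  · intro X hX hne X' hX' hne' heq
    have h1 : X a l ≠ 0 := by
      intro h0
      apply hne
      rw [h0, gr_zero]
      ring
    have h2 : X' a l ≠ 0 := by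
      intro h0
      apply hne'
      rw [h0, gr_zero]
      ring
    rw [← mvu_mvu h h1, heq, mvu_mvu h h2]
  · intro Y hY hne
    have h1 : Y b l ≠ 0 := by
      intro h0
      apply hne
      rw [h0, gr_zero]
      ring
    have h2 : mvu Y b a l a l ≠ 0 := by
      rw [mvu_snd]
      simp only [Pi.add_apply, e_same]
      omega
    have h3 := mvu_mem hY h.symm h1
    rw [hback] at h3
    refine ⟨mvu Y b a l, h3, ?_, mvu_mvu h.symm h1⟩
    rw [tw_mvu τ h h2, mvu_mvu h.symm h1]
    exact hne
  · intro X hX hne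
    have h1 : X a l ≠ 0 := by
      intro h0
      apply hne
      rw [h0, gr_zero]
      ring
    rw [tw_mvu τ h h1, mvu_mvu h h1]

/-! ### the two fold shift -/

/-- matrix of the values after two exchanges -/
def Fab (F : (I → J → ℕ) → ℝ) (o j k : I) (Y : I → J → ℕ) (a b : J) : ℝ :=
  F (mvu (mvu Y k o b) j o a)

omit [Fintype I] in
theorem dk_first (τ : I → J → ℕ) {o j k : I} (hj : j ≠ o) (hk : k ≠ o) (hjk : j ≠ k)
    (F : (I → J → ℕ) → ℝ) {Y : I → J → ℕ} {l l' : J} (hl : Y j l ≠ 0) :
    DK τ o j F (mvu (mvu Y k o l') j o l) l =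
      (∑ a, gr (τ j a) (Y j a) * Fab F o j k Y a l') / ∑ a, gr (τ j a) (Y j a) := by
  have e1 : mvu (mvu Y k o l') j o l j + e l = Y j := by
    rw [mvu_fst hj, mvu_other hjk hj, sub_add_e hl]
  have e2 : ∀ a, sw (mvu (mvu Y k o l') j o l) o j l a = mvu (mvu Y k o l') j o a := by
    intro a
    funext i
    unfold sw
    by_cases h1 : i = j
    · subst h1
      rw [Function.update_self, e1, mvu_fst hj, mvu_other hjk hj]
    · rw [Function.update_of_ne h1]
      by_cases h2 : i = o
      · subst h2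
        rw [Function.update_self]
        simp only [mvu_snd, add_sub_e]
      · rw [Function.update_of_ne h2, mvu_other h1 h2, mvu_other h1 h2]
  unfold DK QQ Fab
  simp only [e1, e2]

omit [Fintype I] in
theorem dk_second (τ : I → J → ℕ) {o j k : I} (hj : j ≠ o) (hk : k ≠ o) (hjk : j ≠ k)
    (F : (I → J → ℕ) → ℝ) {Y : I → J → ℕ} {l l' : J} (hl' : Y k l' ≠ 0) :
    DK τ o k F (mvu (mvu Y k o l') j o l) l' =
      (∑ b, gr (τ k b) (Y k b) * Fab F o j k Y l b) / ∑ b, gr (τ k b) (Y k b) := by
  have e1 : mvu (mvu Y k o l') j o l k + e l' = Y k := by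
    rw [mvu_other hjk.symm hk, mvu_fst hk, sub_add_e hl']
  have e2 : ∀ b, sw (mvu (mvu Y k o l') j o l) o k l' b = mvu (mvu Y k o b) j o l := by
    intro b
    funext i
    unfold sw
    by_cases h1 : i = k
    · subst h1
      rw [Function.update_self, e1, mvu_other hjk.symm hk, mvu_fst hk]
    · rw [Function.update_of_ne h1]
      by_cases h2 : i = o
      · subst h2
        rw [Function.update_self]
        simp only [mvu_snd]
        funext x
        simp only [Pi.add_apply, Pi.sub_apply]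
        omega
      · by_cases h3 : i = j
        · subst h3
          rw [Function.update_of_ne h2, mvu_fst hj, mvu_fst hj, mvu_other hjk hj, mvu_other hjk hj]
        · rw [Function.update_of_ne h2, mvu_other h3 h2, mvu_other h3 h2, mvu_other h1 h2,
            mvu_other h1 h2]
  unfold DK QQ Fab
  simp only [e1, e2]

/-- the off diagonal part is nonnegative -/
theorem cross_pos (τ : I → J → ℕ) (r : I → ℕ) (c : J → ℕ) {o j k : I} (hj : j ≠ o) (hk : k ≠ o)
    (hjk : j ≠ k) (F : (I → J → ℕ) → ℝ) :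
    0 ≤ ∑ X ∈ tab r c, ∑ l, ∑ l', tw τ X * gr (τ o l) (X o l) *
      (gr (τ o l') ((X o - e l) l') * ((F X - DK τ o j F X l) * (F X - DK τ o k F X l'))) := by
  by_cases h0 : r o = 0
  · apply le_of_eq
    symm
    apply sum_eq_zero
    intro X hX
    apply sum_eq_zero
    intro l _
    apply sum_eq_zero
    intro l' _
    have : X o l = 0 := by have := le_row hX o l; omega
    rw [this, gr_zero]
    ring
  have e1 : ∑ X ∈ tab r c, ∑ l, ∑ l', tw τ X * gr (τ o l) (X o l) *
      (gr (τ o l') ((X o - e l) l') * ((F X - DK τ o j F X l) * (F X - DK τ o k F X l'))) =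
      ∑ l, ∑ l', ∑ Z ∈ tab (mrg r o j) c, tw τ Z * gr (τ o l') (Z o l') *
        (gr (τ j l) (Z j l) * ((F (mvu Z j o l) - DK τ o j F (mvu Z j o l) l) *
          (F (mvu Z j o l) - DK τ o k F (mvu Z j o l) l'))) := by
    rw [sum_comm]
    apply sum_congr rfl
    intro l _
    rw [sum_comm]
    apply sum_congr rfl
    intro l' _
    rw [tab_shift τ hj.symm h0 l]
    apply sum_congr rfl
    intro Z _
    rw [mvu_snd, add_sub_e]
    ring
  rw [e1]
  by_cases h1 : mrg r o j o = 0
  · apply le_of_eq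
    symm
    apply sum_eq_zero
    intro l _
    apply sum_eq_zero
    intro l' _
    apply sum_eq_zero
    intro Z hZ
    have : Z o l' = 0 := by have := le_row hZ o l'; omega
    rw [this, gr_zero]
    ring
  have e2 : ∑ l, ∑ l', ∑ Z ∈ tab (mrg r o j) c, tw τ Z * gr (τ o l') (Z o l') *
        (gr (τ j l) (Z j l) * ((F (mvu Z j o l) - DK τ o j F (mvu Z j o l) l) *
          (F (mvu Z j o l) - DK τ o k F (mvu Z j o l) l'))) =
      ∑ Y ∈ tab (mrg (mrg r o j) o k) c, tw τ Y * ∑ l, ∑ l',
        gr (τ j l) (Y j l) * gr (τ k l') (Y k l') *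
        ((Fab F o j k Y l l' - (∑ a, gr (τ j a) (Y j a) * Fab F o j k Y a l') /
          ∑ a, gr (τ j a) (Y j a)) *
        (Fab F o j k Y l l' - (∑ b, gr (τ k b) (Y k b) * Fab F o j k Y l b) /
          ∑ b, gr (τ k b) (Y k b))) := by
    have e3 : ∀ l l' : J, ∑ Z ∈ tab (mrg r o j) c, tw τ Z * gr (τ o l') (Z o l') *
        (gr (τ j l) (Z j l) * ((F (mvu Z j o l) - DK τ o j F (mvu Z j o l) l) *
          (F (mvu Z j o l) - DK τ o k F (mvu Z j o l) l'))) =
      ∑ Y ∈ tab (mrg (mrg r o j) o k) c, tw τ Y *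
        (gr (τ j l) (Y j l) * gr (τ k l') (Y k l') *
        ((Fab F o j k Y l l' - (∑ a, gr (τ j a) (Y j a) * Fab F o j k Y a l') /
          ∑ a, gr (τ j a) (Y j a)) *
        (Fab F o j k Y l l' - (∑ b, gr (τ k b) (Y k b) * Fab F o j k Y l b) /
          ∑ b, gr (τ k b) (Y k b)))) := by
      intro l l'
      rw [tab_shift τ hk.symm h1 l' (fun Z => gr (τ j l) (Z j l) *
        ((F (mvu Z j o l) - DK τ o j F (mvu Z j o l) l) *
          (F (mvu Z j o l) - DK τ o k F (mvu Z j o l) l')))]
      apply sum_congr rfl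
      intro Y _
      simp only [mvu_other hjk hj]
      by_cases hl : Y j l = 0
      · rw [hl, gr_zero]
        ring
      by_cases hl' : Y k l' = 0
      · rw [hl', gr_zero]
        ring
      rw [dk_first τ hj hk hjk F hl, dk_second τ hj hk hjk F hl']
      have : F (mvu (mvu Y k o l') j o l) = Fab F o j k Y l l' := rfl
      rw [this]
      ring
    simp only [e3, mul_sum]
    rw [sum_congr rfl fun l _ => sum_comm]
    rw [sum_comm]
  rw [e2]
  apply sum_nonneg
  intro Y _
  apply mul_nonneg (tw_pos τ Y).le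
  exact product_nonneg (fun a => gr (τ j a) (Y j a)) (fun b => gr (τ k b) (Y k b))
    (fun a => gr_nonneg _ _) (fun b => gr_nonneg _ _) (Fab F o j k Y)

/-- Cross inequality for two different leaf rows `j`, `k`.
Proof.  `G_l(X) = gr (τ o l) (X o l)`, `β^j_l(X) = F X - DK τ o j F X l`.  Write
`LK_j LK_k = ∑_{l,l'} G_l(X) G_{l'}(X) β^j_l β^k_{l'}` and
`G_l(X) G_{l'}(X) = G_l(X) G_{l'}(X - e_{o,l})` plus `G_l (G_l - gr (τ o l) (X o l - 1))` if `l = l'`;
the second part is the left side.  The first part is nonnegative: if `r o ≤ 1` it vanishes;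
otherwise substitute `Y = X - e_{o,l} - e_{o,l'} + e_{j,l} + e_{k,l'}`, which runs through
`tab (r - 2 e_o + e_j + e_k) c`, with `Y j l ≥ 1`, `Y k l' ≥ 1`, and
`tw X * G_l(X) * G_{l'}(X - e_{o,l}) = tw Y * gr (τ j l) (Y j l) * gr (τ k l') (Y k l')`
(`gr_succ_mul`); with `F_{ab} = F (Y - e_{j,a} - e_{k,b} + e_{o,a} + e_{o,b})`,
`α_a = gr (τ j a) (Y j a)`, `β_b = gr (τ k b) (Y k b)` one has `DK τ o j F X l = P1 F l'`,
`DK τ o k F X l' = P2 F l` at this `Y`, and `product_nonneg` applies. -/
theorem cross (τ : I → J → ℕ) (r : I → ℕ) (c : J → ℕ) {o j k : I} (hj : j ≠ o) (hk : k ≠ o)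
    (hjk : j ≠ k) (F : (I → J → ℕ) → ℝ) :
    ∑ X ∈ tab r c, tw τ X * ∑ l, gr (τ o l) (X o l) *
        (gr (τ o l) (X o l) - gr (τ o l) (X o l - 1)) *
        ((F X - DK τ o j F X l) * (F X - DK τ o k F X l)) ≤
      ∑ X ∈ tab r c, tw τ X * (LK τ o j F X * LK τ o k F X) := by
  have h := cross_pos τ r c hj hk hjk F
  have key : ∑ X ∈ tab r c, tw τ X * (LK τ o j F X * LK τ o k F X) =
      (∑ X ∈ tab r c, tw τ X * ∑ l, gr (τ o l) (X o l) *
        (gr (τ o l) (X o l) - gr (τ o l) (X o l - 1)) *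
        ((F X - DK τ o j F X l) * (F X - DK τ o k F X l))) +
      ∑ X ∈ tab r c, ∑ l, ∑ l', tw τ X * gr (τ o l) (X o l) *
      (gr (τ o l') ((X o - e l) l') * ((F X - DK τ o j F X l) * (F X - DK τ o k F X l'))) := by
    rw [← sum_add_distrib]
    apply sum_congr rfl
    intro X _
    unfold LK
    rw [sum_mul_sum, mul_sum, mul_sum, ← sum_add_distrib]
    apply sum_congr rfl
    intro l _
    rw [mul_sum, ← add_sum_erase univ _ (mem_univ l),
      ← add_sum_erase univ (fun l' => tw τ X * gr (τ o l) (X o l) *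
      (gr (τ o l') ((X o - e l) l') * ((F X - DK τ o j F X l) * (F X - DK τ o k F X l'))))
      (mem_univ l)]
    have e1 : ∀ l' ∈ univ.erase l, tw τ X * gr (τ o l) (X o l) *
        (gr (τ o l') ((X o - e l) l') * ((F X - DK τ o j F X l) * (F X - DK τ o k F X l'))) =
        tw τ X * (gr (τ o l) (X o l) * (F X - DK τ o j F X l) *
          (gr (τ o l') (X o l') * (F X - DK τ o k F X l'))) := by
      intro l' hl'
      have : e l l' = 0 := e_ne (ne_of_mem_erase hl')
      simp only [Pi.sub_apply, this, Nat.sub_zero]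
      ring
    rw [sum_congr rfl e1]
    have e2 : (X o - e l) l = X o l - 1 := by simp only [Pi.sub_apply, e_same]
    rw [e2]
    ring
  rw [key]
  linarith

end Vale.Agent.Lib.P328
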