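import Mathlib

/-!
P328, definitions.

Ramp weights `phi T`, zero range rates `gr T`, level sets `lev s j` of a box, product weights `wt`,
the operators of a two row fibre, tables and their weights.
-/

namespace Vale.Agent.Lib.P328

open Finset

/-! ### ramp weights -/

/-- the ramp weight `(z+1)(z+2)/((z+1+T)(z+2+T))`; `phi 0 = 1` -/
noncomputable def phi (T z : ℕ) : ℝ :=
  (((z : ℝ) + 1) * ((z : ℝ) + 2)) / (((z : ℝ) + 1 + T) * ((z : ℝ) + 2 + T))

/-- the zero range rate `phi T (z-1) / phi T z`, and `0` at `z = 0` -/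
noncomputable def gr (T : ℕ) : ℕ → ℝ
  | 0 => 0
  | z + 1 => phi T z / phi T (z + 1)

/-- increment of the rate -/
noncomputable def Gam (T z : ℕ) : ℝ := gr T (z + 1) - gr T z

/-! ### level sets of a box -/

variable {J : Type} [Fintype J] [DecidableEq J]

/-- vectors `0 ≤ x ≤ s` with sum `j` -/
def lev (s : J → ℕ) (j : ℕ) : Finset (J → ℕ) :=
  (Fintype.piFinset fun l => Finset.range (s l + 1)).filter fun x => ∑ l, x l = j

/-- unit vector -/
def e (l : J) : J → ℕ := Pi.single l 1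

/-- product weight -/
noncomputable def wt (ψ : J → ℕ → ℝ) (v : J → ℕ) : ℝ := ∏ l, ψ l (v l)

/-- total weight of a level -/
noncomputable def ZZ (ψ : J → ℕ → ℝ) (s : J → ℕ) (j : ℕ) : ℝ := ∑ v ∈ lev s j, wt ψ v

/-- one column weight of a two row fibre with column sums `s`: centre ramp `T`, leaf ramp `T'` -/
noncomputable def psi (s T T' : J → ℕ) (l : J) (v : ℕ) : ℝ := phi (T l) (s l - v) * phi (T' l) v

/-! ### operators of a two row fibre -/

/-- total leaf rate -/
noncomputable def QQ (T' : J → ℕ) (w : J → ℕ) : ℝ := ∑ a, gr (T' a) (w a)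

/-- leaf down step: remove a unit from column `a` with probability proportional to the rate -/
noncomputable def DD (T' : J → ℕ) (h : (J → ℕ) → ℝ) (w : J → ℕ) : ℝ :=
  (∑ a, gr (T' a) (w a) * h (w - e a)) / QQ T' w

/-- generator of the two row fibre -/
noncomputable def LL (s T T' : J → ℕ) (h : (J → ℕ) → ℝ) (x : J → ℕ) : ℝ :=
  ∑ l, gr (T l) (s l - x l) * (h x - DD T' h (x + e l))

/-- squared norm of the generator applied to `h` -/
noncomputable def nL (s T T' : J → ℕ) (r : ℕ) (h : (J → ℕ) → ℝ) : ℝ :=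
  ∑ x ∈ lev s r, wt (psi s T T') x * LL s T T' h x ^ 2

/-- the centre wall term -/
noncomputable def Rt (s T T' : J → ℕ) (r : ℕ) (h : (J → ℕ) → ℝ) : ℝ :=
  ∑ x ∈ lev s r, wt (psi s T T') x *
    ∑ l, gr (T l) (s l - x l) * (gr (T l) (s l - x l) - gr (T l) (s l - x l - 1)) *
      (h x - DD T' h (x + e l)) ^ 2

/-- the sum of squares in the identity `nL = TT + Rt` -/
noncomputable def TT (s T T' : J → ℕ) (r : ℕ) (h : (J → ℕ) → ℝ) : ℝ :=
  ∑ y ∈ lev s (r + 2), wt (psi s T T') y *
    ((∑ a, ∑ b, gr (T' a) (y a) * gr (T' b) ((y - e a) b) *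
        (h (y - e a - e b) - DD T' h (y - e a) - DD T' h (y - e b) + DD T' (DD T' h) y) ^ 2) +
      ∑ a, gr (T' a) (y a) * (gr (T' a) (y a) - gr (T' a) (y a - 1)) *
        (DD T' h (y - e a) - DD T' (DD T' h) y) ^ 2)

/-- `u_b(w) = h(w - e_b) - Dh(w)`, zero if `w_b = 0` -/
noncomputable def uu (T' : J → ℕ) (h : (J → ℕ) → ℝ) (b : J) (w : J → ℕ) : ℝ :=
  if w b = 0 then 0 else h (w - e b) - DD T' h w

/-- `t_b(y) = Dh(y - e_b) - DDh(y)`, zero if `y_b = 0` -/
noncomputable def tt (T' : J → ℕ) (h : (J → ℕ) → ℝ) (b : J) (y : J → ℕ) : ℝ :=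
  if y b = 0 then 0 else DD T' h (y - e b) - DD T' (DD T' h) y

/-- star energy of a function on level `ρ` with centres on level `ρ + 1` -/
noncomputable def EE (s T T' : J → ℕ) (ρ : ℕ) (u t : (J → ℕ) → ℝ) : ℝ :=
  ∑ y ∈ lev s (ρ + 1), wt (psi s T T') y *
    ∑ a, if y a = 0 then 0 else (u (y - e a) - t y) ^ 2

/-- leaf wall potential in column `b` -/
noncomputable def VV (s T T' : J → ℕ) (b : J) (ρ : ℕ) (u : (J → ℕ) → ℝ) : ℝ :=
  ∑ w ∈ lev s ρ, wt (psi s T T') w * Gam (T' b) (w b) * u w ^ 2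

/-- centre wall potential in column `b` -/
noncomputable def RR (s T T' : J → ℕ) (b : J) (ρ : ℕ) (u : (J → ℕ) → ℝ) : ℝ :=
  ∑ w ∈ lev s ρ, wt (psi s T T') w * Gam (T b) (s b - w b) * u w ^ 2

/-- `L²` mass -/
noncomputable def MM (s T T' : J → ℕ) (ρ : ℕ) (u : (J → ℕ) → ℝ) : ℝ :=
  ∑ w ∈ lev s ρ, wt (psi s T T') w * u w ^ 2

/-! ### slicing along one column -/

/-- capacities of the other columns -/
def sB (s : J → ℕ) (b : J) : J → ℕ := Function.update s b 0

/-- weights of the other columns -/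
noncomputable def psB (ψ : J → ℕ → ℝ) (b : J) : J → ℕ → ℝ := Function.update ψ b fun _ => 1

/-- total weight of the other columns at level `j` -/
noncomputable def Zb (s T T' : J → ℕ) (b : J) (j : ℕ) : ℝ :=
  ZZ (psB (psi s T T') b) (sB s b) j

/-- root mean square of `u` on the slice `w_b = i` of level `ρ` -/
noncomputable def AA (s T T' : J → ℕ) (b : J) (ρ : ℕ) (u : (J → ℕ) → ℝ) (i : ℕ) : ℝ :=
  Real.sqrt ((∑ v ∈ lev (sB s b) (ρ - i), wt (psB (psi s T T') b) v *
    u (Function.update v b i) ^ 2) / Zb s T T' b (ρ - i))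

/-! ### tables -/

variable {I : Type} [Fintype I] [DecidableEq I]

/-- the set of contingency tables with row sums `r` and column sums `c` -/
def tab (r : I → ℕ) (c : J → ℕ) : Finset (I → J → ℕ) :=
  (Fintype.piFinset fun _ => Fintype.piFinset fun l => Finset.range (c l + 1)).filter
    fun X => (∀ i, ∑ l, X i l = r i) ∧ ∀ l, ∑ i, X i l = c l

/-- weight of a table -/
noncomputable def tw (τ : I → J → ℕ) (X : I → J → ℕ) : ℝ := ∏ i, ∏ l, phi (τ i l) (X i l)

/-- exchange: the centre row `o` gives a unit in column `l` to row `k` and gets one in column `a` -/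
def sw (X : I → J → ℕ) (o k : I) (l a : J) : I → J → ℕ :=
  Function.update (Function.update X o (X o - e l + e a)) k (X k + e l - e a)

/-- averaged value after the exchange -/
noncomputable def DK (τ : I → J → ℕ) (o k : I) (F : (I → J → ℕ) → ℝ) (X : I → J → ℕ) (l : J) : ℝ :=
  (∑ a, gr (τ k a) ((X k + e l) a) * F (sw X o k l a)) / QQ (τ k) (X k + e l)

/-- generator of the exchanges between the centre row `o` and row `k` -/
noncomputable def LK (τ : I → J → ℕ) (o k : I) (F : (I → J → ℕ) → ℝ) (X : I → J → ℕ) : ℝ :=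
  ∑ l, gr (τ o l) (X o l) * (F X - DK τ o k F X l)

/-- centre wall term of row `k` -/
noncomputable def RK (τ : I → J → ℕ) (r : I → ℕ) (c : J → ℕ) (o k : I)
    (F : (I → J → ℕ) → ℝ) : ℝ :=
  ∑ X ∈ tab r c, tw τ X * ∑ l, gr (τ o l) (X o l) *
    (gr (τ o l) (X o l) - gr (τ o l) (X o l - 1)) * (F X - DK τ o k F X l) ^ 2

/-! ### conditional variances -/

/-- conditional expectation of `F` given the label `π`, for the weight `w` on `S` -/
noncomputable def cexp {α β : Type} [DecidableEq β] (S : Finset α) (w : α → ℝ) (π : α → β)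
    (F : α → ℝ) (X : α) : ℝ :=
  (∑ Y ∈ S.filter fun Y => π Y = π X, w Y * F Y) / ∑ Y ∈ S.filter fun Y => π Y = π X, w Y

/-- (unnormalised) expected conditional variance given the label `π` -/
noncomputable def evar {α β : Type} [DecidableEq β] (S : Finset α) (w : α → ℝ) (π : α → β)
    (F : α → ℝ) : ℝ :=
  ∑ X ∈ S, w X * (F X - cexp S w π F X) ^ 2

/-- forget the rows `o` and `k` -/
def piK (o k : I) (X : I → J → ℕ) : I → J → ℕ := fun i => if i = o ∨ i = k then 0 else X i

/-- forget two coordinates of a vector -/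
def pi2 (l l' : J) (x : J → ℕ) : J → ℕ := fun j => if j = l ∨ j = l' then 0 else x j

/-- forget the `2 × 2` minor on rows `o`, `k` and columns `l`, `l'` -/
def piL (o k : I) (l l' : J) (X : I → J → ℕ) : I → J → ℕ :=
  fun i j => if (i = o ∨ i = k) ∧ (j = l ∨ j = l') then 0 else X i j

/-- admissible data: `o` is the centre row, `K` the scale ratio -/
structure Adm (τ : I → J → ℕ) (r : I → ℕ) (c : J → ℕ) (o : I) (K : ℕ) : Prop where
  K_pos : 1 ≤ K
  dom : ∀ k, k ≠ o → r k + 2 ≤ r o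
  scale : ∀ k, k ≠ o → ∀ l, min (c l) (r k + 1) ≤ K * (τ o l + 1)
  kind : ∀ k, k ≠ o → r k = 0 ∨ (∀ l, τ k l = τ o l) ∨
    ((∀ l, τ k l = 0) ∧ 8 * Fintype.card J * (r k + 1) ≤ r o)

end Vale.Agent.Lib.P328
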