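import Mathlib

/-!
P328: encodings of the inputs and outputs over a finite alphabet.
-/

namespace Vale.Agent.Lib.P328

/-- input and output symbols: binary digits, comma, semicolon -/
inductive Sym : Type
  | bit (b : Bool) : Sym
  | comma : Sym
  | semi : Sym
  deriving DecidableEq, Inhabited

instance : Fintype Sym :=
  ⟨{Sym.bit false, Sym.bit true, Sym.comma, Sym.semi}, by
    intro x; cases x with
    | bit b => cases b <;> simp
    | comma => simp
    | semi => simp⟩

/-- a natural number in binary: its digits (least significant first), then a comma -/
def encNum (a : ℕ) : List Sym := (Nat.bits a).map Sym.bit ++ [Sym.comma]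

/-- a vector of margins: its entries in binary, then a semicolon -/
def encVec (v : List ℕ) : List Sym := v.flatMap encNum ++ [Sym.semi]

/-- a natural number in unary, then a semicolon -/
def encUn (a : ℕ) : List Sym := List.replicate a (Sym.bit true) ++ [Sym.semi]

/-- An input: row sums, column sums (in binary), and `E`, `D` (in unary), where `1 / E` is the
required relative error and `2 ^ (-D)` the allowed failure probability. -/
structure Input : Type where
  /-- row sums -/
  r : List ℕ
  /-- column sums -/
  c : List ℕ
  /-- the relative error is `1 / E` -/
  E : ℕ
  /-- the failure probability is `2 ^ (-D)` -/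
  D : ℕ

/-- encoding of an input -/
def encInput (x : Input) : List Sym := encVec x.r ++ encVec x.c ++ encUn x.E ++ encUn x.D

/-- encoding of an input together with random bits -/
def encIn (x : Input × List Bool) : List Sym := encInput x.1 ++ x.2.map Sym.bit

/-- encoding of an output: numerator and denominator in binary -/
def encOut (y : ℕ × ℕ) : List Sym := encNum y.1 ++ encNum y.2

end Vale.Agent.Lib.P328
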