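import Mathlib

/-!
P328, module EstA: relative errors multiply (real analysis).
-/

namespace Vale.Agent.Lib.P328

private theorem EstA_alg {t e C P Q x : ℝ} (ht0 : 0 < t) (ht1 : t ≤ 1 / 8) (het : e ≤ t)
    (hC : 0 < C) (hP0 : 0 < P) (hQ0 : 0 < Q) (hP1 : (1 - t) * Q ≤ P) (hQ1 : (1 - t) * P ≤ Q)
    (hu : x ≤ (1 + e) * (C * Q)) (hl : (1 - e) * (C * Q) ≤ x) :
    (C - 8 * t * C) * P ≤ x ∧ x ≤ (C + 8 * t * C) * P := by
  have hCQ : 0 < C * Q := mul_pos hC hQ0
  have hCP : 0 < C * P := mul_pos hC hP0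
  constructor
  · have h2 : (1 - t) * (C * P) ≤ C * Q := by
      have := mul_le_mul_of_nonneg_left hQ1 hC.le
      linarith
    have h3 : (1 - t) * (C * Q) ≤ x := by
      have := mul_le_mul_of_nonneg_right (show 1 - t ≤ 1 - e by linarith) hCQ.le
      linarith
    have h4 : (1 - t) * ((1 - t) * (C * P)) ≤ (1 - t) * (C * Q) :=
      mul_le_mul_of_nonneg_left h2 (by linarith)
    have h5 : (1 - 8 * t) * (C * P) ≤ ((1 - t) * (1 - t)) * (C * P) :=
      mul_le_mul_of_nonneg_right (by nlinarith) hCP.le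
    linarith
  · have h2 : (1 - t) * (C * Q) ≤ C * P := by
      have := mul_le_mul_of_nonneg_left hP1 hC.le
      linarith
    have h3 : x ≤ (1 + t) * (C * Q) := by
      have := mul_le_mul_of_nonneg_right (show 1 + e ≤ 1 + t by linarith) hCQ.le
      linarith
    have h4 : (1 + 8 * t) * ((1 - t) * (C * Q)) ≤ (1 + 8 * t) * (C * P) :=
      mul_le_mul_of_nonneg_left h2 (by linarith)
    have h5 : (1 + t) ≤ (1 + 8 * t) * (1 - t) := by nlinarith
    have h6 : (1 + t) * (C * Q) ≤ (1 + 8 * t) * (1 - t) * (C * Q) :=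
      mul_le_mul_of_nonneg_right h5 hCQ.le
    linarith

/-- relative errors multiply: pure real analysis.
`x s = y s (1 + ε_s)`, `|ε_s| ≤ δ / y s ≤ 1 / (8 E (S+1))`. -/
theorem ratio_close {S : ℕ} {E δ pm C : ℝ} (hE : 1 ≤ E) (hpm : 0 < pm) (hC : 0 < C)
    (hδ : δ * (8 * E * (S + 1)) ≤ pm) (x y : ℕ → ℝ) (hy : ∀ s ≤ S, pm ≤ y s)
    (hxy : ∀ s ≤ S, |x s - y s| ≤ δ)
    (hprod : y 0 = C * ∏ s ∈ Finset.range S, y (s + 1)) :
    0 < ∏ s ∈ Finset.range S, x (s + 1) ∧
      |x 0 / (∏ s ∈ Finset.range S, x (s + 1)) - C| ≤ C / E := by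
  have hE0 : 0 < E := by linarith
  have hS0 : (0 : ℝ) ≤ S := Nat.cast_nonneg S
  set n : ℝ := (S : ℝ) + 1 with hn
  have hn1 : 1 ≤ n := by linarith
  set e : ℝ := 1 / (8 * E * n) with he
  have hD : 0 < 8 * E * n := by positivity
  have he0 : 0 < e := by positivity
  set t : ℝ := 1 / (8 * E) with ht
  have htE : t * (8 * E) = 1 := by
    rw [ht]
    field_simp
  have ht0 : 0 < t := by positivity
  have hte : e * n = t := by
    rw [he, ht]
    field_simp
  have ht1 : t ≤ 1 / 8 := by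
    rw [ht]
    apply one_div_le_one_div_of_le (by norm_num)
    linarith
  have het : e ≤ t := by nlinarith
  have hδe : δ ≤ pm * e := by
    rw [he, mul_one_div, le_div_iff₀ hD]
    exact hδ
  have hlow : ∀ s ≤ S, (1 - e) * y s ≤ x s := by
    intro s hs
    have h1 := (abs_le.mp (hxy s hs)).1
    have h2 := hy s hs
    nlinarith
  have hup : ∀ s ≤ S, x s ≤ (1 + e) * y s := by
    intro s hs
    have h1 := (abs_le.mp (hxy s hs)).2
    have h2 := hy s hs
    nlinarith
  have hy0 : ∀ s ≤ S, 0 < y s := fun s hs => lt_of_lt_of_le hpm (hy s hs)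
  have he1 : 0 < 1 - e := by linarith
  have hx0 : ∀ s ≤ S, 0 < x s := fun s hs => lt_of_lt_of_le (mul_pos he1 (hy0 s hs)) (hlow s hs)
  set P : ℝ := ∏ s ∈ Finset.range S, x (s + 1) with hP
  set Q : ℝ := ∏ s ∈ Finset.range S, y (s + 1) with hQ
  have hrange : ∀ s ∈ Finset.range S, s + 1 ≤ S := fun s hs => Finset.mem_range.mp hs
  have hP0 : 0 < P := Finset.prod_pos fun s hs => hx0 _ (hrange s hs)
  have hQ0 : 0 < Q := Finset.prod_pos fun s hs => hy0 _ (hrange s hs)
  have hPlow : (1 - e) ^ S * Q ≤ P := by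
    have h1 : (1 - e) ^ S * Q = ∏ s ∈ Finset.range S, (1 - e) * y (s + 1) := by
      rw [Finset.prod_mul_distrib, Finset.prod_const, Finset.card_range]
    rw [h1]
    exact Finset.prod_le_prod (fun s hs => (mul_pos he1 (hy0 _ (hrange s hs))).le)
      fun s hs => hlow _ (hrange s hs)
  have hPup : P ≤ (1 + e) ^ S * Q := by
    have h1 : (1 + e) ^ S * Q = ∏ s ∈ Finset.range S, (1 + e) * y (s + 1) := by
      rw [Finset.prod_mul_distrib, Finset.prod_const, Finset.card_range]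
    rw [h1]
    exact Finset.prod_le_prod (fun s hs => (hx0 _ (hrange s hs)).le)
      fun s hs => hup _ (hrange s hs)
  have hbern : 1 - t ≤ (1 - e) ^ S := by
    have h1 := one_add_mul_le_pow (a := -e) (by linarith) S
    have h2 : 1 + (S : ℝ) * -e = 1 - S * e := by ring
    rw [h2] at h1
    have h3 : (1 + -e) = 1 - e := by ring
    rw [h3] at h1
    have h4 : (S : ℝ) * e ≤ t := by
      rw [← hte, hn]
      nlinarith
    linarith
  have hP1 : (1 - t) * Q ≤ P := (mul_le_mul_of_nonneg_right hbern hQ0.le).trans hPlow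
  have hQ1 : (1 - t) * P ≤ Q := by
    calc (1 - t) * P ≤ (1 - e) ^ S * P := mul_le_mul_of_nonneg_right hbern hP0.le
      _ ≤ (1 - e) ^ S * ((1 + e) ^ S * Q) :=
          mul_le_mul_of_nonneg_left hPup (pow_nonneg he1.le _)
      _ = ((1 - e) * (1 + e)) ^ S * Q := by rw [mul_pow]; ring
      _ ≤ 1 * Q := by
          refine mul_le_mul_of_nonneg_right (pow_le_one₀ ?_ ?_) hQ0.le
          · nlinarith
          · nlinarith
      _ = Q := one_mul Q
  refine ⟨hP0, ?_⟩
  have hCE : C / E = 8 * t * C := by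
    rw [ht]
    field_simp
  have hx0u : x 0 ≤ (1 + e) * (C * Q) := by
    have h1 := hup 0 (Nat.zero_le S)
    rwa [hprod] at h1
  have hx0l : (1 - e) * (C * Q) ≤ x 0 := by
    have h1 := hlow 0 (Nat.zero_le S)
    rwa [hprod] at h1
  obtain ⟨h1, h2⟩ := EstA_alg ht0 ht1 het hC hP0 hQ0 hP1 hQ1 hx0u hx0l
  rw [hCE, abs_le]
  constructor
  · have h3 : C - 8 * t * C ≤ x 0 / P := by
      rw [le_div_iff₀ hP0]
      exact h1
    linarith
  · have h3 : x 0 / P ≤ C + 8 * t * C := by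
      rw [div_le_iff₀ hP0]
      exact h2
    linarith

end Vale.Agent.Lib.P328
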