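import Mathlib
import Vale.Agent.Lib.P328.ProbA

/-!
P328, module ProbC: concentration.
-/

namespace Vale.Agent.Lib.P328

/-! ### concentration -/

open Classical in
private theorem prod_exp_eq {α : Type} (I : α → Bool) (t p : ℝ) (l : List α) :
    (l.map fun a => Real.exp (t * ((if I a = true then 1 else 0) - p))).prod =
      Real.exp (t * (((l.filter I).length : ℝ) - l.length * p)) := by
  induction l with
  | nil => simp
  | cons a l ih =>
    rw [List.map_cons, List.prod_cons, ih, ← Real.exp_add]
    congr 1
    by_cases h : I a = true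
    · rw [List.filter_cons_of_pos h]
      simp only [h, if_true, List.length_cons, Nat.cast_add, Nat.cast_one]
      ring
    · rw [List.filter_cons_of_neg h]
      simp only [h, List.length_cons, Nat.cast_add, Nat.cast_one]
      simp
      ring

private theorem exp_le_quad {x : ℝ} (h : |x| ≤ 1) : Real.exp x ≤ 1 + x + x ^ 2 := by
  have h1 := Real.abs_exp_sub_one_sub_id_le h
  have h2 := (abs_le.1 h1).2
  linarith

open Classical in
private theorem mgf {α : Type} {e : (α → ℝ) → ℝ} (he : IsExp e) (I : α → Bool) {t : ℝ}
    (ht : |t| ≤ 1) :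
    e (fun a => Real.exp (t * ((if I a = true then 1 else 0) -
      e (fun a => if I a = true then 1 else 0)))) ≤ Real.exp (t ^ 2) := by
  set p : ℝ := e (fun a => if I a = true then 1 else 0) with hp
  have hp0 : 0 ≤ p := by
    have h := he.mono (fun _ => 0) (fun a => if I a = true then 1 else 0)
      (fun a => by show (0 : ℝ) ≤ if I a = true then 1 else 0; split_ifs <;> norm_num)
    rw [he.const 0] at h
    exact h
  have hp1 : p ≤ 1 := by
    have h := he.mono (fun a => if I a = true then 1 else 0) (fun _ => 1)
      (fun a => by show (if I a = true then (1 : ℝ) else 0) ≤ 1; split_ifs <;> norm_num)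
    rw [he.const 1] at h
    exact h
  have hb : ∀ a, Real.exp (t * ((if I a = true then 1 else 0) - p)) ≤
      (1 + t ^ 2 - t * p) + t * (if I a = true then 1 else 0) := by
    intro a
    have hz : |(if I a = true then (1 : ℝ) else 0) - p| ≤ 1 := by
      rw [abs_le]
      split_ifs <;> constructor <;> linarith
    have hx : |t * ((if I a = true then (1 : ℝ) else 0) - p)| ≤ 1 := by
      rw [abs_mul]
      exact mul_le_one₀ ht (abs_nonneg _) hz
    have h1 := exp_le_quad hx
    have h2 : (t * ((if I a = true then (1 : ℝ) else 0) - p)) ^ 2 ≤ t ^ 2 := by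
      rw [mul_pow]
      have h3 : ((if I a = true then (1 : ℝ) else 0) - p) ^ 2 ≤ 1 := by
        rw [← sq_abs]
        exact pow_le_one₀ (abs_nonneg _) hz
      have h4 : 0 ≤ t ^ 2 := sq_nonneg t
      nlinarith
    linarith
  have h1 := he.mono _ _ hb
  have h2 : e (fun a => (1 + t ^ 2 - t * p) + t * (if I a = true then 1 else 0)) =
      1 + t ^ 2 := by
    rw [he.add (fun _ => 1 + t ^ 2 - t * p) (fun a => t * (if I a = true then 1 else 0)),
      he.const, he.smul, ← hp]
    ring
  rw [h2] at h1
  have h3 := Real.add_one_le_exp (t ^ 2)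
  linarith

open Classical in
private theorem mgfM {α : Type} {e : (α → ℝ) → ℝ} (he : IsExp e) (I : α → Bool) {t : ℝ}
    (ht : |t| ≤ 1) (M : ℕ) :
    EL e M (fun l => Real.exp (t * (((l.filter I).length : ℝ) -
      M * e (fun a => if I a = true then 1 else 0)))) ≤ Real.exp (M * t ^ 2) := by
  have h1 : EL e M (fun l => Real.exp (t * (((l.filter I).length : ℝ) -
      M * e (fun a => if I a = true then 1 else 0)))) =
      e (fun a => Real.exp (t * ((if I a = true then 1 else 0) -
      e (fun a => if I a = true then 1 else 0)))) ^ M := by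
    rw [← EL_map_prod he]
    refine EL_congr fun l hl => ?_
    rw [prod_exp_eq, hl]
  rw [h1]
  have h0 : 0 ≤ e (fun a => Real.exp (t * ((if I a = true then 1 else 0) -
      e (fun a => if I a = true then 1 else 0)))) := by
    have h := he.mono (fun _ => 0) (fun a => Real.exp (t * ((if I a = true then 1 else 0) -
      e (fun a => if I a = true then 1 else 0)))) (fun a => (Real.exp_pos _).le)
    rw [he.const 0] at h
    exact h
  calc _ ≤ (Real.exp (t ^ 2)) ^ M := pow_le_pow_left₀ h0 (mgf he I ht) M
    _ = Real.exp (M * t ^ 2) := by rw [← Real.exp_nat_mul]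

open Classical in
/-- Hoeffding type bound: the number of successes in `M` independent runs with success probability
`p` deviates from `M p` by more than `M s` with probability at most `2 exp(-M s²/4)`.
Proof: `exp x ≤ 1 + x + x²` for `|x| ≤ 1`, so `e (exp (λ (I - p))) ≤ exp (λ²)` for `|λ| ≤ 1`;
`EL_map_prod`; Markov with `λ = ± s / 2`. -/
theorem conc {α : Type} {e : (α → ℝ) → ℝ} (he : IsExp e) (I : α → Bool) {s : ℝ} (hs0 : 0 ≤ s)
    (hs1 : s ≤ 1) (M : ℕ) :
    EL e M (fun l => if s * M < |((l.filter I).length : ℝ) -
        M * e (fun a => if I a = true then 1 else 0)| then (1 : ℝ) else 0) ≤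
      2 * Real.exp (-(M * s ^ 2) / 4) := by
  have hE := he.EL M
  have h1 := mgfM he I (t := s / 2) (by rw [abs_le]; constructor <;> linarith) M
  have h2 := mgfM he I (t := -(s / 2)) (by rw [abs_le]; constructor <;> linarith) M
  set p : ℝ := e (fun a => if I a = true then 1 else 0) with hp
  set c : ℝ := Real.exp (-(s / 2 * (s * M))) with hc
  have hc0 : 0 < c := Real.exp_pos _
  have hpt : ∀ l : List α, (if s * M < |((l.filter I).length : ℝ) - M * p| then (1 : ℝ) else 0) ≤
      c * Real.exp (s / 2 * (((l.filter I).length : ℝ) - M * p)) +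
      c * Real.exp (-(s / 2) * (((l.filter I).length : ℝ) - M * p)) := by
    intro l
    have hA := Real.exp_pos (s / 2 * (((l.filter I).length : ℝ) - M * p))
    have hB := Real.exp_pos (-(s / 2) * (((l.filter I).length : ℝ) - M * p))
    split_ifs with hlt
    · rcases lt_abs.1 hlt with h | h
      · have h3 : 1 ≤ c * Real.exp (s / 2 * (((l.filter I).length : ℝ) - M * p)) := by
          rw [hc, ← Real.exp_add]
          refine Real.one_le_exp ?_
          have h4 : 0 ≤ s / 2 * ((((l.filter I).length : ℝ) - M * p) - s * M) :=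
            mul_nonneg (by linarith) (by linarith)
          linarith
        have h5 := mul_pos hc0 hB
        linarith
      · have h3 : 1 ≤ c * Real.exp (-(s / 2) * (((l.filter I).length : ℝ) - M * p)) := by
          rw [hc, ← Real.exp_add]
          refine Real.one_le_exp ?_
          have h4 : 0 ≤ s / 2 * (-(((l.filter I).length : ℝ) - M * p) - s * M) :=
            mul_nonneg (by linarith) (by linarith)
          linarith
        have h5 := mul_pos hc0 hA
        linarith
    · have h5 := mul_pos hc0 hB
      have h6 := mul_pos hc0 hA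
      linarith
  have h3 := hE.mono _ _ hpt
  rw [hE.add (fun l => c * Real.exp (s / 2 * (((l.filter I).length : ℝ) - M * p)))
    (fun l => c * Real.exp (-(s / 2) * (((l.filter I).length : ℝ) - M * p))), hE.smul,
    hE.smul] at h3
  refine h3.trans ?_
  have h4 : c * Real.exp (M * (s / 2) ^ 2) = Real.exp (-(M * s ^ 2) / 4) := by
    rw [hc, ← Real.exp_add]
    congr 1
    ring
  have h5 : c * Real.exp (M * (-(s / 2)) ^ 2) = Real.exp (-(M * s ^ 2) / 4) := by
    rw [hc, ← Real.exp_add]
    congr 1
    ring
  have h6 := mul_le_mul_of_nonneg_left h1 hc0.le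
  have h7 := mul_le_mul_of_nonneg_left h2 hc0.le
  rw [h4] at h6
  rw [h5] at h7
  linarith

end Vale.Agent.Lib.P328
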