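import Mathlib
import Vale.Agent.Lib.P328.ProbA
import Vale.Agent.Lib.P328.ProbC

/-!
P328, module EstB: the estimate in terms of the counts, concentration of one stage, union bound.
-/

namespace Vale.Agent.Lib.P328

open Vale.Agent.Lib.Common.PolyTime

private theorem estB_prod_eq (T : List ℕ) :
    T.prod = ∏ s ∈ Finset.range T.length, T.getD s 0 := by
  induction T with
  | nil => simp
  | cons x T ih =>
    rw [List.prod_cons, List.length_cons, Finset.prod_range_succ', ih, mul_comm]
    rfl

private theorem estB_map_val (T : List ℕ) : ((T.map Bn.ofNat).map Bn.val) = T := by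
  rw [List.map_map]
  have h : (Bn.val ∘ Bn.ofNat) = (id : ℕ → ℕ) := by
    funext x
    rfl
  rw [h, List.map_id]

private theorem estB_length (S M T B A κ : ℕ) (r c : List Bn) (ρ : List Bool) :
    (cntsA S M T B A κ r c ρ).length = S + 1 := by
  unfold cntsA
  rw [List.length_map, List.length_range]

/-- the value of the estimate in terms of the counts -/
theorem estA_eq (S M T B A κ : ℕ) (r c : List Bn) (ρ : List Bool) (hM : 0 < M)
    (hpos : ∀ s, s < S → 0 < (cntsA S M T B A κ r c ρ).getD (s + 1) 0) :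
    0 < (estA S M T B A κ r c ρ).2.val ∧
    ((estA S M T B A κ r c ρ).1.val : ℝ) / ((estA S M T B A κ r c ρ).2.val : ℝ) =
      (((cntsA S M T B A κ r c ρ).getD 0 0 : ℝ) / M) /
        ∏ s ∈ Finset.range S, (((cntsA S M T B A κ r c ρ).getD (s + 1) 0 : ℝ) / M) := by
  have hlen := estB_length S M T B A κ r c ρ
  unfold estA
  revert hpos hlen
  generalize cntsA S M T B A κ r c ρ = L
  intro hpos hlen
  cases L with
  | nil => simp at hlen
  | cons x L =>
    have hl : L.length = S := by simpa using hlen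
    subst hl
    have hpos' : ∀ s, s < L.length → 0 < L.getD s 0 := fun s hs => by
      have := hpos s hs
      simpa using this
    have hP : 0 < L.prod := by
      rw [estB_prod_eq]
      exact Finset.prod_pos fun s hs => hpos' s (Finset.mem_range.1 hs)
    have hMr : (0 : ℝ) < M := by exact_mod_cast hM
    have hPr : (0 : ℝ) < (L.prod : ℝ) := by exact_mod_cast hP
    have e1 : ∏ s ∈ Finset.range L.length, (((x :: L).getD (s + 1) 0 : ℝ) / M) =
        (L.prod : ℝ) / (M : ℝ) ^ L.length := by
      rw [Finset.prod_div_distrib, Finset.prod_const, Finset.card_range]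
      congr 1
      rw [estB_prod_eq L, Nat.cast_prod]
      rfl
    rw [e1]
    simp only [Bn.mul_val, Bn.ofNat_val, Bn.pow_val, Bn.prod_val, List.headD_cons, List.tail_cons,
      estB_map_val, List.getD_cons_zero, Nat.cast_mul, Nat.cast_pow]
    refine ⟨Nat.mul_pos hM hP, ?_⟩
    have h1 : (M : ℝ) ^ L.length ≠ 0 := pow_ne_zero _ hMr.ne'
    field_simp

open Classical in
/-- one stage: concentration of the count -/
theorem cnt_conc {m n o B T M A : ℕ} (st : Stage) {σ : ℝ} (h0 : 0 ≤ σ) (h1 : σ ≤ 1) (hM : 0 < M) :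
    EL ebit (M * (T * (6 * B))) (fun ρ => if σ < |(cntA m n o B T M A st ρ : ℝ) / M -
        EL ebit (T * (6 * B)) (fun ρ' => if hitA m n o B T (winA m n A st.1.1 st.1.2 o)
          (nwA m n st.1.1 st.1.2) st.2.1.1 st.2.1.2 st.2.2 ρ' = true then (1 : ℝ) else 0)|
        then (1 : ℝ) else 0) ≤ 2 * Real.exp (-(M * σ ^ 2) / 4) := by
  have hMr : (0 : ℝ) < M := by exact_mod_cast hM
  set I : List Bool → Bool := fun ρ' => hitA m n o B T (winA m n A st.1.1 st.1.2 o)
    (nwA m n st.1.1 st.1.2) st.2.1.1 st.2.1.2 st.2.2 ρ' with hI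
  have hc := conc (ebit_isExp.EL (T * (6 * B))) I h0 h1 M
  refine le_trans (le_of_eq ?_) hc
  rw [mul_comm M (T * (6 * B))]
  rw [← EL_chunks ebit (T * (6 * B)) M]
  congr 1
  funext ρ
  refine if_congr ?_ rfl rfl
  have hcnt : (cntA m n o B T M A st ρ : ℝ) =
      (((chunks (T * (6 * B)) M ρ).filter I).length : ℝ) := rfl
  rw [hcnt]
  set X : ℝ := (((chunks (T * (6 * B)) M ρ).filter I).length : ℝ)
  set E : ℝ := EL ebit (T * (6 * B)) (fun ρ' => if I ρ' = true then (1 : ℝ) else 0)
  have h2 : X / M - E = (X - M * E) / M := by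
    field_simp
  rw [h2, abs_div, abs_of_pos hMr, lt_div_iff₀ hMr]

private theorem estB_sum {α : Type} {e : (α → ℝ) → ℝ} (he : IsExp e) (n : ℕ)
    (F : ℕ → α → ℝ) : e (fun a => ∑ s ∈ Finset.range n, F s a) =
      ∑ s ∈ Finset.range n, e (F s) := by
  induction n with
  | zero => simpa using he.const 0
  | succ n ih =>
    simp only [Finset.sum_range_succ]
    rw [he.add, ih]

private theorem estB_chunk {β : Type} (a b s : ℕ) (hs : s < b) (l : List β) :
    (chunks a b l).getD s [] = (l.drop (a * s)).take a := by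
  unfold chunks
  rw [List.getD_eq_getElem _ _ (by simpa using hs)]
  simp

open Classical in
/-- union bound over segments -/
theorem union_segments {K S : ℕ} (bad : ℕ → List Bool → Prop) {β : ℝ}
    (h : ∀ s ≤ S, EL ebit K (fun ρ => if bad s ρ then (1 : ℝ) else 0) ≤ β) :
    EL ebit (K * (S + 1)) (fun ρ => if ∃ s ≤ S, bad s ((ρ.drop (K * s)).take K) then (1 : ℝ) else 0)
      ≤ (S + 1) * β := by
  have he := ebit_isExp.EL (K * (S + 1))
  have h1 : EL ebit (K * (S + 1)) (fun ρ => if ∃ s ≤ S, bad s ((ρ.drop (K * s)).take K)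
      then (1 : ℝ) else 0) ≤ EL ebit (K * (S + 1)) (fun ρ => ∑ s ∈ Finset.range (S + 1),
        if bad s ((ρ.drop (K * s)).take K) then (1 : ℝ) else 0) := by
    refine he.mono _ _ fun ρ => ?_
    split_ifs with hex
    · obtain ⟨s, hs, hb⟩ := hex
      refine le_trans (le_of_eq ?_) (Finset.single_le_sum (f := fun s =>
        if bad s ((ρ.drop (K * s)).take K) then (1 : ℝ) else 0) (fun i _ => ?_)
        (Finset.mem_range.2 (Nat.lt_succ_of_le hs)))
      · rw [if_pos hb]
      · split_ifs <;> norm_num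
    · exact Finset.sum_nonneg fun i _ => by split_ifs <;> norm_num
  refine le_trans h1 ?_
  rw [estB_sum he]
  have h2 : ∀ s ∈ Finset.range (S + 1), EL ebit (K * (S + 1)) (fun ρ =>
      if bad s ((ρ.drop (K * s)).take K) then (1 : ℝ) else 0) ≤ β := by
    intro s hs
    have hs' := Finset.mem_range.1 hs
    refine le_trans (le_of_eq ?_) (h s (by omega))
    have h3 := EL_chunks ebit K (S + 1) (fun L => if bad s (L.getD s []) then (1 : ℝ) else 0)
    have h4 := EL_getD (ebit_isExp.EL K) hs' [] (fun ρ => if bad s ρ then (1 : ℝ) else 0)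
    rw [← h4, ← h3]
    congr 1
    funext ρ
    rw [estB_chunk K (S + 1) s hs' ρ]
  refine le_trans (Finset.sum_le_sum h2) (le_of_eq ?_)
  rw [Finset.sum_const, Finset.card_range, nsmul_eq_mul]
  push_cast
  ring

end Vale.Agent.Lib.P328
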