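import Mathlib
import Vale.Agent.Lib.P328.ChainDefs
import Vale.Agent.Lib.P328.AlgDefs

/-!
P328, module EstC: the parameters.
-/

namespace Vale.Agent.Lib.P328

/-- part one -/
private theorem params_one {Λ m n N : ℕ} (hmn : m + n ≤ Λ) (hΛ : 8 ≤ Λ)
    (hN : Nat.size (N + 2) ≤ Λ) :
    2 * kapA m n * (m * n) * Nat.size N ≤ Λ ^ 8 := by
  have h1 : m * n ≤ Λ * Λ := Nat.mul_le_mul (by omega) (by omega)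
  have h2 : Nat.size N ≤ Λ := le_trans (Nat.size_le_size (by omega)) hN
  have h3 : 2 * kapA m n * (m * n) * Nat.size N ≤ 2 * (8 * (Λ * Λ) * Λ) * (Λ * Λ) * Λ := by
    unfold kapA
    gcongr
  have h4 : 2 * (8 * (Λ * Λ) * Λ) * (Λ * Λ) * Λ = 16 * Λ ^ 6 := by ring
  have h5 : 16 * Λ ^ 6 ≤ Λ ^ 2 * Λ ^ 6 := by
    apply Nat.mul_le_mul_right
    nlinarith
  calc 2 * kapA m n * (m * n) * Nat.size N ≤ 16 * Λ ^ 6 := by rw [← h4]; exact h3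
    _ ≤ Λ ^ 2 * Λ ^ 6 := h5
    _ = Λ ^ 8 := by ring

/-- part two -/
private theorem params_two {a Λ m n N : ℕ} (hmn : m + n ≤ Λ) (hΛ : 8 ≤ Λ)
    (hN : Nat.size (N + 2) ≤ Λ) :
    ∀ N' ≤ N + 2, steps a m n N' (Λ ^ 15) ≤ Λ ^ (16 * a) := by
  intro N' hN'
  have h2 : Nat.size N' ≤ Λ := le_trans (Nat.size_le_size hN') hN
  have h3 : Λ ≤ Λ ^ 15 := Nat.le_self_pow (by norm_num) Λ
  have h4 : m + n + Λ ^ 15 + Nat.size N' + 2 ≤ Λ ^ 16 := by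
    have h5 : 8 * Λ ^ 15 ≤ Λ * Λ ^ 15 := Nat.mul_le_mul_right _ hΛ
    have h6 : Λ * Λ ^ 15 = Λ ^ 16 := by ring
    omega
  unfold steps
  calc (m + n + Λ ^ 15 + Nat.size N' + 2) ^ a ≤ (Λ ^ 16) ^ a := Nat.pow_le_pow_left h4 a
    _ = Λ ^ (16 * a) := by rw [← pow_mul]

/-- part three -/
private theorem params_three {a Λ m n E N : ℕ} (hmn : m + n ≤ Λ) (hE : E ≤ Λ)
    (hΛ : 8 ≤ Λ) (hN : Nat.size (N + 2) ≤ Λ) :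
    ∀ R ≤ N + 2, (1 / ((Λ ^ 15 : ℕ) : ℝ) + (Λ ^ (16 * a) : ℕ) *
        (((m : ℝ) + 2 * n + (R : ℝ) + 2) / 2 ^ (40 * (a + 2) * Λ)) + 1 / (Λ : ℝ) ^ 15) *
          (8 * E * ((Λ ^ 8 : ℕ) + 1)) ≤ 1 / (1 + (m : ℝ) * n) ^ 2 := by
  intro R hR
  have hL8 : (8 : ℝ) ≤ (Λ : ℝ) := by exact_mod_cast hΛ
  have hL0 : (0 : ℝ) < (Λ : ℝ) := by linarith
  -- the numerator
  have h1 : m + 2 * n + R + 2 ≤ 2 ^ (2 * Λ) := by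
    have h2 : N + 2 < 2 ^ Λ := by
      calc N + 2 < 2 ^ Nat.size (N + 2) := Nat.lt_size_self _
        _ ≤ 2 ^ Λ := Nat.pow_le_pow_right (by norm_num) hN
    have h3 : Λ < 2 ^ Λ := Nat.lt_two_pow_self
    have h4 : 2 ^ (2 * Λ) = 2 ^ Λ * 2 ^ Λ := by rw [two_mul, pow_add]
    have h5 : 8 * 2 ^ Λ ≤ 2 ^ Λ * 2 ^ Λ := Nat.mul_le_mul_right _ (by omega)
    rw [h4]
    omega
  have h2 : Λ ^ (16 * a) * (m + 2 * n + R + 2) * Λ ^ 15 ≤ 2 ^ (40 * (a + 2) * Λ) := by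
    have h3 : Λ ≤ 2 ^ Λ := Nat.lt_two_pow_self.le
    calc Λ ^ (16 * a) * (m + 2 * n + R + 2) * Λ ^ 15
        ≤ (2 ^ Λ) ^ (16 * a) * 2 ^ (2 * Λ) * (2 ^ Λ) ^ 15 := by gcongr
      _ = 2 ^ (Λ * (16 * a) + 2 * Λ + Λ * 15) := by
          rw [← pow_mul, ← pow_mul, ← pow_add, ← pow_add]
      _ ≤ 2 ^ (40 * (a + 2) * Λ) := by
          apply Nat.pow_le_pow_right (by norm_num)
          nlinarith
  have h3 : ((Λ ^ (16 * a) : ℕ) : ℝ) * (((m : ℝ) + 2 * n + (R : ℝ) + 2) /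
      2 ^ (40 * (a + 2) * Λ)) ≤ 1 / (Λ : ℝ) ^ 15 := by
    rw [← mul_div_assoc, div_le_div_iff₀ (by positivity) (by positivity)]
    have h4 : ((Λ ^ (16 * a) * (m + 2 * n + R + 2) * Λ ^ 15 : ℕ) : ℝ) ≤
        ((2 ^ (40 * (a + 2) * Λ) : ℕ) : ℝ) := by exact_mod_cast h2
    push_cast at h4
    rw [one_mul]
    push_cast
    exact h4
  have h4 : (1 / ((Λ ^ 15 : ℕ) : ℝ) + (Λ ^ (16 * a) : ℕ) *
        (((m : ℝ) + 2 * n + (R : ℝ) + 2) / 2 ^ (40 * (a + 2) * Λ)) + 1 / (Λ : ℝ) ^ 15) ≤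
      3 / (Λ : ℝ) ^ 15 := by
    have h5 : (1 / ((Λ ^ 15 : ℕ) : ℝ)) = 1 / (Λ : ℝ) ^ 15 := by push_cast; rfl
    rw [h5]
    have h6 : (3 : ℝ) / (Λ : ℝ) ^ 15 = 1 / (Λ : ℝ) ^ 15 + 1 / (Λ : ℝ) ^ 15 + 1 / (Λ : ℝ) ^ 15 := by
      ring
    rw [h6]
    linarith
  have h5 : (8 * (E : ℝ) * (((Λ ^ 8 : ℕ) : ℝ) + 1)) ≤ 16 * (Λ : ℝ) ^ 9 := by
    have h6 : (E : ℝ) ≤ (Λ : ℝ) := by exact_mod_cast hE
    have h7 : (1 : ℝ) ≤ (Λ : ℝ) ^ 8 := one_le_pow₀ (by linarith)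
    push_cast
    calc (8 * (E : ℝ) * ((Λ : ℝ) ^ 8 + 1)) ≤ 8 * (Λ : ℝ) * ((Λ : ℝ) ^ 8 + (Λ : ℝ) ^ 8) := by
          gcongr
      _ = 16 * (Λ : ℝ) ^ 9 := by ring
  have h6 : (1 + (m : ℝ) * n) ^ 2 ≤ (Λ : ℝ) ^ 4 := by
    have h7 : 1 + m * n ≤ Λ ^ 2 := by
      have h8 : m + n ≤ Λ := hmn
      have h9 : 4 * (m * n) ≤ (m + n) * (m + n) := by
        rcases le_total m n with h | h
        · obtain ⟨d, rfl⟩ := Nat.exists_eq_add_of_le h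
          nlinarith
        · obtain ⟨d, rfl⟩ := Nat.exists_eq_add_of_le h
          nlinarith
      have h10 : (m + n) * (m + n) ≤ Λ * Λ := Nat.mul_le_mul h8 h8
      nlinarith
    have h8 : (1 + (m : ℝ) * n) ≤ (Λ : ℝ) ^ 2 := by exact_mod_cast h7
    calc (1 + (m : ℝ) * n) ^ 2 ≤ ((Λ : ℝ) ^ 2) ^ 2 := by gcongr
      _ = (Λ : ℝ) ^ 4 := by ring
  calc (1 / ((Λ ^ 15 : ℕ) : ℝ) + (Λ ^ (16 * a) : ℕ) *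
        (((m : ℝ) + 2 * n + (R : ℝ) + 2) / 2 ^ (40 * (a + 2) * Λ)) + 1 / (Λ : ℝ) ^ 15) *
          (8 * E * ((Λ ^ 8 : ℕ) + 1))
      ≤ 3 / (Λ : ℝ) ^ 15 * (16 * (Λ : ℝ) ^ 9) := by gcongr
    _ = 48 / (Λ : ℝ) ^ 6 := by
        field_simp
        ring
    _ ≤ 1 / (Λ : ℝ) ^ 4 := by
        rw [div_le_div_iff₀ (by positivity) (by positivity)]
        have h7 : (Λ : ℝ) ^ 6 = (Λ : ℝ) ^ 2 * (Λ : ℝ) ^ 4 := by ring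
        rw [h7, one_mul]
        apply mul_le_mul_of_nonneg_right _ (by positivity)
        nlinarith
    _ ≤ 1 / (1 + (m : ℝ) * n) ^ 2 := by
        apply one_div_le_one_div_of_le (by positivity) h6

/-- part four -/
private theorem params_four {Λ D : ℕ} (hD : D ≤ Λ) (hΛ : 8 ≤ Λ) :
    (((Λ ^ 8 : ℕ) : ℝ) + 1) * (2 * Real.exp (-(((Λ ^ 38 : ℕ) : ℝ) *
      (1 / (Λ : ℝ) ^ 15) ^ 2) / 4)) ≤ (1 / 2) ^ D := by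
  have hL8 : (8 : ℝ) ≤ (Λ : ℝ) := by exact_mod_cast hΛ
  have hL0 : (0 : ℝ) < (Λ : ℝ) := by linarith
  have h1 : (-(((Λ ^ 38 : ℕ) : ℝ) * (1 / (Λ : ℝ) ^ 15) ^ 2) / 4) = -((Λ : ℝ) ^ 8 / 4) := by
    push_cast
    field_simp
  rw [h1]
  have h7 : (1 : ℝ) ≤ (Λ : ℝ) ^ 8 := one_le_pow₀ (by linarith)
  -- `exp (y / 2)` is at least `2 (Λ ^ 8 + 1)`
  have h2 : 2 * ((Λ : ℝ) ^ 8 + 1) ≤ Real.exp ((Λ : ℝ) ^ 8 / 8) := by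
    have h3 : (Λ : ℝ) ^ 8 / 16 + 1 ≤ Real.exp ((Λ : ℝ) ^ 8 / 16) := Real.add_one_le_exp _
    have h4 : Real.exp ((Λ : ℝ) ^ 8 / 8) =
        Real.exp ((Λ : ℝ) ^ 8 / 16) * Real.exp ((Λ : ℝ) ^ 8 / 16) := by
      rw [← Real.exp_add]
      congr 1
      ring
    rw [h4]
    have h5 : (8 : ℝ) ^ 8 ≤ (Λ : ℝ) ^ 8 := by gcongr
    have h6 : (0 : ℝ) ≤ (Λ : ℝ) ^ 8 / 16 + 1 := by positivity
    have h8 : ((Λ : ℝ) ^ 8 / 16 + 1) * ((Λ : ℝ) ^ 8 / 16 + 1) ≤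
        Real.exp ((Λ : ℝ) ^ 8 / 16) * Real.exp ((Λ : ℝ) ^ 8 / 16) :=
      mul_le_mul h3 h3 h6 (Real.exp_pos _).le
    refine le_trans ?_ h8
    generalize (Λ : ℝ) ^ 8 = y at *
    norm_num at h5
    nlinarith
  have h3 : (2 : ℝ) ^ D ≤ Real.exp ((Λ : ℝ) ^ 8 / 8) := by
    have h4 : (2 : ℝ) ≤ Real.exp 1 := by
      have := Real.add_one_le_exp (1 : ℝ)
      linarith
    have h5 : (2 : ℝ) ^ D ≤ (Real.exp 1) ^ D := by gcongr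
    have h6 : (Real.exp 1) ^ D = Real.exp (D : ℝ) := by
      rw [← Real.exp_nat_mul]
      congr 1
      ring
    refine le_trans h5 ?_
    rw [h6]
    apply Real.exp_le_exp.mpr
    have h8 : (D : ℝ) ≤ (Λ : ℝ) := by exact_mod_cast hD
    have h9 : (Λ : ℝ) ^ 8 = (Λ : ℝ) ^ 7 * (Λ : ℝ) := by ring
    have h10 : (8 : ℝ) ≤ (Λ : ℝ) ^ 7 := by
      calc (8 : ℝ) ≤ (Λ : ℝ) := hL8
        _ = (Λ : ℝ) ^ 1 := by ring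
        _ ≤ (Λ : ℝ) ^ 7 := pow_le_pow_right₀ (by linarith) (by norm_num)
    rw [h9]
    nlinarith
  have h4 : Real.exp (-((Λ : ℝ) ^ 8 / 4)) =
      (Real.exp ((Λ : ℝ) ^ 8 / 8) * Real.exp ((Λ : ℝ) ^ 8 / 8))⁻¹ := by
    rw [← Real.exp_add, ← Real.exp_neg]
    congr 1
    ring
  have h5 : ((1 : ℝ) / 2) ^ D = ((2 : ℝ) ^ D)⁻¹ := by
    rw [one_div, inv_pow]
  rw [h4, h5]
  push_cast
  have h6 : (0 : ℝ) < (2 : ℝ) ^ D := by positivity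
  have h8 : (0 : ℝ) < Real.exp ((Λ : ℝ) ^ 8 / 8) := Real.exp_pos _
  have h9 : ((Λ : ℝ) ^ 8 + 1) * (2 * (Real.exp ((Λ : ℝ) ^ 8 / 8) *
      Real.exp ((Λ : ℝ) ^ 8 / 8))⁻¹) =
      (2 * ((Λ : ℝ) ^ 8 + 1) / Real.exp ((Λ : ℝ) ^ 8 / 8)) *
        (Real.exp ((Λ : ℝ) ^ 8 / 8))⁻¹ := by
    rw [mul_inv]
    ring
  rw [h9]
  calc (2 * ((Λ : ℝ) ^ 8 + 1) / Real.exp ((Λ : ℝ) ^ 8 / 8)) * (Real.exp ((Λ : ℝ) ^ 8 / 8))⁻¹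
      ≤ 1 * (Real.exp ((Λ : ℝ) ^ 8 / 8))⁻¹ := by
        apply mul_le_mul_of_nonneg_right _ (by positivity)
        rw [div_le_one h8]
        exact h2
    _ = (Real.exp ((Λ : ℝ) ^ 8 / 8))⁻¹ := one_mul _
    _ ≤ ((2 : ℝ) ^ D)⁻¹ := inv_anti₀ h6 h3

/-- the parameters -/
theorem params {a Λ m n E D N : ℕ} (hm : 0 < m) (hn : 0 < n) (hmn : m + n ≤ Λ) (hE : E ≤ Λ)
    (hE1 : 1 ≤ E) (hD : D ≤ Λ) (hΛ : 8 ≤ Λ) (hN : Nat.size (N + 2) ≤ Λ) :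
    2 * kapA m n * (m * n) * Nat.size N ≤ Λ ^ 8 ∧
    (∀ N' ≤ N + 2, steps a m n N' (Λ ^ 15) ≤ Λ ^ (16 * a)) ∧
    (∀ R ≤ N + 2, (1 / ((Λ ^ 15 : ℕ) : ℝ) + (Λ ^ (16 * a) : ℕ) *
        (((m : ℝ) + 2 * n + (R : ℝ) + 2) / 2 ^ (40 * (a + 2) * Λ)) + 1 / (Λ : ℝ) ^ 15) *
          (8 * E * ((Λ ^ 8 : ℕ) + 1)) ≤ 1 / (1 + (m : ℝ) * n) ^ 2) ∧
    (((Λ ^ 8 : ℕ) : ℝ) + 1) * (2 * Real.exp (-(((Λ ^ 38 : ℕ) : ℝ) * (1 / (Λ : ℝ) ^ 15) ^ 2) / 4)) ≤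
      (1 / 2) ^ D :=
  ⟨params_one hmn hΛ hN, params_two hmn hΛ hN, params_three hmn hE hΛ hN, params_four hD hΛ⟩

end Vale.Agent.Lib.P328
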