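import Mathlib
import Vale.Agent.Lib.P328.ChainSim

/-!
P328, module Hit: success probability of one run.
-/

namespace Vale.Agent.Lib.P328

open Vale.Agent.Lib.Common.PolyTime

theorem estep_chunks (B : ℕ) (G : List (List Bool) → ℝ) :
    EL ebit (6 * B) (fun u => G (chunks B 6 u)) = estep B G := by
  rw [mul_comm, EL_chunks ebit B 6 G]
  rfl

theorem erun_chunks (B T : ℕ) (G : List (List (List Bool)) → ℝ) :
    EL ebit (T * (6 * B)) (fun ρ => G ((chunks (6 * B) T ρ).map fun u => chunks B 6 u)) =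
      erun B T G := by
  rw [mul_comm T, EL_chunks ebit (6 * B) T (fun L => G (L.map fun u => chunks B 6 u)),
    EL_map (EL ebit (6 * B)) (fun u => chunks B 6 u) T G]
  have h : (fun F : List (List Bool) → ℝ => EL ebit (6 * B) fun a => F (chunks B 6 a)) =
      estep B := by
    funext F
    exact estep_chunks B F
  rw [h]
  rfl

/-- success probability of one run of a stage, for a good instance -/
theorem hit_close {a : ℕ} (hcore : ∀ (m n : ℕ) (r : Fin m → ℕ) (c : Fin n → ℕ) (o : Fin m)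
      (A t : ℕ), 1 ≤ n → 1 ≤ A → (∀ k, k ≠ o → r k + 2 ≤ r o) → steps a m n (∑ l, c l) A ≤ t →
      ∀ X ∈ tab r c, ∀ f : (Fin m → Fin n → ℕ) → ℝ, (∀ Y, 0 ≤ f Y ∧ f Y ≤ 1) →
        |(Pop (tau A r c o) o)^[t] f X - (∑ Y ∈ tab r c, f Y) / ((tab r c).card : ℝ)| ≤
          1 / (A : ℝ))
    {m n B T A : ℕ} (hB : 1 ≤ B) (hA : 1 ≤ A) {r c : List Bn} (hr : r.length = m)
    (hc : c.length = n) (hs : (r.map Bn.val).sum = (c.map Bn.val).sum) (o : Fin m)
    (hn : 0 < n) (hgood : ∀ k, k ≠ o → toV m r k + 2 ≤ toV m r o)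
    (hT : steps a m n (c.map Bn.val).sum A ≤ T) (k : Fin m) (l : Fin n) (t : Bn) :
    |EL ebit (T * (6 * B)) (fun ρ =>
        if hitA m n o B T (winA m n A r c o) (nwA m n r c) k l t ρ = true then (1 : ℝ) else 0) -
      (((tab (toV m r) (toV n c)).filter fun X => t.val ≤ X k l).card : ℝ) /
        ((tab (toV m r) (toV n c)).card : ℝ)| ≤
      1 / (A : ℝ) + T * (((m : ℝ) + 2 * n + toV m r o + 2) / 2 ^ B) := by
  classical
  obtain ⟨hWF, hmem⟩ := nwA_mem hr hc hs
  set f : (Fin m → Fin n → ℕ) → ℝ := fun Y => if t.val ≤ Y k l then (1 : ℝ) else 0 with hf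
  have hf01 : ∀ Y, 0 ≤ f Y ∧ f Y ≤ 1 := by
    intro Y
    simp only [hf]
    split_ifs <;> norm_num
  have h1 : EL ebit (T * (6 * B)) (fun ρ =>
        if hitA m n o B T (winA m n A r c o) (nwA m n r c) k l t ρ = true then (1 : ℝ) else 0) =
      erun B T (fun us => f (toT m n (runA m n o B (winA m n A r c o) (nwA m n r c) us))) := by
    rw [← erun_chunks]
    congr 1
    funext ρ
    simp only [hf, hitA, Bn.le, toT, decide_eq_true_eq]
    exact if_congr Iff.rfl rfl rfl
  have h2 := run_close hB hWF hmem o hn (winA m n A r c o) f hf01 T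
  rw [toT_winA] at h2
  have hsum : ∑ l, toV n c l = (c.map Bn.val).sum := sum_toV hc
  have h3 := hcore m n (toV m r) (toV n c) o A T hn hA hgood (by rw [hsum]; exact hT)
    (toT m n (nwA m n r c)) hmem f hf01
  have h4 : (((tab (toV m r) (toV n c)).filter fun X => t.val ≤ X k l).card : ℝ) =
      ∑ Y ∈ tab (toV m r) (toV n c), f Y := by
    simp only [hf]
    rw [Finset.sum_ite]
    simp
  rw [h1, h4]
  have h5 := abs_sub_le
    (erun B T (fun us => f (toT m n (runA m n o B (winA m n A r c o) (nwA m n r c) us))))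
    ((Pop (tau A (toV m r) (toV n c) o) o)^[T] f (toT m n (nwA m n r c)))
    ((∑ Y ∈ tab (toV m r) (toV n c), f Y) / ((tab (toV m r) (toV n c)).card : ℝ))
  linarith

end Vale.Agent.Lib.P328
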