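import Mathlib
import Vale.Agent.Lib.P328.BridgeDefs

/-!
P328, SelfRedDefs: definitions for the self reduction.
-/

namespace Vale.Agent.Lib.P328

open Vale.Agent.Lib.Common.PolyTime

/-- good instances with centre `o` -/
structure GoodI (m n : ℕ) (o : Fin m) (p : List Bn × List Bn) : Prop where
  len1 : p.1.length = m
  len2 : p.2.length = n
  sum : (p.1.map Bn.val).sum = (p.2.map Bn.val).sum
  dom : ∀ k, k ≠ o → toV m p.1 k + 2 ≤ toV m p.1 o

/-- entry of a function table with natural number indices -/
def ent {m n : ℕ} (X : Fin m → Fin n → ℕ) (k l : ℕ) : ℕ :=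
  if h : k < m ∧ l < n then X ⟨k, h.1⟩ ⟨l, h.2⟩ else 0

/-- number of tables of an instance -/
noncomputable def cardI (m n : ℕ) (p : List Bn × List Bn) : ℝ :=
  ((tab (toV m p.1) (toV n p.2)).card : ℝ)

/-- the probability of a stage for the uniform law -/
noncomputable def stProb (m n : ℕ) (st : Stage) : ℝ :=
  (((tab (toV m st.1.1) (toV n st.1.2)).filter fun X =>
    st.2.2.val ≤ ent X st.2.1.1 st.2.1.2).card : ℝ) / cardI m n st.1

/-- total mass outside the centre row -/
def outside {m : ℕ} (o : Fin m) (p : List Bn × List Bn) : ℕ :=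
  ∑ k ∈ Finset.univ.erase o, toV m p.1 k

end Vale.Agent.Lib.P328
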