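import Mathlib
import Vale.Agent.Lib.P328.SelfRedDefs
import Vale.Agent.Lib.P328.BridgeA
import Vale.Agent.Lib.P328.Inject

/-!
P328, module SelfRedA: one step of the self reduction.
-/

namespace Vale.Agent.Lib.P328

open Vale.Agent.Lib.Common.PolyTime

theorem cardI_pos {m n : ℕ} {p : List Bn × List Bn} (h1 : p.1.length = m) (h2 : p.2.length = n)
    (hs : (p.1.map Bn.val).sum = (p.2.map Bn.val).sum) : 0 < cardI m n p := by
  unfold cardI
  have h : (tab (toV m p.1) (toV n p.2)).Nonempty := by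
    apply tab_nonempty
    rw [sum_toV h1, sum_toV h2, hs]
  exact_mod_cast Finset.card_pos.mpr h

private theorem sum_set {m : ℕ} {v : List Bn} (hv : v.length = m) (k : Fin m) (x : Bn) :
    ((v.set k x).map Bn.val).sum + toV m v k = (v.map Bn.val).sum + x.val := by
  have hv' : (v.set k x).length = m := by rw [List.length_set, hv]
  rw [← sum_toV hv', ← sum_toV hv, toV_set hv, Finset.sum_update_of_mem (Finset.mem_univ k),
    Finset.sdiff_singleton_eq_erase]
  have := Finset.add_sum_erase Finset.univ (toV m v) (Finset.mem_univ k)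
  omega

private theorem ent_eq {m n : ℕ} (X : Fin m → Fin n → ℕ) (k : Fin m) (l : Fin n) :
    ent X k l = X k l := by
  unfold ent
  rw [dif_pos ⟨k.2, l.2⟩]

private theorem stProb_mul {m n : ℕ} {p : List Bn × List Bn} (h1 : p.1.length = m)
    (h2 : p.2.length = n) (hs : (p.1.map Bn.val).sum = (p.2.map Bn.val).sum)
    (k : Fin m) (l : Fin n) (t : Bn) :
    stProb m n (p, ((k : ℕ), (l : ℕ)), t) * cardI m n p =
      (((tab (toV m p.1) (toV n p.2)).filter fun X => t.val ≤ X k l).card : ℝ) := by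
  have hpos := cardI_pos h1 h2 hs
  unfold stProb
  simp only [ent_eq]
  rw [div_mul_cancel₀ _ hpos.ne']

private theorem stProb_shift {m n : ℕ} {p : List Bn × List Bn} (h1 : p.1.length = m)
    (h2 : p.2.length = n) (hs : (p.1.map Bn.val).sum = (p.2.map Bn.val).sum)
    (k : Fin m) (l : Fin n) (t : Bn) (hr : t.val ≤ toV m p.1 k) (hc : t.val ≤ toV n p.2 l) :
    ((tab (Function.update (toV m p.1) k (toV m p.1 k - t.val))
      (Function.update (toV n p.2) l (toV n p.2 l - t.val))).card : ℝ) =
      stProb m n (p, ((k : ℕ), (l : ℕ)), t) * cardI m n p := by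
  rw [stProb_mul h1 h2 hs, card_shift _ _ k l t.val hr hc]

private theorem stProb_lower {m n : ℕ} {p : List Bn × List Bn} (h1 : p.1.length = m)
    (h2 : p.2.length = n) (hs : (p.1.map Bn.val).sum = (p.2.map Bn.val).sum)
    (k : Fin m) (l : Fin n) (t : Bn)
    (h : (tab (toV m p.1) (toV n p.2)).card ≤
      (1 + m * n) ^ 2 * ((tab (toV m p.1) (toV n p.2)).filter fun X => t.val ≤ X k l).card) :
    1 / (1 + (m : ℝ) * n) ^ 2 ≤ stProb m n (p, ((k : ℕ), (l : ℕ)), t) := by
  have hpos := cardI_pos h1 h2 hs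
  have h3 := stProb_mul h1 h2 hs k l t
  have h4 : cardI m n p ≤ (1 + (m : ℝ) * n) ^ 2 *
      (stProb m n (p, ((k : ℕ), (l : ℕ)), t) * cardI m n p) := by
    rw [h3]
    unfold cardI
    exact_mod_cast h
  rw [div_le_iff₀ (by positivity)]
  have h5 : 1 * cardI m n p ≤ (stProb m n (p, ((k : ℕ), (l : ℕ)), t) * (1 + (m : ℝ) * n) ^ 2) *
      cardI m n p := by linarith
  exact le_of_mul_le_mul_right h5 hpos

/-- the enlarged instance is good, and the probability of stage `0` -/
theorem enlA_good {m n : ℕ} (hn : 0 < n) {r c : List Bn} (hr : r.length = m)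
    (hc : c.length = n) (hs : (r.map Bn.val).sum = (c.map Bn.val).sum) (o : Fin m)
    (ho : (o : ℕ) = argmaxV r) :
    GoodI m n o (enlA r c) ∧
      cardI m n (r, c) = stProb m n (enlA r c, (argmaxV r, argmaxV c), Bn.ofNat 2) *
        cardI m n (enlA r c) ∧
      1 / (1 + (m : ℝ) * n) ^ 2 ≤
        stProb m n (enlA r c, (argmaxV r, argmaxV c), Bn.ofNat 2) := by
  have hcn : c ≠ [] := by
    intro h
    rw [h] at hc
    simp at hc
    omega
  have hl : argmaxV c < n := by
    rw [← hc]
    exact argmaxV_lt hcn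
  obtain ⟨l, hlv⟩ : ∃ l : Fin n, (l : ℕ) = argmaxV c := ⟨⟨argmaxV c, hl⟩, rfl⟩
  have hE : enlA r c = (r.set (o : ℕ) (Bn.add (vget r o) (Bn.ofNat 2)),
      c.set (l : ℕ) (Bn.add (vget c l) (Bn.ofNat 2))) := by
    unfold enlA
    rw [ho, hlv]
  obtain ⟨p, hp⟩ : ∃ p : List Bn × List Bn, p = enlA r c := ⟨_, rfl⟩
  rw [← hp, ← ho, ← hlv]
  rw [← hp] at hE
  have hp1 : p.1 = r.set (o : ℕ) (Bn.add (vget r o) (Bn.ofNat 2)) := by rw [hE]
  have hp2 : p.2 = c.set (l : ℕ) (Bn.add (vget c l) (Bn.ofNat 2)) := by rw [hE]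
  have h1 : p.1.length = m := by rw [hp1, List.length_set, hr]
  have h2 : p.2.length = n := by rw [hp2, List.length_set, hc]
  have hv1 : toV m p.1 = Function.update (toV m r) o (toV m r o + 2) := by
    rw [hp1, toV_set hr]
    rfl
  have hv2 : toV n p.2 = Function.update (toV n c) l (toV n c l + 2) := by
    rw [hp2, toV_set hc]
    rfl
  have hsum : (p.1.map Bn.val).sum = (p.2.map Bn.val).sum := by
    have e1 := sum_set hr o (Bn.add (vget r o) (Bn.ofNat 2))
    have e2 := sum_set hc l (Bn.add (vget c l) (Bn.ofNat 2))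
    rw [← hp1] at e1
    rw [← hp2] at e2
    simp only [Bn.add_val, Bn.ofNat_val] at e1 e2
    have e3 : toV m r o = (vget r o).val := rfl
    have e4 : toV n c l = (vget c l).val := rfl
    omega
  have ht1 : (Bn.ofNat 2).val ≤ toV m p.1 o := by
    rw [hv1, Function.update_self, Bn.ofNat_val]
    omega
  have ht2 : (Bn.ofNat 2).val ≤ toV n p.2 l := by
    rw [hv2, Function.update_self, Bn.ofNat_val]
    omega
  refine ⟨⟨h1, h2, hsum, ?_⟩, ?_, ?_⟩
  · intro k hk
    rw [hv1, Function.update_self, Function.update_of_ne hk]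
    have h3 := argmaxV_max r k (by rw [hr]; exact k.2)
    rw [← ho] at h3
    have e3 : toV m r o = (vget r o).val := rfl
    have e4 : toV m r k = (vget r k).val := rfl
    omega
  · rw [← stProb_shift h1 h2 hsum o l (Bn.ofNat 2) ht1 ht2]
    unfold cardI
    rw [hv1, hv2]
    simp
  · apply stProb_lower h1 h2 hsum
    apply thr_small
    · rfl
    · exact ht1
    · exact ht2

/-- the threshold is at most both margins; if it is positive the row is not the centre; it is
`0`, or `1`, or `κ t ≤ min` -/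
theorem thrA_spec {m n : ℕ} (hn : 0 < n) {o : Fin m} {p : List Bn × List Bn}
    (hp : GoodI m n o p) {κ : ℕ} (hκ : 1 ≤ κ) :
    (cellA o p).1 < m ∧ (cellA o p).2 < n ∧
      (thrA κ o p).val ≤ (vget p.1 (cellA o p).1).val ∧
      (thrA κ o p).val ≤ (vget p.2 (cellA o p).2).val ∧
      ((thrA κ o p).val ≠ 0 → (cellA o p).1 ≠ o) ∧
      ((thrA κ o p).val ≤ 1 ∨ κ * (thrA κ o p).val ≤
        min (vget p.1 (cellA o p).1).val (vget p.2 (cellA o p).2).val) := by
  have hm : 0 < m := lt_of_le_of_lt (Nat.zero_le _) o.2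
  have h1 : (cellA o p).1 < m := by
    have hne : p.1.set (o : ℕ) ⟨0⟩ ≠ [] := by
      intro h
      have := congrArg List.length h
      rw [List.length_set, hp.len1, List.length_nil] at this
      omega
    have := argmaxV_lt hne
    rw [List.length_set, hp.len1] at this
    exact this
  have h2 : (cellA o p).2 < n := by
    have hne : p.2 ≠ [] := by
      intro h
      have := congrArg List.length h
      rw [hp.len2, List.length_nil] at this
      omega
    have := argmaxV_lt hne
    rw [hp.len2] at this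
    exact this
  have ho : (o : ℕ) < p.1.length := by rw [hp.len1]; exact o.2
  have h3 := vget_set p.1 ho ⟨0⟩ (cellA o p).1
  obtain ⟨M, hM⟩ : ∃ M : ℕ, M = (minA o p).val := ⟨_, rfl⟩
  have hM1 : M = Nat.min (vget (p.1.set (o : ℕ) ⟨0⟩) (cellA o p).1).val
    (vget p.2 (cellA o p).2).val := hM
  have hM2 : M ≤ (vget p.2 (cellA o p).2).val := by
    rw [hM1]
    exact Nat.min_le_right _ _
  have hM3 : M ≤ (vget (p.1.set (o : ℕ) ⟨0⟩) (cellA o p).1).val := by
    rw [hM1]
    exact Nat.min_le_left _ _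
  have hM4 : M ≤ (vget p.1 (cellA o p).1).val := by
    refine hM3.trans ?_
    rw [h3]
    split_ifs
    · exact Nat.zero_le _
    · exact le_rfl
  have hM5 : M ≠ 0 → (cellA o p).1 ≠ o := by
    intro hM0 h
    apply hM0
    rw [h3, if_pos h] at hM3
    exact Nat.le_zero.mp hM3
  have hthr : (thrA κ o p).val = if M = 0 then 0 else max 1 (M / κ) := by
    unfold thrA
    by_cases hM0 : M = 0
    · have : Bn.le (minA o p) (Bn.ofNat 0) = true := by
        unfold Bn.le
        rw [← hM, hM0]
        rfl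
      rw [this, if_pos hM0]
      rfl
    · have : Bn.le (minA o p) (Bn.ofNat 0) = false := by
        unfold Bn.le
        rw [← hM]
        apply decide_eq_false
        rw [Bn.ofNat_val]
        omega
      rw [this, if_neg hM0]
      simp only [cond_false, Bn.max_val, Bn.ofNat_val, Bn.div_val]
      rw [← hM]
  have hle : (thrA κ o p).val ≤ M := by
    rw [hthr]
    split_ifs with h
    · exact Nat.zero_le _
    · apply max_le
      · omega
      · exact Nat.div_le_self _ _
  refine ⟨h1, h2, hle.trans hM4, hle.trans hM2, ?_, ?_⟩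
  · intro h
    apply hM5
    intro hM0
    apply h
    rw [hthr, if_pos hM0]
  · rw [hthr]
    split_ifs with h
    · left
      exact Nat.zero_le _
    · by_cases h4 : M / κ ≤ 1
      · left
        rw [max_eq_left h4]
      · right
        rw [max_eq_right (by omega)]
        have h5 : κ * (M / κ) ≤ M := Nat.mul_div_le _ _
        exact le_min (h5.trans hM4) (h5.trans hM2)

/-- one step of the self reduction -/
theorem nextA_good {m n : ℕ} (hn : 0 < n) {o : Fin m} {p : List Bn × List Bn}
    (hp : GoodI m n o p) {κ : ℕ} (hκ : κ = kapA m n) :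
    GoodI m n o (nextA κ o p) ∧
      cardI m n (nextA κ o p) = stProb m n (stageOf κ o p) * cardI m n p ∧
      1 / (1 + (m : ℝ) * n) ^ 2 ≤ stProb m n (stageOf κ o p) := by
  have hm : 0 < m := lt_of_le_of_lt (Nat.zero_le _) o.2
  have hκ1 : 1 ≤ κ := by
    rw [hκ]
    unfold kapA
    have : 0 < 8 * (m * n) * (m + n) := by positivity
    omega
  obtain ⟨hk, hl, ht1, ht2, hko, hcase⟩ := thrA_spec hn hp hκ1
  obtain ⟨k, hkv⟩ : ∃ k : Fin m, (k : ℕ) = (cellA o p).1 := ⟨⟨_, hk⟩, rfl⟩
  obtain ⟨l, hlv⟩ : ∃ l : Fin n, (l : ℕ) = (cellA o p).2 := ⟨⟨_, hl⟩, rfl⟩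
  obtain ⟨t, ht⟩ : ∃ t : Bn, t = thrA κ o p := ⟨_, rfl⟩
  rw [← ht, ← hkv] at ht1
  rw [← ht, ← hlv] at ht2
  rw [← ht, ← hkv] at hko
  rw [← ht, ← hkv, ← hlv] at hcase
  have hst : stageOf κ o p = (p, ((k : ℕ), (l : ℕ)), t) := by
    unfold stageOf
    rw [hkv, hlv, ht]
  have hnx : nextA κ o p = (p.1.set (k : ℕ) (Bn.sub (vget p.1 k) t),
      p.2.set (l : ℕ) (Bn.sub (vget p.2 l) t)) := by
    unfold nextA
    rw [hkv, hlv, ht]
  obtain ⟨q, hq⟩ : ∃ q : List Bn × List Bn, q = nextA κ o p := ⟨_, rfl⟩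
  rw [← hq] at hnx ⊢
  rw [hst]
  have hq1 : q.1 = p.1.set (k : ℕ) (Bn.sub (vget p.1 k) t) := by rw [hnx]
  have hq2 : q.2 = p.2.set (l : ℕ) (Bn.sub (vget p.2 l) t) := by rw [hnx]
  have h1 : q.1.length = m := by rw [hq1, List.length_set, hp.len1]
  have h2 : q.2.length = n := by rw [hq2, List.length_set, hp.len2]
  have hv1 : toV m q.1 = Function.update (toV m p.1) k (toV m p.1 k - t.val) := by
    rw [hq1, toV_set hp.len1]
    rfl
  have hv2 : toV n q.2 = Function.update (toV n p.2) l (toV n p.2 l - t.val) := by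
    rw [hq2, toV_set hp.len2]
    rfl
  have e3 : toV m p.1 k = (vget p.1 k).val := rfl
  have e4 : toV n p.2 l = (vget p.2 l).val := rfl
  have hsum : (q.1.map Bn.val).sum = (q.2.map Bn.val).sum := by
    have e1 := sum_set hp.len1 k (Bn.sub (vget p.1 k) t)
    have e2 := sum_set hp.len2 l (Bn.sub (vget p.2 l) t)
    rw [← hq1] at e1
    rw [← hq2] at e2
    simp only [Bn.sub_val] at e1 e2
    have e5 := hp.sum
    omega
  refine ⟨⟨h1, h2, hsum, ?_⟩, ?_, ?_⟩
  · intro i hi
    have h3 := hp.dom i hi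
    have h4 : toV m q.1 o = toV m p.1 o := by
      rw [hv1]
      by_cases hok : o = k
      · have : t.val = 0 := by
          by_contra h
          exact hko h (by rw [hok])
        rw [hok, Function.update_self, this, Nat.sub_zero]
      · rw [Function.update_of_ne hok]
    have h5 : toV m q.1 i ≤ toV m p.1 i := by
      rw [hv1]
      by_cases hik : i = k
      · rw [hik, Function.update_self]
        exact Nat.sub_le _ _
      · rw [Function.update_of_ne hik]
    omega
  · rw [← stProb_shift hp.len1 hp.len2 hp.sum k l t ht1 ht2]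
    unfold cardI
    rw [hv1, hv2]
  · apply stProb_lower hp.len1 hp.len2 hp.sum
    rcases hcase with h | h
    · exact thr_small _ _ _ _ _ (by omega) ht1 ht2
    · apply thr_large
      rw [hκ] at h
      exact h

end Vale.Agent.Lib.P328
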