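import Mathlib
import Vale.Agent.Lib.P328.SelfRedA

/-!
P328, module SelfRedB: termination and product formula.
-/

namespace Vale.Agent.Lib.P328

open Vale.Agent.Lib.Common.PolyTime

/-! ### sequences that decrease geometrically -/

theorem seq_anti {D : ℕ} (hD : 0 < D) (u : ℕ → ℕ) (h : ∀ s, D * u (s + 1) + u s ≤ D * u s)
    (s j : ℕ) : u (s + j) ≤ u s := by
  induction j with
  | zero => exact le_rfl
  | succ j ih =>
    refine le_trans ?_ ih
    have h1 := h (s + j)
    have h2 : D * u (s + j + 1) ≤ D * u (s + j) := by omega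
    exact Nat.le_of_mul_le_mul_left h2 hD

theorem seq_block {D : ℕ} (hD : 0 < D) (u : ℕ → ℕ) (h : ∀ s, D * u (s + 1) + u s ≤ D * u s)
    (s j : ℕ) : D * u (s + j) + j * u (s + j) ≤ D * u s := by
  induction j with
  | zero => simp
  | succ j ih =>
    have h1 := h (s + j)
    have h2 : u (s + j + 1) ≤ u (s + j) := seq_anti hD u h (s + j) 1
    have h3 : j * u (s + j + 1) ≤ j * u (s + j) := Nat.mul_le_mul_left _ h2
    have e0 : s + (j + 1) = s + j + 1 := rfl
    rw [e0]
    calc D * u (s + j + 1) + (j + 1) * u (s + j + 1)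
        = D * u (s + j + 1) + (j * u (s + j + 1) + u (s + j + 1)) := by ring
      _ ≤ D * u (s + j + 1) + (j * u (s + j) + u (s + j)) := by omega
      _ = (D * u (s + j + 1) + u (s + j)) + j * u (s + j) := by ring
      _ ≤ D * u (s + j) + j * u (s + j) := by omega
      _ ≤ _ := ih

theorem seq_half {D : ℕ} (hD : 0 < D) (u : ℕ → ℕ) (h : ∀ s, D * u (s + 1) + u s ≤ D * u s)
    (q : ℕ) : 2 ^ q * u (D * q) ≤ u 0 := by
  induction q with
  | zero => simp
  | succ q ih =>
    have h1 := seq_block hD u h (D * q) D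
    have h2 : D * (2 * u (D * q + D)) ≤ D * u (D * q) := by
      calc _ = D * u (D * q + D) + D * u (D * q + D) := by ring
        _ ≤ _ := h1
    have h3 := Nat.le_of_mul_le_mul_left h2 hD
    have e0 : D * (q + 1) = D * q + D := rfl
    rw [e0]
    calc 2 ^ (q + 1) * u (D * q + D) = 2 ^ q * (2 * u (D * q + D)) := by ring
      _ ≤ 2 ^ q * u (D * q) := Nat.mul_le_mul_left _ h3
      _ ≤ _ := ih

theorem seq_zero {D : ℕ} (hD : 0 < D) (u : ℕ → ℕ) (h : ∀ s, D * u (s + 1) + u s ≤ D * u s)
    {S : ℕ} (hS : D * Nat.size (u 0) ≤ S) : u S = 0 := by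
  have h1 := seq_half hD u h (Nat.size (u 0))
  have h2 : u 0 < 2 ^ Nat.size (u 0) := Nat.lt_size_self _
  have h3 : u (D * Nat.size (u 0)) = 0 := by
    by_contra hne
    have h4 : 1 ≤ u (D * Nat.size (u 0)) := Nat.one_le_iff_ne_zero.2 hne
    have h5 : 2 ^ Nat.size (u 0) * 1 ≤ 2 ^ Nat.size (u 0) * u (D * Nat.size (u 0)) :=
      Nat.mul_le_mul_left _ h4
    omega
  obtain ⟨j, rfl⟩ := Nat.exists_eq_add_of_le hS
  have := seq_anti hD u h (D * Nat.size (u 0)) j
  omega

/-! ### one step -/

theorem outside_le_of {m : ℕ} (o : Fin m) (p : List Bn × List Bn) (a : ℕ)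
    (h : ∀ i, i ≠ o → toV m p.1 i ≤ a) : outside o p ≤ m * a := by
  unfold outside
  calc ∑ k ∈ Finset.univ.erase o, toV m p.1 k ≤ ∑ _k ∈ Finset.univ.erase o, a := by
        apply Finset.sum_le_sum
        intro i hi
        exact h i (Finset.ne_of_mem_erase hi)
    _ = (Finset.univ.erase o).card * a := by rw [Finset.sum_const, smul_eq_mul]
    _ ≤ m * a := by
        apply Nat.mul_le_mul_right
        rw [Finset.card_erase_of_mem (Finset.mem_univ _), Finset.card_univ, Fintype.card_fin]
        omega

/-- the mass outside the centre row after one step -/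
theorem outside_nextA {m n : ℕ} (hn : 0 < n) {o : Fin m} {p : List Bn × List Bn}
    (hp : GoodI m n o p) {κ : ℕ} (hκ : 1 ≤ κ) :
    outside o (nextA κ o p) + (thrA κ o p).val = outside o p := by
  obtain ⟨hk, hl, h1, h2, h3, -⟩ := thrA_spec hn hp hκ
  have hv := toV_set hp.len1 (⟨(cellA o p).1, hk⟩ : Fin m)
    (Bn.sub (vget p.1 (cellA o p).1) (thrA κ o p))
  have e1 : toV m (nextA κ o p).1 = Function.update (toV m p.1) ⟨(cellA o p).1, hk⟩
      (toV m p.1 ⟨(cellA o p).1, hk⟩ - (thrA κ o p).val) := hv
  unfold outside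
  rw [e1]
  have h1' : (thrA κ o p).val ≤ toV m p.1 ⟨(cellA o p).1, hk⟩ := h1
  by_cases ht : (thrA κ o p).val = 0
  · rw [ht, Nat.sub_zero, Function.update_eq_self, add_zero]
  · have hne : (⟨(cellA o p).1, hk⟩ : Fin m) ≠ o := by
      intro h
      exact h3 ht (congrArg Fin.val h)
    have hmem : (⟨(cellA o p).1, hk⟩ : Fin m) ∈ Finset.univ.erase o :=
      Finset.mem_erase.2 ⟨hne, Finset.mem_univ _⟩
    rw [Finset.sum_update_of_mem hmem, ← Finset.add_sum_erase _ _ hmem,
      Finset.erase_eq (Finset.univ.erase o)]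
    omega

/-- the mass outside the centre row decreases geometrically: if it is positive, the chosen row has
`r k ≥ outside / m`, the chosen column `c l ≥ N / n ≥ r k / n`, and `2 κ t ≥ min (r k) (c l)` -/
theorem outside_next {m n : ℕ} (hn : 0 < n) {o : Fin m} {p : List Bn × List Bn}
    (hp : GoodI m n o p) {κ : ℕ} (hκ : 1 ≤ κ) :
    2 * κ * (m * n) * outside o (nextA κ o p) + outside o p ≤ 2 * κ * (m * n) * outside o p := by
  have hnext := outside_nextA hn hp hκ
  set t := (thrA κ o p).val with ht
  set a := (vget (p.1.set o ⟨0⟩) (cellA o p).1).val with ha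
  set b := (vget p.2 (cellA o p).2).val with hb
  have ho : (o : ℕ) < p.1.length := by rw [hp.len1]; exact o.2
  have hrow : ∀ i : Fin m, i ≠ o → toV m p.1 i ≤ a := by
    intro i hi
    have h1 := argmaxV_max (p.1.set o ⟨0⟩) i (by rw [List.length_set, hp.len1]; exact i.2)
    rw [vget_set p.1 ho, if_neg (fun h => hi (Fin.ext h))] at h1
    exact h1
  have hout : outside o p ≤ m * a := outside_le_of o p a hrow
  have hcol : ∀ j : Fin n, toV n p.2 j ≤ b := by
    intro j
    exact argmaxV_max p.2 j (by rw [hp.len2]; exact j.2)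
  have hN : (p.2.map Bn.val).sum ≤ n * b := by
    rw [← sum_toV hp.len2]
    calc _ ≤ ∑ _j : Fin n, b := Finset.sum_le_sum fun j _ => hcol j
      _ = n * b := by rw [Finset.sum_const, Finset.card_univ, Fintype.card_fin, smul_eq_mul]
  have haN : a ≤ (p.2.map Bn.val).sum := by
    rw [← hp.sum, ← sum_toV hp.len1, ha, vget_set p.1 ho]
    by_cases hc : (cellA o p).1 = o
    · rw [if_pos hc]; exact Nat.zero_le _
    · rw [if_neg hc]
      by_cases hlt : (cellA o p).1 < m
      · exact Finset.single_le_sum (f := fun i => toV m p.1 i) (fun _ _ => Nat.zero_le _)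
          (Finset.mem_univ (⟨(cellA o p).1, hlt⟩ : Fin m))
      · have : vget p.1 (cellA o p).1 = ⟨0⟩ := by
          unfold vget
          apply List.getD_eq_default
          rw [hp.len1]; omega
        rw [this]; exact Nat.zero_le _
  have hab : a ≤ n * min a b := by
    rcases le_total a b with h | h
    · rw [min_eq_left h]; exact Nat.le_mul_of_pos_left _ hn
    · rw [min_eq_right h]; omega
  have hmin : (minA o p).val = min a b := rfl
  have hthr : min a b ≤ 2 * κ * t := by
    rw [ht]
    unfold thrA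
    by_cases h0 : (minA o p).val ≤ 0
    · rw [hmin] at h0; omega
    · have : Bn.le (minA o p) (Bn.ofNat 0) = false := by
        exact decide_eq_false h0
      rw [this]
      simp only [cond_false, Bn.max_val, Bn.div_val, Bn.ofNat_val, hmin]
      have h1 : min a b < κ * (min a b / κ + 1) := Nat.lt_mul_div_succ _ hκ
      have h2 : min a b / κ + 1 ≤ 2 * Nat.max 1 (min a b / κ) := by
        have e1 : 1 ≤ Nat.max 1 (min a b / κ) := le_max_left _ _
        have e2 : min a b / κ ≤ Nat.max 1 (min a b / κ) := le_max_right _ _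
        omega
      calc min a b ≤ κ * (min a b / κ + 1) := h1.le
        _ ≤ κ * (2 * Nat.max 1 (min a b / κ)) := Nat.mul_le_mul_left _ h2
        _ = _ := by ring
  have key : outside o p ≤ 2 * κ * (m * n) * t := by
    calc outside o p ≤ m * a := hout
      _ ≤ m * (n * min a b) := Nat.mul_le_mul_left _ hab
      _ ≤ m * (n * (2 * κ * t)) := Nat.mul_le_mul_left _ (Nat.mul_le_mul_left _ hthr)
      _ = _ := by ring
  calc _ ≤ 2 * κ * (m * n) * outside o (nextA κ o p) + 2 * κ * (m * n) * t := by omega
    _ = 2 * κ * (m * n) * (outside o (nextA κ o p) + t) := by ring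
    _ = _ := by rw [hnext]

theorem kapA_pos {m n : ℕ} (hm : 0 < m) (hn : 0 < n) : 1 ≤ kapA m n := by
  unfold kapA
  have h1 : 0 < m * n := Nat.mul_pos hm hn
  have h2 : 0 < m + n := by omega
  exact Nat.mul_pos (Nat.mul_pos (by norm_num) h1) h2

theorem nextA_iter_good {m n : ℕ} (hn : 0 < n) {o : Fin m} {p : List Bn × List Bn}
    (hp : GoodI m n o p) (s : ℕ) : GoodI m n o ((nextA (kapA m n) o)^[s] p) := by
  induction s with
  | zero => exact hp
  | succ s ih =>
    rw [Function.iterate_succ_apply']
    exact (nextA_good hn ih rfl).1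

/-- after enough steps there is nothing outside the centre row -/
theorem outside_zero {m n : ℕ} (hn : 0 < n) {o : Fin m} {p : List Bn × List Bn}
    (hp : GoodI m n o p) {S : ℕ}
    (hS : 2 * kapA m n * (m * n) * Nat.size (outside o p) ≤ S) :
    outside o ((nextA (kapA m n) o)^[S] p) = 0 := by
  have hm : 0 < m := lt_of_le_of_lt (Nat.zero_le _) o.2
  have hκ := kapA_pos hm hn
  have hD : 0 < 2 * kapA m n * (m * n) :=
    Nat.mul_pos (Nat.mul_pos (by norm_num) hκ) (Nat.mul_pos hm hn)
  apply seq_zero hD (fun s => outside o ((nextA (kapA m n) o)^[s] p)) _ hS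
  intro s
  have h := outside_next hn (nextA_iter_good hn hp s) hκ
  simp only [Function.iterate_succ_apply']
  exact h

theorem prod_stages {m n : ℕ} (hn : 0 < n) {o : Fin m} {p : List Bn × List Bn}
    (hp : GoodI m n o p) (S : ℕ) :
    cardI m n ((nextA (kapA m n) o)^[S] p) =
      (∏ s ∈ Finset.range S, stProb m n (stageOf (kapA m n) o ((nextA (kapA m n) o)^[s] p))) *
        cardI m n p := by
  induction S with
  | zero => simp
  | succ S ih =>
    rw [Function.iterate_succ_apply', (nextA_good hn (nextA_iter_good hn hp S) rfl).2.1, ih,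
      Finset.prod_range_succ]
    ring

/-- the product formula -/
theorem selfred {m n : ℕ} (hn : 0 < n) {r c : List Bn} (hr : r.length = m)
    (hc : c.length = n) (hs : (r.map Bn.val).sum = (c.map Bn.val).sum) (o : Fin m)
    (ho : (o : ℕ) = argmaxV r) {S : ℕ}
    (hS : 2 * kapA m n * (m * n) * Nat.size (r.map Bn.val).sum ≤ S) :
    (∀ s, GoodI m n o (stageA (kapA m n) r c s).1) ∧
      (∀ s, 1 / (1 + (m : ℝ) * n) ^ 2 ≤ stProb m n (stageA (kapA m n) r c s)) ∧
      stProb m n (stageA (kapA m n) r c 0) =
        cardI m n (r, c) * ∏ s ∈ Finset.range S, stProb m n (stageA (kapA m n) r c (s + 1)) := by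
  obtain ⟨hg, hcard, hprob⟩ := enlA_good hn hr hc hs o ho
  have e0 : stageA (kapA m n) r c 0 = (enlA r c, (argmaxV r, argmaxV c), Bn.ofNat 2) := rfl
  have es : ∀ s, stageA (kapA m n) r c (s + 1) =
      stageOf (kapA m n) o ((nextA (kapA m n) o)^[s] (enlA r c)) := by
    intro s
    rw [ho]
    rfl
  refine ⟨?_, ?_, ?_⟩
  · intro s
    cases s with
    | zero => rw [e0]; exact hg
    | succ s => rw [es s]; exact nextA_iter_good hn hg s
  · intro s
    cases s with
    | zero => rw [e0]; exact hprob
    | succ s => rw [es s]; exact (nextA_good hn (nextA_iter_good hn hg s) rfl).2.2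
  · have hprod := prod_stages hn hg S
    have hout : outside o (enlA r c) ≤ (r.map Bn.val).sum := by
      rw [← sum_toV hr]
      unfold outside
      have e1 : toV m (enlA r c).1 = Function.update (toV m r) o (toV m r o + 2) := by
        have := toV_set hr o (Bn.add (vget r (argmaxV r)) (Bn.ofNat 2))
        rw [ho] at this
        rw [show (enlA r c).1 = r.set (argmaxV r) (Bn.add (vget r (argmaxV r)) (Bn.ofNat 2)) from rfl,
          this]
        congr 1
        simp only [Bn.add_val, Bn.ofNat_val, toV, ho]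
      rw [e1]
      calc ∑ k ∈ Finset.univ.erase o, Function.update (toV m r) o (toV m r o + 2) k
          = ∑ k ∈ Finset.univ.erase o, toV m r k := by
            apply Finset.sum_congr rfl
            intro k hk
            rw [Function.update_of_ne (Finset.ne_of_mem_erase hk)]
        _ ≤ ∑ k, toV m r k := Finset.sum_le_sum_of_subset (Finset.erase_subset _ _)
    have hz : outside o ((nextA (kapA m n) o)^[S] (enlA r c)) = 0 := by
      apply outside_zero hn hg
      refine le_trans (Nat.mul_le_mul_left _ (Nat.size_le_size hout)) hS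
    have hgS := nextA_iter_good hn hg S
    have h1 : cardI m n ((nextA (kapA m n) o)^[S] (enlA r c)) = 1 := by
      unfold cardI
      have : (tab (toV m ((nextA (kapA m n) o)^[S] (enlA r c)).1)
          (toV n ((nextA (kapA m n) o)^[S] (enlA r c)).2)).card = 1 := by
        apply card_tab_one _ _ o
        · rw [sum_toV hgS.len1, sum_toV hgS.len2]; exact hgS.sum
        · intro k hk
          unfold outside at hz
          rw [Finset.sum_eq_zero_iff] at hz
          exact hz k (Finset.mem_erase.2 ⟨hk, Finset.mem_univ _⟩)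
      rw [this]; norm_num
    rw [h1] at hprod
    have hprod' : ∏ s ∈ Finset.range S, stProb m n (stageA (kapA m n) r c (s + 1)) =
        ∏ s ∈ Finset.range S,
          stProb m n (stageOf (kapA m n) o ((nextA (kapA m n) o)^[s] (enlA r c))) :=
      Finset.prod_congr rfl fun s _ => by rw [es s]
    rw [hprod', hcard, e0]
    calc stProb m n (enlA r c, (argmaxV r, argmaxV c), Bn.ofNat 2)
        = stProb m n (enlA r c, (argmaxV r, argmaxV c), Bn.ofNat 2) * 1 := by ring
      _ = stProb m n (enlA r c, (argmaxV r, argmaxV c), Bn.ofNat 2) *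
          ((∏ s ∈ Finset.range S,
            stProb m n (stageOf (kapA m n) o ((nextA (kapA m n) o)^[s] (enlA r c)))) *
          cardI m n (enlA r c)) := by rw [← hprod]
      _ = _ := by ring

end Vale.Agent.Lib.P328
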