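import Mathlib
import Vale.Agent.Lib.P328.Core
import Vale.Agent.Lib.P328.Hit
import Vale.Agent.Lib.P328.SelfRedB
import Vale.Agent.Lib.P328.EstA
import Vale.Agent.Lib.P328.EstB
import Vale.Agent.Lib.P328.EstC

/-!
P328, module EstD: the probabilistic half of the FPRAS.
-/

namespace Vale.Agent.Lib.P328

open Vale.Agent.Lib.Common.PolyTime

/-- changing one entry -/
private theorem sum_set {v : List Bn} {i : ℕ} (hi : i < v.length) (x : Bn) :
    ((v.set i x).map Bn.val).sum + (vget v i).val = (v.map Bn.val).sum + x.val := by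
  have h1 : ((v.set i x).map Bn.val).sum = ∑ j, toV v.length (v.set i x) j :=
    (sum_toV (m := v.length) (by rw [List.length_set])).symm
  have h2 : (v.map Bn.val).sum = ∑ j, toV v.length v j := (sum_toV rfl).symm
  have h3 := toV_set (m := v.length) (v := v) rfl ⟨i, hi⟩ x
  rw [h1, h2]
  simp only at h3
  rw [h3, Finset.sum_update_of_mem (Finset.mem_univ _)]
  have h4 : (vget v i).val = toV v.length v ⟨i, hi⟩ := rfl
  rw [h4]
  have h5 := Finset.add_sum_erase Finset.univ (toV v.length v) (Finset.mem_univ ⟨i, hi⟩)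
  rw [← Finset.erase_eq]
  omega

/-- entries are at most the sum -/
private theorem toV_le_sum {m : ℕ} {v : List Bn} (hv : v.length = m) (i : Fin m) :
    toV m v i ≤ (v.map Bn.val).sum := by
  rw [← sum_toV hv]
  exact Finset.single_le_sum (fun _ _ => Nat.zero_le _) (Finset.mem_univ i)

/-- the mass of all stages is at most the mass of the enlarged instance -/
private theorem stage_sum_le {n : ℕ} {r c : List Bn} (hc : c.length = n) (hn : 0 < n)
    (κ : ℕ) (s : ℕ) :
    ((nextA κ (argmaxV r))^[s] (enlA r c)).2.length = n ∧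
    (((nextA κ (argmaxV r))^[s] (enlA r c)).2.map Bn.val).sum ≤ (c.map Bn.val).sum + 2 := by
  have hc0 : c ≠ [] := by
    rintro rfl
    simp at hc
    omega
  induction s with
  | zero =>
    refine ⟨?_, ?_⟩
    · simp only [Function.iterate_zero, id_eq, enlA, List.length_set]
      exact hc
    · simp only [Function.iterate_zero, id_eq, enlA]
      have h1 := sum_set (v := c) (argmaxV_lt hc0) (Bn.add (vget c (argmaxV c)) (Bn.ofNat 2))
      simp only [Bn.add_val, Bn.ofNat_val] at h1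
      omega
  | succ s ih =>
    rw [Function.iterate_succ_apply']
    set p := (nextA κ (argmaxV r))^[s] (enlA r c) with hp
    have hp0 : p.2 ≠ [] := by
      intro h
      have := ih.1
      rw [h] at this
      simp at this
      omega
    refine ⟨?_, ?_⟩
    · simp only [nextA, List.length_set]
      exact ih.1
    · simp only [nextA]
      have h1 := sum_set (v := p.2) (argmaxV_lt hp0)
        (Bn.sub (vget p.2 (argmaxV p.2)) (thrA κ (argmaxV r) p))
      simp only [Bn.sub_val] at h1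
      have h2 : (cellA (argmaxV r) p).2 = argmaxV p.2 := rfl
      rw [h2]
      have h3 := ih.2
      omega

private theorem stageA_sum_le {n : ℕ} {r c : List Bn} (hc : c.length = n) (hn : 0 < n)
    (κ : ℕ) (s : ℕ) :
    ((stageA κ r c s).1.2.map Bn.val).sum ≤ (c.map Bn.val).sum + 2 := by
  cases s with
  | zero => exact (stage_sum_le hc hn κ 0).2
  | succ s => exact (stage_sum_le hc hn κ s).2

/-- the cells of the stages are in range -/
private theorem stageA_cell {m n : ℕ} {r c : List Bn} (hr : r.length = m) (hc : c.length = n)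
    (hm : 0 < m) (hn : 0 < n) (o : Fin m) (ho : (o : ℕ) = argmaxV r)
    (hG : ∀ s, GoodI m n o (stageA (kapA m n) r c s).1) (hκ : 1 ≤ kapA m n) (s : ℕ) :
    (stageA (kapA m n) r c s).2.1.1 < m ∧ (stageA (kapA m n) r c s).2.1.2 < n := by
  cases s with
  | zero =>
    have hr0 : r ≠ [] := by
      rintro rfl
      simp at hr
      omega
    have hc0 : c ≠ [] := by
      rintro rfl
      simp at hc
      omega
    exact ⟨hr ▸ argmaxV_lt hr0, hc ▸ argmaxV_lt hc0⟩
  | succ s =>
    have h1 := hG (s + 1)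
    have h2 : (stageA (kapA m n) r c (s + 1)).1 =
      (nextA (kapA m n) (argmaxV r))^[s] (enlA r c) := rfl
    have h3 : (stageA (kapA m n) r c (s + 1)).2.1 =
      cellA (argmaxV r) ((nextA (kapA m n) (argmaxV r))^[s] (enlA r c)) := rfl
    rw [h2] at h1
    have h4 := thrA_spec hn h1 hκ
    rw [ho] at h4
    rw [h3]
    exact ⟨h4.1, h4.2.1⟩

private theorem getD_cntsA (S M T B A κ : ℕ) (r c : List Bn) (ρ : List Bool) {s : ℕ}
    (hs : s ≤ S) :
    (cntsA S M T B A κ r c ρ).getD s 0 =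
      cntA r.length c.length (argmaxV r) B T M A (stageA κ r c s)
        ((ρ.drop (M * (T * (6 * B)) * s)).take (M * (T * (6 * B)))) := by
  unfold cntsA
  rw [List.getD_eq_getElem?_getD, List.getElem?_map, List.getElem?_range (by omega)]
  rfl

open Classical in
/-- the deterministic part of the proof: if all counts are close to their expectations then the
estimate is good -/
private theorem good_event {m n S M T B A κ E : ℕ} {r c : List Bn} {ρ : List Bool}
    (hM : 0 < M) (hE : 1 ≤ E) {δ pm : ℝ} (hpm : 0 < pm)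
    (hC : 0 < cardI m n (r, c)) (hδ : δ * (8 * E * ((S : ℝ) + 1)) ≤ pm)
    (hy : ∀ s, pm ≤ stProb m n (stageA κ r c s))
    (hprod : stProb m n (stageA κ r c 0) =
        cardI m n (r, c) * ∏ s ∈ Finset.range S, stProb m n (stageA κ r c (s + 1)))
    (hclose : ∀ s ≤ S, |((cntsA S M T B A κ r c ρ).getD s 0 : ℝ) / M -
      stProb m n (stageA κ r c s)| ≤ δ) :
    |((estA S M T B A κ r c ρ).1.val : ℝ) / ((estA S M T B A κ r c ρ).2.val : ℝ) -
        cardI m n (r, c)| ≤ cardI m n (r, c) / E := by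
  have h1 := ratio_close (S := S) (E := (E : ℝ)) (δ := δ) (pm := pm) (C := cardI m n (r, c))
    (by exact_mod_cast hE) hpm hC hδ
    (fun s => ((cntsA S M T B A κ r c ρ).getD s 0 : ℝ) / M)
    (fun s => stProb m n (stageA κ r c s)) (fun s _ => hy s) hclose hprod
  have hpos : ∀ s, s < S → 0 < (cntsA S M T B A κ r c ρ).getD (s + 1) 0 := by
    intro s hs
    by_contra hcon
    have h0 : (cntsA S M T B A κ r c ρ).getD (s + 1) 0 = 0 := by omega
    have h2 : ∏ s ∈ Finset.range S, (((cntsA S M T B A κ r c ρ).getD (s + 1) 0 : ℝ) / M) = 0 := by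
      apply Finset.prod_eq_zero (Finset.mem_range.mpr hs)
      rw [h0]
      simp
    have h3 := h1.1
    rw [h2] at h3
    exact lt_irrefl _ h3
  have h2 := (estA_eq S M T B A κ r c ρ hM hpos).2
  rw [h2]
  exact h1.2

open Classical in
/-- the probabilistic half of the FPRAS -/
theorem algA_spec : ∃ a : ℕ, ∀ (Λ : ℕ) (r c : List Bn) (E D : ℕ), r ≠ [] → c ≠ [] →
    (r.map Bn.val).sum = (c.map Bn.val).sum → 8 ≤ Λ → r.length + c.length ≤ Λ →
    Nat.size ((c.map Bn.val).sum + 2) ≤ Λ → 1 ≤ E → E ≤ Λ → D ≤ Λ →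
    EL ebit (bitsA a Λ) (fun ρ => if |((algA a Λ r c ρ).1.val : ℝ) / ((algA a Λ r c ρ).2.val : ℝ) -
        cardI r.length c.length (r, c)| ≤ cardI r.length c.length (r, c) / E
      then (1 : ℝ) else 0) ≥ 1 - (1 / 2) ^ D := by
  obtain ⟨a, hcore⟩ := core
  refine ⟨a, ?_⟩
  intro Λ r c E D hr0 hc0 hsum hΛ hlen hsize hE1 hEΛ hDΛ
  have hm : 0 < r.length := List.length_pos_iff.mpr hr0
  have hn : 0 < c.length := List.length_pos_iff.mpr hc0
  obtain ⟨m, hrm⟩ : ∃ m, r.length = m := ⟨_, rfl⟩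
  obtain ⟨n, hcn⟩ : ∃ n, c.length = n := ⟨_, rfl⟩
  have hargr : argmaxV r < m := hrm ▸ argmaxV_lt hr0
  have hargc : argmaxV c < n := hcn ▸ argmaxV_lt hc0
  rw [hrm, hcn] at hlen ⊢
  rw [hrm] at hm
  rw [hcn] at hn
  set o : Fin m := ⟨argmaxV r, hargr⟩ with ho
  set N := (c.map Bn.val).sum with hN
  obtain ⟨P1, P2, P3, P4⟩ := params (a := a) (Λ := Λ) (m := m) (n := n) (E := E) (D := D)
    (N := N) hm hn hlen hEΛ hE1 hDΛ hΛ hsize
  have hκ : 1 ≤ kapA m n := by
    unfold kapA
    have h1 : 0 < m * n := Nat.mul_pos hm hn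
    have h2 : 0 < m + n := by omega
    have h3 : 0 < 8 * (m * n) * (m + n) := by positivity
    exact h3
  obtain ⟨G, L, Pr⟩ := selfred hn hrm hcn hsum o rfl (S := Λ ^ 8) (by rw [hsum]; exact P1)
  have hΛ0 : 0 < Λ := by omega
  -- the parameters
  set S := Λ ^ 8 with hS
  set M := Λ ^ 38 with hM
  set T := Λ ^ (16 * a) with hT
  set B := 40 * (a + 2) * Λ with hB
  set A := Λ ^ 15 with hA
  have hM0 : 0 < M := Nat.pow_pos hΛ0
  have hA1 : 1 ≤ A := Nat.pow_pos hΛ0
  have hB1 : 1 ≤ B := by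
    rw [hB]
    have : 0 < 40 * (a + 2) * Λ := by positivity
    exact this
  set σ : ℝ := 1 / (Λ : ℝ) ^ 15 with hσ
  have hΛr : (1 : ℝ) ≤ Λ := by exact_mod_cast hΛ0
  have hσ0 : 0 ≤ σ := by positivity
  have hσ1 : σ ≤ 1 := by
    rw [hσ, div_le_one (by positivity)]
    exact one_le_pow₀ hΛr
  set δ : ℝ := 1 / (A : ℝ) + (T : ℝ) * (((m : ℝ) + 2 * n + ((N + 2 : ℕ) : ℝ) + 2) / 2 ^ B) + σ
    with hδ
  set H : ℕ → ℝ := fun s => EL ebit (T * (6 * B)) (fun ρ' =>
    if hitA m n o B T (winA m n A (stageA (kapA m n) r c s).1.1 (stageA (kapA m n) r c s).1.2 o)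
      (nwA m n (stageA (kapA m n) r c s).1.1 (stageA (kapA m n) r c s).1.2)
      (stageA (kapA m n) r c s).2.1.1 (stageA (kapA m n) r c s).2.1.2
      (stageA (kapA m n) r c s).2.2 ρ' = true then (1 : ℝ) else 0) with hH
  -- success probabilities
  have hHy : ∀ s, |H s - stProb m n (stageA (kapA m n) r c s)| ≤ δ - σ := by
    intro s
    obtain ⟨hk, hl⟩ := stageA_cell hrm hcn hm hn o rfl G hκ s
    have hsumle := stageA_sum_le (r := r) hcn hn (kapA m n) s
    have hg := G s
    have h1 := hit_close hcore (B := B) (T := T) (A := A) hB1 hA1 hg.len1 hg.len2 hg.sum o hn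
      hg.dom (P2 _ hsumle) ⟨_, hk⟩ ⟨_, hl⟩ (stageA (kapA m n) r c s).2.2
    have h2 : stProb m n (stageA (kapA m n) r c s) =
        (((tab (toV m (stageA (kapA m n) r c s).1.1) (toV n (stageA (kapA m n) r c s).1.2)).filter
          fun X => (stageA (kapA m n) r c s).2.2.val ≤ X ⟨_, hk⟩ ⟨_, hl⟩).card : ℝ) /
        ((tab (toV m (stageA (kapA m n) r c s).1.1)
          (toV n (stageA (kapA m n) r c s).1.2)).card : ℝ) := by
      unfold stProb cardI
      congr 3
      apply Finset.filter_congr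
      intro X _
      unfold ent
      rw [dif_pos ⟨hk, hl⟩]
    rw [h2]
    refine h1.trans ?_
    have h3 : toV m (stageA (kapA m n) r c s).1.1 o ≤ N + 2 :=
      (toV_le_sum hg.len1 o).trans (hg.sum.le.trans hsumle)
    have h4 : ((toV m (stageA (kapA m n) r c s).1.1 o : ℕ) : ℝ) ≤ ((N + 2 : ℕ) : ℝ) := by
      exact_mod_cast h3
    rw [hδ, add_sub_cancel_right]
    gcongr
  have hpm : (0 : ℝ) < 1 / (1 + (m : ℝ) * n) ^ 2 := by positivity
  have hC : 0 < cardI m n (r, c) := cardI_pos hrm hcn hsum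
  have hδ' : δ * (8 * E * ((S : ℝ) + 1)) ≤ 1 / (1 + (m : ℝ) * n) ^ 2 := P3 (N + 2) le_rfl
  -- bad events
  set K := M * (T * (6 * B)) with hK
  set bad : ℕ → List Bool → Prop := fun s ρ =>
    σ < |(cntA m n o B T M A (stageA (kapA m n) r c s) ρ : ℝ) / M - H s| with hbad
  have hcnt : ∀ s ≤ S, EL ebit K (fun ρ => if bad s ρ then (1 : ℝ) else 0) ≤
      2 * Real.exp (-((M : ℝ) * σ ^ 2) / 4) := by
    intro s _
    have h1 := cnt_conc (m := m) (n := n) (o := (o : ℕ)) (B := B) (T := T) (M := M) (A := A)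
      (stageA (kapA m n) r c s) hσ0 hσ1 hM0
    refine le_trans (le_of_eq ?_) h1
    apply EL_congr
    intro l _
    congr
  have hun := union_segments (K := K) (S := S) bad hcnt
  have hbound : EL ebit (K * (S + 1)) (fun ρ =>
      if ∃ s ≤ S, bad s ((ρ.drop (K * s)).take K) then (1 : ℝ) else 0) ≤ (1 / 2) ^ D :=
    hun.trans P4
  have hbits : bitsA a Λ = K * (S + 1) := rfl
  rw [hbits]
  have hexp : IsExp (EL ebit (K * (S + 1))) := IsExp.EL ebit_isExp _
  have hmain : ∀ ρ : List Bool, 1 - (if ∃ s ≤ S, bad s ((ρ.drop (K * s)).take K) then (1 : ℝ)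
      else 0) ≤ (if |((algA a Λ r c ρ).1.val : ℝ) / ((algA a Λ r c ρ).2.val : ℝ) -
        cardI m n (r, c)| ≤ cardI m n (r, c) / E then (1 : ℝ) else 0) := by
    intro ρ
    by_cases hb : ∃ s ≤ S, bad s ((ρ.drop (K * s)).take K)
    · rw [if_pos hb]
      split_ifs <;> norm_num
    · rw [if_neg hb]
      have hev : |((algA a Λ r c ρ).1.val : ℝ) / ((algA a Λ r c ρ).2.val : ℝ) -
          cardI m n (r, c)| ≤ cardI m n (r, c) / E := by
        have halg : algA a Λ r c ρ = estA S M T B A (kapA m n) r c ρ := by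
          unfold algA
          rw [hrm, hcn]
        rw [halg]
        refine good_event (κ := kapA m n) (δ := δ) (pm := 1 / (1 + (m : ℝ) * n) ^ 2)
          hM0 hE1 hpm hC hδ' L Pr ?_
        intro s hs
        have h1 : ¬ bad s ((ρ.drop (K * s)).take K) := fun h => hb ⟨s, hs, h⟩
        have h2 : |(cntA m n o B T M A (stageA (kapA m n) r c s)
            ((ρ.drop (K * s)).take K) : ℝ) / M - H s| ≤ σ := by
          rw [hbad] at h1
          simp only [not_lt] at h1
          exact h1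
        rw [getD_cntsA _ _ _ _ _ _ _ _ _ hs, hrm, hcn]
        have h3 := hHy s
        have h4 := abs_sub_le ((cntA m n o B T M A (stageA (kapA m n) r c s)
            ((ρ.drop (K * s)).take K) : ℝ) / M) (H s) (stProb m n (stageA (kapA m n) r c s))
        have h5 : |(cntA m n (argmaxV r) B T M A (stageA (kapA m n) r c s)
            ((ρ.drop (K * s)).take K) : ℝ) / M - stProb m n (stageA (kapA m n) r c s)| ≤ δ := by
          have h6 : ((o : Fin m) : ℕ) = argmaxV r := rfl
          rw [h6] at h4 h2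
          linarith
        exact h5
      rw [if_pos hev]
      norm_num
  calc (1 : ℝ) - (1 / 2) ^ D ≤ 1 - EL ebit (K * (S + 1)) (fun ρ =>
      if ∃ s ≤ S, bad s ((ρ.drop (K * s)).take K) then (1 : ℝ) else 0) := by linarith
    _ = EL ebit (K * (S + 1)) (fun ρ => 1 -
        (if ∃ s ≤ S, bad s ((ρ.drop (K * s)).take K) then (1 : ℝ) else 0)) := by
        rw [hexp.sub, hexp.one]
    _ ≤ _ := hexp.mono _ _ hmain

end Vale.Agent.Lib.P328
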