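import Mathlib
import Vale.Agent.Lib.P328.EncDefs
import Vale.Agent.Lib.P328.AlgDefs
import Vale.Agent.Lib.Common.PolyTime.Bin

/-!
P328, IODefs: definitions for parsing and unparsing in polynomial time (compare Lib/P333/Enc.lean, which does the
same for another encoding and can be copied).
-/

namespace Vale.Agent.Lib.P328

open Vale.Agent.Lib.Common.PolyTime

/-- code of symbols by trees -/
def symD : Sym → D
  | Sym.bit false => D.leaf
  | Sym.bit true => D.node D.leaf D.leaf
  | Sym.comma => D.node D.leaf (D.node D.leaf D.leaf)
  | Sym.semi => D.node D.leaf (D.node D.leaf (D.node D.leaf D.leaf))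

theorem symD_injective : Function.Injective symD := by
  intro a b h
  rcases a with (_ | _) | _ | _ <;> rcases b with (_ | _) | _ | _ <;> simp_all [symD]

instance instTEncSym : TEnc Sym := ⟨symD, symD_injective⟩

/-- split a list at all occurrences of `s`: the pieces ended by `s`, and the rest -/
def splitSym (s : Sym) (l : List Sym) : List (List Sym) × List Sym :=
  let p := l.foldl (fun (q : List Sym × List (List Sym)) x =>
    if x = s then ([], q.1.reverse :: q.2) else (x :: q.1, q.2)) ([], [])
  (p.2.reverse, p.1.reverse)

/-- digits of a piece -/
def symBits (l : List Sym) : List Bool := l.map fun x => decide (x = Sym.bit true)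

/-- vector of a piece -/
def symVec (l : List Sym) : List Bn := (splitSym Sym.comma l).1.map fun x => Bn.ofBits (symBits x)

/-- parser: length of the input part plus 4, row sums, column sums, random bits -/
def parseIn (l : List Sym) : ℕ × (List Bn × List Bn) × List Bool :=
  (l.length - (splitSym Sym.semi l).2.length + 4,
    (symVec ((splitSym Sym.semi l).1.getD 0 []), symVec ((splitSym Sym.semi l).1.getD 1 [])),
    symBits (splitSym Sym.semi l).2)

/-- unparser -/
def unparseOut (y : Bn × Bn) : List Sym :=
  (y.1.bits.map Sym.bit ++ [Sym.comma]) ++ (y.2.bits.map Sym.bit ++ [Sym.comma])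

theorem unparseOut_eq (y : Bn × Bn) : unparseOut y = encOut (y.1.val, y.2.val) := rfl

end Vale.Agent.Lib.P328
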