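import Mathlib
import Vale.Agent.Lib.P328.IODefs

/-!
P328, module IOA: the encodings are injective; length of the input (compare Lib/P333/Enc.lean).
-/

namespace Vale.Agent.Lib.P328

private theorem ioa_split {α : Type} {c : α} : ∀ {l l' x y : List α}, c ∉ l → c ∉ l' →
    l ++ c :: x = l' ++ c :: y → l = l' ∧ x = y
  | [], [], x, y, _, _, h => ⟨rfl, by simpa using h⟩
  | [], a :: l', x, y, _, h2, h => by
    exfalso
    simp only [List.nil_append, List.cons_append, List.cons.injEq] at h
    exact h2 (by rw [← h.1]; exact List.mem_cons_self)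
  | a :: l, [], x, y, h1, _, h => by
    exfalso
    simp only [List.nil_append, List.cons_append, List.cons.injEq] at h
    exact h1 (by rw [← h.1]; exact List.mem_cons_self)
  | a :: l, b :: l', x, y, h1, h2, h => by
    simp only [List.cons_append, List.cons.injEq] at h
    obtain ⟨h3, h4⟩ := ioa_split (fun hc => h1 (List.mem_cons_of_mem _ hc))
      (fun hc => h2 (List.mem_cons_of_mem _ hc)) h.2
    exact ⟨by rw [h.1, h3], h4⟩

private theorem ioa_comma (a : ℕ) : Sym.comma ∉ (Nat.bits a).map Sym.bit := by
  intro h
  obtain ⟨b, -, hb⟩ := List.mem_map.1 h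
  cases hb

private theorem ioa_bits : Function.Injective Nat.bits := by
  intro a b h
  induction a using Nat.binaryRec' generalizing b with
  | zero =>
    induction b using Nat.binaryRec' with
    | zero => rfl
    | bit c m hm _ =>
      rw [Nat.bits_append_bit _ _ hm, Nat.zero_bits] at h
      cases h
  | bit c m hm ih =>
    induction b using Nat.binaryRec' with
    | zero =>
      rw [Nat.bits_append_bit _ _ hm, Nat.zero_bits] at h
      cases h
    | bit c' m' hm' _ =>
      rw [Nat.bits_append_bit _ _ hm, Nat.bits_append_bit _ _ hm'] at h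
      simp only [List.cons.injEq] at h
      rw [h.1, ih h.2]

private theorem ioa_bit : Function.Injective Sym.bit := by
  intro a b h
  cases h
  rfl

private theorem ioa_num (a : ℕ) (t : List Sym) :
    encNum a ++ t = (Nat.bits a).map Sym.bit ++ Sym.comma :: t := by
  simp [encNum]

private theorem ioa_flat (a : ℕ) (v : List ℕ) :
    (a :: v).flatMap encNum = (Nat.bits a).map Sym.bit ++ Sym.comma :: v.flatMap encNum := by
  simp [encNum]

private theorem ioa_flat_inj : Function.Injective (fun v : List ℕ => v.flatMap encNum) := by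
  intro s t h
  simp only at h
  induction s generalizing t with
  | nil =>
    cases t with
    | nil => rfl
    | cons b t =>
      rw [ioa_flat] at h
      have := congrArg List.length h
      simp at this
  | cons a s ih =>
    cases t with
    | nil =>
      rw [ioa_flat] at h
      have := congrArg List.length h
      simp at this
    | cons b t =>
      rw [ioa_flat, ioa_flat] at h
      obtain ⟨h1, h2⟩ := ioa_split (ioa_comma a) (ioa_comma b) h
      rw [ioa_bits (List.map_injective_iff.2 ioa_bit h1), ih h2]

private theorem ioa_semi_flat (s : List ℕ) : Sym.semi ∉ s.flatMap encNum := by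
  intro h
  obtain ⟨a, -, ha⟩ := List.mem_flatMap.1 h
  unfold encNum at ha
  rcases List.mem_append.1 ha with h1 | h1
  · obtain ⟨b, -, hb⟩ := List.mem_map.1 h1
    cases hb
  · rw [List.mem_singleton] at h1
    cases h1

private theorem ioa_semi_rep (a : ℕ) : Sym.semi ∉ List.replicate a (Sym.bit true) := by
  intro h
  have := List.eq_of_mem_replicate h
  cases this

private theorem ioa_vec (v : List ℕ) (t : List Sym) :
    encVec v ++ t = v.flatMap encNum ++ Sym.semi :: t := by
  simp [encVec]

private theorem ioa_un (a : ℕ) (t : List Sym) :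
    encUn a ++ t = List.replicate a (Sym.bit true) ++ Sym.semi :: t := by
  simp [encUn]

private theorem ioa_main {x x' : Input} {t t' : List Sym}
    (h : encInput x ++ t = encInput x' ++ t') : x = x' ∧ t = t' := by
  unfold encInput at h
  rw [List.append_assoc, List.append_assoc, List.append_assoc, List.append_assoc, List.append_assoc,
    List.append_assoc, ioa_vec, ioa_vec x'.r] at h
  obtain ⟨h1, h2⟩ := ioa_split (ioa_semi_flat _) (ioa_semi_flat _) h
  rw [ioa_vec, ioa_vec x'.c] at h2
  obtain ⟨h3, h4⟩ := ioa_split (ioa_semi_flat _) (ioa_semi_flat _) h2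
  rw [ioa_un, ioa_un x'.E] at h4
  obtain ⟨h5, h6⟩ := ioa_split (ioa_semi_rep _) (ioa_semi_rep _) h4
  rw [ioa_un, ioa_un x'.D] at h6
  obtain ⟨h7, h8⟩ := ioa_split (ioa_semi_rep _) (ioa_semi_rep _) h6
  refine ⟨?_, h8⟩
  obtain ⟨r, c, E, D⟩ := x
  obtain ⟨r', c', E', D'⟩ := x'
  simp only at h1 h3 h5 h7
  have e1 : r = r' := ioa_flat_inj h1
  have e2 : c = c' := ioa_flat_inj h3
  have e3 : E = E' := by
    have := congrArg List.length h5
    simpa using this
  have e4 : D = D' := by
    have := congrArg List.length h7
    simpa using this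
  rw [e1, e2, e3, e4]

theorem encInput_injective : Function.Injective encInput := by
  intro x x' h
  exact (ioa_main (t := []) (t' := []) (by rw [h])).1

theorem encIn_injective : Function.Injective encIn := by
  rintro ⟨x, b⟩ ⟨x', b'⟩ h
  obtain ⟨h1, h2⟩ := ioa_main h
  exact Prod.ext h1 (List.map_injective_iff.2 ioa_bit h2)

theorem encOut_injective : Function.Injective encOut := by
  rintro ⟨a, b⟩ ⟨a', b'⟩ h
  unfold encOut at h
  rw [ioa_num, ioa_num] at h
  obtain ⟨h1, h2⟩ := ioa_split (ioa_comma _) (ioa_comma _) h
  have h3 : (Nat.bits b).map Sym.bit ++ Sym.comma :: []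
      = (Nat.bits b').map Sym.bit ++ Sym.comma :: [] := h2
  obtain ⟨h4, -⟩ := ioa_split (ioa_comma _) (ioa_comma _) h3
  exact Prod.ext (ioa_bits (List.map_injective_iff.2 ioa_bit h1))
    (ioa_bits (List.map_injective_iff.2 ioa_bit h4))

/-! ### length of the input -/

private theorem ioa_len (v : List ℕ) : v.length ≤ (v.flatMap encNum).length := by
  induction v with
  | nil => simp
  | cons a v ih =>
    rw [ioa_flat, List.length_append, List.length_cons, List.length_cons]
    omega

private theorem ioa_sum (v : List ℕ) : v.sum < 2 ^ (v.flatMap encNum).length := by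
  induction v with
  | nil => simp
  | cons a v ih =>
    rw [ioa_flat, List.length_append, List.length_cons, List.length_map, List.sum_cons]
    have h1 : a < 2 ^ (Nat.bits a).length := by
      rw [Nat.size_eq_bits_len]
      exact Nat.lt_size_self a
    set p := (Nat.bits a).length
    set q := (v.flatMap encNum).length
    have h2 : 2 ^ p ≤ 2 ^ (p + q) := Nat.pow_le_pow_right (by norm_num) (by omega)
    have h3 : 2 ^ q ≤ 2 ^ (p + q) := Nat.pow_le_pow_right (by norm_num) (by omega)
    have h4 : 2 ^ (p + (q + 1)) = 2 * 2 ^ (p + q) := by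
      rw [← Nat.add_assoc, pow_succ, mul_comm]
    rw [h4]
    omega

theorem length_encInput_ge (x : Input) :
    x.r.length + x.c.length + x.E + x.D + 4 ≤ (encInput x).length + 0 ∧
      Nat.size (x.c.sum + 2) ≤ (encInput x).length + 4 := by
  have h0 : (encInput x).length = (x.r.flatMap encNum).length + 1
      + ((x.c.flatMap encNum).length + 1) + (x.E + 1) + (x.D + 1) := by
    unfold encInput encVec encUn
    simp only [List.length_append, List.length_replicate, List.length_singleton]
  have h1 := ioa_len x.r
  have h2 := ioa_len x.c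
  refine ⟨by omega, ?_⟩
  rw [Nat.size_le]
  have h3 := ioa_sum x.c
  have h4 : 2 ^ ((x.c.flatMap encNum).length + 2) ≤ 2 ^ ((encInput x).length + 4) :=
    Nat.pow_le_pow_right (by norm_num) (by omega)
  have h5 : 2 ^ ((x.c.flatMap encNum).length + 2) = 4 * 2 ^ (x.c.flatMap encNum).length := by
    rw [pow_add, mul_comm]
    norm_num
  have h6 : 1 ≤ 2 ^ (x.c.flatMap encNum).length := Nat.one_le_two_pow
  omega

end Vale.Agent.Lib.P328
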