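import Mathlib
import Vale.Agent.Lib.P328.IODefs

/-!
P328, module IOB: parser and unparser are correct and polynomial time (compare Lib/P333/Enc.lean).
-/

namespace Vale.Agent.Lib.P328

open Vale.Agent.Lib.Common.PolyTime

/-- one step of the splitting of a list at all occurrences of a symbol -/
private def iobStep (s : Sym) (q : List Sym × List (List Sym)) (x : Sym) :
    List Sym × List (List Sym) :=
  if x = s then ([], q.1.reverse :: q.2) else (x :: q.1, q.2)

private theorem iob_splitSym_eq (s : Sym) (l : List Sym) :
    splitSym s l = ((l.foldl (iobStep s) ([], [])).2.reverse,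
      (l.foldl (iobStep s) ([], [])).1.reverse) := rfl

private theorem iob_pt_step (s : Sym) :
    PT (fun x : List Sym × (List Sym × List (List Sym)) × Sym => iobStep s x.2.1 x.2.2) := by
  unfold iobStep
  refine PT.ite (PT.decide_eq (PT.snd (PT.snd PT.id)) (PT.const _)) ?_ ?_
  · exact PT.pair (PT.const _) (PT.cons (PT.reverse (PT.fst (PT.fst (PT.snd PT.id))))
      (PT.snd (PT.fst (PT.snd PT.id))))
  · exact PT.pair (PT.cons (PT.snd (PT.snd PT.id)) (PT.fst (PT.fst (PT.snd PT.id))))
      (PT.snd (PT.fst (PT.snd PT.id)))

private theorem iob_pt_splitSym (s : Sym) : PT (splitSym s) := by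
  have h : PT (fun l : List Sym => l.foldl (iobStep s) ([], [])) := by
    refine PT.foldl_add (step := fun (_ : List Sym) => iobStep s) (l := fun l => l)
      (init := fun _ => ([], [])) (iob_pt_step s) PT.id (PT.const _)
      (h := fun _ b => (b, ())) (PT.pair (PT.snd PT.id) (PT.const _)) ?_
    intro a q b _
    obtain ⟨c, P⟩ := q
    have h1 := one_le_sz b
    have h2 := one_le_sz ()
    change sz (iobStep s (c, P) b) ≤ sz (c, P) + sz (b, ())
    unfold iobStep
    split_ifs
    · simp only [sz_pair, sz_cons, sz_nil, sz_reverse]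
      omega
    · simp only [sz_pair, sz_cons]
      omega
  have h2 : splitSym s = fun l => ((l.foldl (iobStep s) ([], [])).2.reverse,
      (l.foldl (iobStep s) ([], [])).1.reverse) := by
    funext l
    exact iob_splitSym_eq s l
  rw [h2]
  exact PT.pair (PT.reverse (PT.snd h)) (PT.reverse (PT.fst h))

private theorem iob_pt_symBits : PT symBits := by
  unfold symBits
  exact PT.map (f := fun (_ : List Sym) (x : Sym) => decide (x = Sym.bit true))
    (PT.decide_eq (PT.snd PT.id) (PT.const _)) PT.id

private theorem iob_pt_symVec : PT symVec := by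
  unfold symVec
  exact PT.map (f := fun (_ : List Sym) (x : List Sym) => Bn.ofBits (symBits x))
    (PT.bnOfBits (PT.comp iob_pt_symBits (PT.snd PT.id))) (PT.fst (iob_pt_splitSym _))

theorem pt_parseIn : PT parseIn := by
  unfold parseIn
  have h := iob_pt_splitSym Sym.semi
  refine PT.pair (PT.add (PT.sub (PT.length PT.id) (PT.length (PT.snd h))) (PT.const _))
    (PT.pair (PT.pair ?_ ?_) ?_)
  · exact PT.comp iob_pt_symVec (PT.getD (PT.fst h) (PT.const 0) (PT.const _))
  · exact PT.comp iob_pt_symVec (PT.getD (PT.fst h) (PT.const 1) (PT.const _))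
  · exact PT.comp iob_pt_symBits (PT.snd h)

private theorem iob_foldl_notMem (s : Sym) (l : List Sym) (h : s ∉ l) (c : List Sym)
    (P : List (List Sym)) : l.foldl (iobStep s) (c, P) = (l.reverse ++ c, P) := by
  induction l generalizing c with
  | nil => rfl
  | cons x l ih =>
    rw [List.mem_cons, not_or] at h
    have h1 : iobStep s (c, P) x = (x :: c, P) := by
      unfold iobStep
      rw [if_neg (fun h2 => h.1 h2.symm)]
    rw [List.foldl_cons, h1, ih h.2]
    simp

private theorem iob_foldl_append (s : Sym) (l : List Sym) (c : List Sym) (P : List (List Sym)) :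
    l.foldl (iobStep s) (c, P) =
      ((l.foldl (iobStep s) (c, [])).1, (l.foldl (iobStep s) (c, [])).2 ++ P) := by
  induction l generalizing c P with
  | nil => rfl
  | cons x l ih =>
    rw [List.foldl_cons, List.foldl_cons]
    by_cases hx : x = s
    · have h0 : ∀ Q : List (List Sym), iobStep s (c, Q) x = ([], c.reverse :: Q) := by
        intro Q
        unfold iobStep
        rw [if_pos hx]
      have h1 := ih [] (c.reverse :: P)
      have h2 := ih [] [c.reverse]
      rw [h0, h0, h1, h2]
      simp
    · have h0 : ∀ Q : List (List Sym), iobStep s (c, Q) x = (x :: c, Q) := by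
        intro Q
        unfold iobStep
        rw [if_neg hx]
      rw [h0, h0]
      exact ih (x :: c) P

private theorem iob_splitSym_notMem (s : Sym) (l : List Sym) (h : s ∉ l) :
    splitSym s l = ([], l) := by
  rw [iob_splitSym_eq, iob_foldl_notMem s l h]
  simp

private theorem iob_splitSym_append (s : Sym) (l m : List Sym) (h : s ∉ l) :
    splitSym s (l ++ s :: m) = (l :: (splitSym s m).1, (splitSym s m).2) := by
  have h1 : (l ++ s :: m).foldl (iobStep s) ([], []) =
      ((m.foldl (iobStep s) ([], [])).1, (m.foldl (iobStep s) ([], [])).2 ++ [l]) := by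
    rw [List.foldl_append, iob_foldl_notMem s l h, List.foldl_cons]
    have h2 : iobStep s (l.reverse ++ [], []) s = ([], [l]) := by
      unfold iobStep
      rw [if_pos rfl]
      simp
    rw [h2]
    exact iob_foldl_append s m [] [l]
  rw [iob_splitSym_eq, iob_splitSym_eq, h1]
  simp

private theorem iob_symBits_map (l : List Bool) : symBits (l.map Sym.bit) = l := by
  unfold symBits
  rw [List.map_map]
  conv_rhs => rw [← List.map_id l]
  apply List.map_congr_left
  intro b _
  cases b <;> simp

private theorem iob_comma_notMem (l : List Bool) : Sym.comma ∉ l.map Sym.bit := by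
  intro h
  obtain ⟨b, -, hb⟩ := List.mem_map.1 h
  cases hb

private theorem iob_semi_notMem (l : List Bool) : Sym.semi ∉ l.map Sym.bit := by
  intro h
  obtain ⟨b, -, hb⟩ := List.mem_map.1 h
  cases hb

private theorem iob_symVec (v : List ℕ) : symVec (v.flatMap encNum) = v.map Bn.mk := by
  induction v with
  | nil => rfl
  | cons a v ih =>
    have h1 : (a :: v).flatMap encNum =
        (Nat.bits a).map Sym.bit ++ Sym.comma :: v.flatMap encNum := by
      simp [encNum]
    have h2 : symVec ((a :: v).flatMap encNum) =
        Bn.ofBits (symBits ((Nat.bits a).map Sym.bit)) :: symVec (v.flatMap encNum) := by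
      rw [h1]
      unfold symVec
      rw [iob_splitSym_append _ _ _ (iob_comma_notMem _)]
      rfl
    rw [h2, iob_symBits_map, ih, List.map_cons]
    unfold Bn.ofBits
    rw [bval_natBits]

private theorem iob_semi_notMem_vec (v : List ℕ) : Sym.semi ∉ v.flatMap encNum := by
  intro h
  obtain ⟨a, -, ha⟩ := List.mem_flatMap.1 h
  unfold encNum at ha
  rcases List.mem_append.1 ha with h1 | h1
  · exact iob_semi_notMem _ h1
  · rw [List.mem_singleton] at h1
    cases h1

private theorem iob_semi_notMem_un (a : ℕ) : Sym.semi ∉ List.replicate a (Sym.bit true) := by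
  intro h
  have := List.eq_of_mem_replicate h
  cases this

theorem parseIn_encIn (x : Input) (ρ : List Bool) :
    parseIn (encIn (x, ρ)) =
      ((encInput x).length + 4, (x.r.map Bn.mk, x.c.map Bn.mk), ρ) := by
  have h1 : encIn (x, ρ) = x.r.flatMap encNum ++ Sym.semi :: (x.c.flatMap encNum ++ Sym.semi ::
      (List.replicate x.E (Sym.bit true) ++ Sym.semi ::
        (List.replicate x.D (Sym.bit true) ++ Sym.semi :: ρ.map Sym.bit))) := by
    simp [encIn, encInput, encVec, encUn]
  have h2 : splitSym Sym.semi (encIn (x, ρ)) =
      ([x.r.flatMap encNum, x.c.flatMap encNum, List.replicate x.E (Sym.bit true),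
        List.replicate x.D (Sym.bit true)], ρ.map Sym.bit) := by
    rw [h1, iob_splitSym_append _ _ _ (iob_semi_notMem_vec _),
      iob_splitSym_append _ _ _ (iob_semi_notMem_vec _),
      iob_splitSym_append _ _ _ (iob_semi_notMem_un _),
      iob_splitSym_append _ _ _ (iob_semi_notMem_un _),
      iob_splitSym_notMem _ _ (iob_semi_notMem _)]
  have h3 : (encIn (x, ρ)).length - (ρ.map Sym.bit).length = (encInput x).length := by
    unfold encIn
    rw [List.length_append]
    exact Nat.add_sub_cancel _ _
  unfold parseIn
  rw [h2]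
  change ((encIn (x, ρ)).length - (ρ.map Sym.bit).length + 4,
    (symVec (x.r.flatMap encNum), symVec (x.c.flatMap encNum)), symBits (ρ.map Sym.bit)) = _
  rw [h3, iob_symVec, iob_symVec, iob_symBits_map]

private theorem iob_pt_bit : PT (fun b : Bool => Sym.bit b) := by
  have h : (fun b : Bool => Sym.bit b) =
      fun b : Bool => bif b then Sym.bit true else Sym.bit false := by
    funext b
    cases b <;> rfl
  rw [h]
  exact PT.bif PT.id (PT.const _) (PT.const _)

theorem pt_unparseOut : PT unparseOut := by
  unfold unparseOut
  have hm : ∀ f : Bn × Bn → List Bool, PT f → PT (fun y => (f y).map Sym.bit) := by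
    intro f hf
    exact PT.map (f := fun (_ : Bn × Bn) (b : Bool) => Sym.bit b)
      (PT.comp iob_pt_bit (PT.snd PT.id)) hf
  exact PT.append
    (PT.append (hm (fun y => y.1.bits) (PT.bnBits (PT.fst PT.id))) (PT.const _))
    (PT.append (hm (fun y => y.2.bits) (PT.bnBits (PT.snd PT.id))) (PT.const _))

end Vale.Agent.Lib.P328
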