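import Mathlib
import Vale.Agent.Lib.P328.AlgDefs
import Vale.Agent.Lib.Common.PolyTime.Bin

/-!
P328, module PTStep: one step of the chain in polynomial time.
-/

namespace Vale.Agent.Lib.P328

open Vale.Agent.Lib.Common.PolyTime

variable {α : Type} [TEnc α]

@[fun_prop] theorem pt_vget {v : α → List Bn} {i : α → ℕ} (hv : PT v) (hi : PT i) :
    PT (fun a => vget (v a) (i a)) := by
  unfold vget
  fun_prop

@[fun_prop] theorem pt_tget {X : α → List (List Bn)} {k l : α → ℕ} (hX : PT X) (hk : PT k)
    (hl : PT l) : PT (fun a => tget (X a) (k a) (l a)) := by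
  unfold tget
  fun_prop

@[fun_prop] theorem pt_tset {X : α → List (List Bn)} {k l : α → ℕ} {x : α → Bn} (hX : PT X)
    (hk : PT k) (hl : PT l) (hx : PT x) : PT (fun a => tset (X a) (k a) (l a) (x a)) := by
  unfold tset
  fun_prop

theorem foldl_argmax_le (v : List Bn) (n : ℕ) (l : List ℕ) (b : ℕ) (hl : ∀ i ∈ l, i ≤ n)
    (hb : b ≤ n) :
    l.foldl (fun b i => bif Bn.lt (vget v b) (vget v i) then i else b) b ≤ n := by
  induction l generalizing b with
  | nil => exact hb
  | cons i l ih =>
    rw [List.foldl_cons]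
    apply ih
    · exact fun j hj => hl j (List.mem_cons_of_mem _ hj)
    · cases Bn.lt (vget v b) (vget v i)
      · exact hb
      · exact hl i List.mem_cons_self

@[fun_prop] theorem pt_argmaxV {v : α → List Bn} (hv : PT v) : PT (fun a => argmaxV (v a)) := by
  unfold argmaxV
  refine PT.foldl_le (step := fun a b i => bif Bn.lt (vget (v a) b) (vget (v a) i) then i else b)
    (l := fun a => List.range (v a).length) (init := fun _ => 0) (h := fun a => (v a).length)
    ?_ ?_ ?_ ?_ ?_
  · fun_prop
  · fun_prop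
  · fun_prop
  · fun_prop
  · intro a l₁ l₂ h
    rw [sz_nat, sz_nat]
    have h1 := foldl_argmax_le (v a) (v a).length l₁ 0 (fun i hi => by
      have h2 : i ∈ List.range (v a).length := by
        rw [h]
        exact List.mem_append_left _ hi
      exact (List.mem_range.mp h2).le) (Nat.zero_le _)
    omega

@[fun_prop] theorem pt_chunks {β : Type} [TEnc β] {x j : α → ℕ} {l : α → List β} (hx : PT x)
    (hj : PT j) (hl : PT l) : PT (fun a => chunks (x a) (j a) (l a)) := by
  unfold chunks
  fun_prop

@[fun_prop] theorem pt_cnum {z : α → Bn} (hz : PT z) : PT (fun a => cnum (z a)) := by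
  unfold cnum
  fun_prop

@[fun_prop] theorem pt_cden {t z : α → Bn} (ht : PT t) (hz : PT z) :
    PT (fun a => cden (t a) (z a)) := by
  unfold cden
  fun_prop

@[fun_prop] theorem pt_wnum {X : α → List (List Bn)} {o k l l' : α → ℕ} (hX : PT X) (ho : PT o)
    (hk : PT k) (hl : PT l) (hl' : PT l') : PT (fun a => wnum (X a) (o a) (k a) (l a) (l' a)) := by
  unfold wnum
  fun_prop

@[fun_prop] theorem pt_wden {W X : α → List (List Bn)} {o k l l' : α → ℕ} (hW : PT W) (hX : PT X)
    (ho : PT o) (hk : PT k) (hl : PT l) (hl' : PT l') :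
    PT (fun a => wden (W a) (X a) (o a) (k a) (l a) (l' a)) := by
  unfold wden
  fun_prop

@[fun_prop] theorem pt_newKL {X : α → List (List Bn)} {o k l l' : α → ℕ} {v : α → List Bool}
    (hX : PT X) (ho : PT o) (hk : PT k) (hl : PT l) (hl' : PT l') (hv : PT v) :
    PT (fun a => newKL (X a) (o a) (k a) (l a) (l' a) (v a)) := by
  unfold newKL
  fun_prop

@[fun_prop] theorem pt_mvTab {X : α → List (List Bn)} {o k l l' : α → ℕ} {x : α → Bn}
    (hX : PT X) (ho : PT o) (hk : PT k) (hl : PT l) (hl' : PT l') (hx : PT x) :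
    PT (fun a => mvTab (X a) (o a) (k a) (l a) (l' a) (x a)) := by
  unfold mvTab
  fun_prop

@[fun_prop] theorem pt_accA {W X Y : α → List (List Bn)} {B o k l l' : α → ℕ}
    {w : α → List Bool} (hB : PT B) (hW : PT W) (hX : PT X) (hY : PT Y) (ho : PT o) (hk : PT k)
    (hl : PT l) (hl' : PT l') (hw : PT w) :
    PT (fun a => accA (B a) (W a) (X a) (Y a) (o a) (k a) (l a) (l' a) (w a)) := by
  unfold accA
  fun_prop

@[fun_prop] theorem pt_moveA {W X : α → List (List Bn)} {B o k l l' : α → ℕ}
    {v w : α → List Bool} (hB : PT B) (hW : PT W) (hX : PT X) (ho : PT o) (hk : PT k)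
    (hl : PT l) (hl' : PT l') (hv : PT v) (hw : PT w) :
    PT (fun a => moveA (B a) (W a) (X a) (o a) (k a) (l a) (l' a) (v a) (w a)) := by
  unfold moveA
  fun_prop

theorem headD_eq_getD (z : List Bool) : z.headD false = z.getD 0 false := by
  cases z <;> rfl

@[fun_prop] theorem pt_stepB {W X : α → List (List Bn)} {o B k l l' : α → ℕ}
    {z v w : α → List Bool} (ho : PT o) (hB : PT B) (hW : PT W) (hX : PT X) (hk : PT k)
    (hl : PT l) (hl' : PT l') (hz : PT z) (hv : PT v) (hw : PT w) :
    PT (fun a => stepB (o a) (B a) (W a) (X a) (k a) (l a) (l' a) (z a) (v a) (w a)) := by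
  unfold stepB
  simp only [headD_eq_getD]
  have h1 : PT (fun a => decide (k a = o a)) := by fun_prop
  have h2 : PT (fun a => decide (l a = l' a)) := by fun_prop
  fun_prop

@[fun_prop] theorem pt_stepA {W X : α → List (List Bn)} {m n o B : α → ℕ}
    {u : α → List (List Bool)} (hm : PT m) (hn : PT n) (ho : PT o) (hB : PT B) (hW : PT W)
    (hX : PT X) (hu : PT u) :
    PT (fun a => stepA (m a) (n a) (o a) (B a) (W a) (X a) (u a)) := by
  unfold stepA
  fun_prop

end Vale.Agent.Lib.P328
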