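import Mathlib
import Vale.Agent.Lib.P328.PTStep

/-!
P328, module PTInst: windows, start table and self reduction in polynomial time.
-/

namespace Vale.Agent.Lib.P328

open Vale.Agent.Lib.Common.PolyTime

variable {α : Type} [TEnc α]

theorem pt_natpow (k : ℕ) {f : α → ℕ} (hf : PT f) : PT (fun a => f a ^ k) := by
  induction k with
  | zero =>
    simp only [pow_zero]
    exact PT.const 1
  | succ k ih =>
    simp only [pow_succ]
    exact PT.mul ih hf

@[fun_prop] theorem pt_QscA {m n A : α → ℕ} (hm : PT m) (hn : PT n) (hA : PT A) :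
    PT (fun a => QscA (m a) (n a) (A a)) := by
  unfold QscA
  have h1 : PT (fun a => (m a * n a) ^ 4) := pt_natpow 4 (PT.mul hm hn)
  have h2 : PT (fun a => A a ^ 2) := pt_natpow 2 hA
  exact PT.mul (PT.mul (PT.mul (PT.const 1024) h1) (PT.add hm hn)) h2

@[fun_prop] theorem pt_TwinA {m n A o l : α → ℕ} {r c : α → List Bn} (hm : PT m) (hn : PT n)
    (hA : PT A) (hr : PT r) (hc : PT c) (ho : PT o) (hl : PT l) :
    PT (fun a => TwinA (m a) (n a) (A a) (r a) (c a) (o a) (l a)) := by
  unfold TwinA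
  fun_prop

@[fun_prop] theorem pt_tauA {m n A o k l : α → ℕ} {r c : α → List Bn} (hm : PT m) (hn : PT n)
    (hA : PT A) (hr : PT r) (hc : PT c) (ho : PT o) (hk : PT k) (hl : PT l) :
    PT (fun a => tauA (m a) (n a) (A a) (r a) (c a) (o a) (k a) (l a)) := by
  unfold tauA
  fun_prop

@[fun_prop] theorem pt_winA {m n A o : α → ℕ} {r c : α → List Bn} (hm : PT m) (hn : PT n)
    (hA : PT A) (hr : PT r) (hc : PT c) (ho : PT o) :
    PT (fun a => winA (m a) (n a) (A a) (r a) (c a) (o a)) := by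
  unfold winA
  fun_prop

@[fun_prop] theorem pt_pre {v : α → List Bn} {i : α → ℕ} (hv : PT v) (hi : PT i) :
    PT (fun a => pre (v a) (i a)) := by
  unfold pre
  fun_prop

@[fun_prop] theorem pt_nwE {r c : α → List Bn} {k l : α → ℕ} (hr : PT r) (hc : PT c) (hk : PT k)
    (hl : PT l) : PT (fun a => nwE (r a) (c a) (k a) (l a)) := by
  unfold nwE
  fun_prop

@[fun_prop] theorem pt_nwA {m n : α → ℕ} {r c : α → List Bn} (hm : PT m) (hn : PT n)
    (hr : PT r) (hc : PT c) : PT (fun a => nwA (m a) (n a) (r a) (c a)) := by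
  unfold nwA
  fun_prop

@[fun_prop] theorem pt_cellA {o : α → ℕ} {p : α → List Bn × List Bn} (ho : PT o) (hp : PT p) :
    PT (fun a => cellA (o a) (p a)) := by
  unfold cellA
  fun_prop

@[fun_prop] theorem pt_minA {o : α → ℕ} {p : α → List Bn × List Bn} (ho : PT o) (hp : PT p) :
    PT (fun a => minA (o a) (p a)) := by
  unfold minA
  fun_prop

@[fun_prop] theorem pt_thrA {κ o : α → ℕ} {p : α → List Bn × List Bn} (hκ : PT κ) (ho : PT o)
    (hp : PT p) : PT (fun a => thrA (κ a) (o a) (p a)) := by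
  unfold thrA
  fun_prop

@[fun_prop] theorem pt_nextA {κ o : α → ℕ} {p : α → List Bn × List Bn} (hκ : PT κ) (ho : PT o)
    (hp : PT p) : PT (fun a => nextA (κ a) (o a) (p a)) := by
  unfold nextA
  fun_prop

@[fun_prop] theorem pt_stageOf {κ o : α → ℕ} {p : α → List Bn × List Bn} (hκ : PT κ)
    (ho : PT o) (hp : PT p) : PT (fun a => stageOf (κ a) (o a) (p a)) := by
  unfold stageOf
  fun_prop

@[fun_prop] theorem pt_enlA {r c : α → List Bn} (hr : PT r) (hc : PT c) :
    PT (fun a => enlA (r a) (c a)) := by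
  unfold enlA
  fun_prop

end Vale.Agent.Lib.P328
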