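import Mathlib
import Vale.Agent.Lib.P328.PTInst

/-!
P328, module PTIter: iteration of the self reduction in polynomial time.
-/

namespace Vale.Agent.Lib.P328

open Vale.Agent.Lib.Common.PolyTime

variable {α : Type} [TEnc α]

namespace PTIterAux

/-- entrywise comparison of two vectors of the same length -/
def Dom (l m : List Bn) : Prop := List.Forall₂ (fun x y : Bn => x.val ≤ y.val) l m

theorem Dom.refl (l : List Bn) : Dom l l := by
  induction l with
  | nil => exact List.Forall₂.nil
  | cons a l ih => exact List.Forall₂.cons le_rfl ih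

theorem Dom.trans {l m k : List Bn} (h1 : Dom l m) (h2 : Dom m k) : Dom l k := by
  induction h1 generalizing k with
  | nil => exact h2
  | cons hab _ ih =>
    cases h2 with
    | cons hbc h2 => exact List.Forall₂.cons (hab.trans hbc) (ih h2)

theorem Dom.sz_le {l m : List Bn} (h : Dom l m) : sz l ≤ 2 * sz m := by
  induction h with
  | nil =>
    rw [sz_nil]
    omega
  | @cons x y l m hxy _ ih =>
    rw [sz_cons, sz_cons]
    have h1 := sz_bn_le x
    have h2 := size_le_sz_bn y
    have h3 : Nat.size x.val ≤ Nat.size y.val := Nat.size_le_size hxy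
    omega

theorem dom_set_sub (v : List Bn) (i : ℕ) (t : Bn) :
    Dom (v.set i (Bn.sub (vget v i) t)) v := by
  induction v generalizing i with
  | nil => exact List.Forall₂.nil
  | cons a v ih =>
    cases i with
    | zero => exact List.Forall₂.cons (Nat.sub_le _ _) (Dom.refl v)
    | succ i =>
      have h : (a :: v).set (i + 1) (Bn.sub (vget (a :: v) (i + 1)) t) =
          a :: v.set i (Bn.sub (vget v i) t) := by
        simp [vget]
      rw [h]
      exact List.Forall₂.cons le_rfl (ih i)

theorem dom_iter (κ o : ℕ) (p : List Bn × List Bn) (i : ℕ) :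
    Dom ((nextA κ o)^[i] p).1 p.1 ∧ Dom ((nextA κ o)^[i] p).2 p.2 := by
  induction i with
  | zero => exact ⟨Dom.refl _, Dom.refl _⟩
  | succ i ih =>
    rw [Function.iterate_succ_apply']
    exact ⟨(dom_set_sub _ _ _).trans ih.1, (dom_set_sub _ _ _).trans ih.2⟩

theorem sz_iter_le (κ o : ℕ) (p : List Bn × List Bn) (i : ℕ) :
    sz ((nextA κ o)^[i] p) ≤ 2 * sz p := by
  have h := dom_iter κ o p i
  have h1 := h.1.sz_le
  have h2 := h.2.sz_le
  have h3 : sz ((nextA κ o)^[i] p) =
    sz ((nextA κ o)^[i] p).1 + sz ((nextA κ o)^[i] p).2 + 1 := rfl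
  have h4 : sz p = sz p.1 + sz p.2 + 1 := rfl
  omega

end PTIterAux

/-- iteration of the self reduction: the entries only decrease, the lengths stay the same, so the
size of the code is at most `∑ (4 * Nat.size entry + 2) + 3 ≤ 2 * sz (start) + 3` -/
theorem pt_iterA {κ o s : α → ℕ} {p : α → List Bn × List Bn} (hκ : PT κ) (ho : PT o)
    (hs : PT s) (hp : PT p) : PT (fun a => (nextA (κ a) (o a))^[s a] (p a)) := by
  refine PT.iterate' (f := fun a q => nextA (κ a) (o a) q) ?_ hs hp ?_
  · exact pt_nextA (hκ.comp (PT.fst PT.id)) (ho.comp (PT.fst PT.id)) (PT.snd PT.id)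
  · exact ⟨fun a => 2 * sz (p a), (PB.const 2).mul hp.pb,
      fun a i _ => PTIterAux.sz_iter_le (κ a) (o a) (p a) i⟩

@[fun_prop] theorem pt_stageA {κ s : α → ℕ} {r c : α → List Bn} (hκ : PT κ) (hr : PT r)
    (hc : PT c) (hs : PT s) : PT (fun a => stageA (κ a) (r a) (c a) (s a)) := by
  have h : (fun a => stageA (κ a) (r a) (c a) (s a)) = fun a =>
      Nat.casesOn (motive := fun _ => Stage) (s a)
        (enlA (r a) (c a), (argmaxV (r a), argmaxV (c a)), Bn.ofNat 2)
        (fun k => stageOf (κ a) (argmaxV (r a))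
          ((nextA (κ a) (argmaxV (r a)))^[k] (enlA (r a) (c a)))) := by
    funext a
    cases s a <;> rfl
  rw [h]
  refine PT.natCases hs ?_ ?_
  · exact PT.pair (pt_enlA hr hc) (PT.pair (PT.pair (pt_argmaxV hr) (pt_argmaxV hc))
      (PT.const _))
  · have hκ' : PT (fun x : α × ℕ => κ x.1) := hκ.comp (PT.fst PT.id)
    have hr' : PT (fun x : α × ℕ => r x.1) := hr.comp (PT.fst PT.id)
    have hc' : PT (fun x : α × ℕ => c x.1) := hc.comp (PT.fst PT.id)
    exact pt_stageOf hκ' (pt_argmaxV hr')
      (pt_iterA hκ' (pt_argmaxV hr') (PT.snd PT.id) (pt_enlA hr' hc'))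

end Vale.Agent.Lib.P328
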