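import Mathlib
import Vale.Agent.Lib.P328.PTStep

/-!
P328, module PTRun: a run of the chain in polynomial time.
-/

namespace Vale.Agent.Lib.P328

open Vale.Agent.Lib.Common.PolyTime

variable {α : Type} [TEnc α]

theorem ptRun_vget (v : List Bn) (i : ℕ) : (vget v i).val = (v.map Bn.val).getD i 0 := by
  unfold vget
  rw [show (0 : ℕ) = (⟨0⟩ : Bn).val from rfl, List.getD_map]

theorem ptRun_sum_set (u : List ℕ) (i x : ℕ) :
    (u.set i x).sum + u.getD i 0 = u.sum + (if i < u.length then x else 0) := by
  induction u generalizing i with
  | nil => simp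
  | cons b u ih =>
    cases i with
    | zero =>
      simp only [List.set_cons_zero, List.sum_cons, List.getD_cons_zero, List.length_cons,
        Nat.zero_lt_succ, if_true]
      omega
    | succ i =>
      simp only [List.set_cons_succ, List.sum_cons, List.getD_cons_succ, List.length_cons,
        Nat.succ_lt_succ_iff]
      have := ih i
      omega

theorem ptRun_getD_set_ne {β : Type} (u : List β) {l l' : ℕ} (h : l ≠ l') (x d : β) :
    (u.set l x).getD l' d = u.getD l' d := by
  rw [List.getD_eq_getElem?_getD, List.getD_eq_getElem?_getD, List.getElem?_set_ne h]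

theorem ptRun_row (u : List ℕ) {l l' x y : ℕ} (h : l ≠ l')
    (hb : (if l < u.length then x else 0) + (if l' < u.length then y else 0) ≤
      u.getD l 0 + u.getD l' 0) : ((u.set l x).set l' y).sum ≤ u.sum := by
  have h1 := ptRun_sum_set u l x
  have h2 := ptRun_sum_set (u.set l x) l' y
  rw [ptRun_getD_set_ne u h, List.length_set] at h2
  omega

/-- same shape, and smaller sums of the rows -/
def RowDom (Y X : List (List Bn)) : Prop :=
  Y.length = X.length ∧ ∀ i, (Y.getD i []).length = (X.getD i []).length ∧
    ((Y.getD i []).map Bn.val).sum ≤ ((X.getD i []).map Bn.val).sum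

theorem RowDom.refl (X : List (List Bn)) : RowDom X X := ⟨rfl, fun _ => ⟨rfl, le_rfl⟩⟩

theorem RowDom.trans {Z Y X : List (List Bn)} (h : RowDom Z Y) (h' : RowDom Y X) :
    RowDom Z X :=
  ⟨h.1.trans h'.1, fun i => ⟨(h.2 i).1.trans (h'.2 i).1, (h.2 i).2.trans (h'.2 i).2⟩⟩

theorem ptRun_length_tset (X : List (List Bn)) (k l : ℕ) (x : Bn) :
    (tset X k l x).length = X.length := by
  unfold tset
  rw [List.length_set]

theorem ptRun_getD_tset (X : List (List Bn)) (k l : ℕ) (x : Bn) (i : ℕ) :
    (tset X k l x).getD i [] = if i = k then (X.getD k []).set l x else X.getD i [] := by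
  unfold tset
  by_cases h : i = k
  · subst h
    rw [if_pos rfl]
    by_cases hi : i < X.length
    · rw [List.getD_eq_getElem?_getD, List.getElem?_set_self hi, Option.getD_some]
    · push Not at hi
      rw [List.getD_eq_default _ _ (by rw [List.length_set]; exact hi),
        List.getD_eq_default _ _ hi]
      rfl
  · rw [if_neg h, ptRun_getD_set_ne _ (Ne.symm h)]

theorem ptRun_getD_tset2 (X : List (List Bn)) (k l l' : ℕ) (x y : Bn) (i : ℕ) :
    (tset (tset X k l x) k l' y).getD i [] =
      if i = k then ((X.getD k []).set l x).set l' y else X.getD i [] := by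
  rw [ptRun_getD_tset]
  by_cases h : i = k
  · subst h
    rw [if_pos rfl, if_pos rfl, ptRun_getD_tset, if_pos rfl]
  · rw [if_neg h, if_neg h, ptRun_getD_tset, if_neg h]

theorem ptRun_mvTab (X : List (List Bn)) (o k l l' : ℕ) (v : List Bool) (hk : k ≠ o)
    (hl : l ≠ l') : RowDom (mvTab X o k l l' (newKL X o k l l' v)) X := by
  set a : Bn := newKL X o k l l' v with ha
  have hz : ∀ i j : ℕ, ¬ j < ((X.getD i []).map Bn.val).length → (tget X i j).val = 0 := by
    intro i j h
    unfold tget
    rw [ptRun_vget, List.getD_eq_default _ _ (not_lt.mp h)]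
  have hg : ∀ i j : ℕ, ((X.getD i []).map Bn.val).getD j 0 = (tget X i j).val := by
    intro i j
    unfold tget
    rw [ptRun_vget]
  have ha0 : a.val = ((tget X k l).val - (tget X o l').val) +
      (bval v) % (Nat.min (tget X k l).val (tget X o l').val +
        Nat.min (tget X o l).val (tget X k l').val + 1) := rfl
  have hmod : (bval v) % (Nat.min (tget X k l).val (tget X o l').val +
        Nat.min (tget X o l).val (tget X k l').val + 1) <
        Nat.min (tget X k l).val (tget X o l').val +
        Nat.min (tget X o l).val (tget X k l').val + 1 := Nat.mod_lt _ (Nat.succ_pos _)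
  have hm1 : Nat.min (tget X k l).val (tget X o l').val ≤ (tget X k l).val := Nat.min_le_left _ _
  have hm2 : Nat.min (tget X k l).val (tget X o l').val ≤ (tget X o l').val :=
    Nat.min_le_right _ _
  have hm3 : Nat.min (tget X o l).val (tget X k l').val ≤ (tget X o l).val := Nat.min_le_left _ _
  have hm4 : Nat.min (tget X o l).val (tget X k l').val ≤ (tget X k l').val :=
    Nat.min_le_right _ _
  have hm5 : (tget X k l).val - (tget X o l').val +
      Nat.min (tget X k l).val (tget X o l').val ≤ (tget X k l).val := by
    rcases Nat.le_total (tget X k l).val (tget X o l').val with h | h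
    · have := Nat.min_eq_left h
      have e : Nat.min (tget X k l).val (tget X o l').val = (tget X k l).val := this
      omega
    · have := Nat.min_eq_right h
      have e : Nat.min (tget X k l).val (tget X o l').val = (tget X o l').val := this
      omega
  have ha1 : a.val ≤ (tget X k l).val + Nat.min (tget X o l).val (tget X k l').val := by omega
  have ha2 : (tget X k l).val ≤ a.val + (tget X o l').val := by omega
  have hrows : ∀ i, (mvTab X o k l l' a).getD i [] =
      if i = k then (((X.getD k []).set l a).set l'
        (Bn.sub (Bn.add (tget X k l) (tget X k l')) a))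
      else if i = o then (((X.getD o []).set l
        (Bn.sub (Bn.add (tget X o l) (tget X k l)) a)).set l'
        (Bn.sub (Bn.add (tget X o l') a) (tget X k l)))
      else X.getD i [] := by
    intro i
    unfold mvTab
    rw [ptRun_getD_tset2, ptRun_getD_tset2, ptRun_getD_tset2, if_neg hk]
  refine ⟨?_, fun i => ?_⟩
  · unfold mvTab
    rw [ptRun_length_tset, ptRun_length_tset, ptRun_length_tset, ptRun_length_tset]
  · rw [hrows]
    by_cases h1 : i = k
    · subst h1
      rw [if_pos rfl]
      refine ⟨by rw [List.length_set, List.length_set], ?_⟩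
      rw [List.map_set, List.map_set]
      apply ptRun_row _ hl
      rw [hg, hg]
      have hzl := hz i l
      have hzl' := hz i l'
      have e1 : (Bn.sub (Bn.add (tget X i l) (tget X i l')) a).val
        = (tget X i l).val + (tget X i l').val - a.val := rfl
      rw [e1]
      split_ifs with c1 c2 c2
      · omega
      · have := hzl' c2
        omega
      · have := hzl c1
        omega
      · omega
    · rw [if_neg h1]
      by_cases h2 : i = o
      · subst h2
        rw [if_pos rfl]
        refine ⟨by rw [List.length_set, List.length_set], ?_⟩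
        rw [List.map_set, List.map_set]
        apply ptRun_row _ hl
        rw [hg, hg]
        have hzl := hz i l
        have hzl' := hz i l'
        have e1 : (Bn.sub (Bn.add (tget X i l) (tget X k l)) a).val
          = (tget X i l).val + (tget X k l).val - a.val := rfl
        have e2 : (Bn.sub (Bn.add (tget X i l') a) (tget X k l)).val
          = (tget X i l').val + a.val - (tget X k l).val := rfl
        rw [e1, e2]
        split_ifs with c1 c2 c2
        · omega
        · have := hzl' c2
          omega
        · have := hzl c1
          omega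
        · omega
      · rw [if_neg h2]
        exact ⟨rfl, le_rfl⟩

theorem ptRun_stepA (m n o B : ℕ) (W X : List (List Bn)) (u : List (List Bool)) :
    RowDom (stepA m n o B W X u) X := by
  unfold stepA stepB
  split_ifs with h1 h2
  · exact RowDom.refl X
  · exact RowDom.refl X
  · cases hz : (u.getD 3 []).headD false
    · rw [cond_false]
      unfold moveA
      cases accA B W X _ _ _ _ _ _
      · rw [cond_false]
        exact RowDom.refl X
      · rw [cond_true]
        exact ptRun_mvTab X _ _ _ _ _ h1 h2
    · rw [cond_true]
      exact RowDom.refl X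

theorem ptRun_foldl (m n o B : ℕ) (W : List (List Bn)) (us : List (List (List Bool))) :
    ∀ X : List (List Bn), RowDom (us.foldl (fun Y u => stepA m n o B W Y u) X) X := by
  induction us with
  | nil => exact fun X => RowDom.refl X
  | cons u us ih =>
    intro X
    rw [List.foldl_cons]
    exact (ih _).trans (ptRun_stepA m n o B W X u)

theorem RowDom.sz_le {Y X : List (List Bn)} (h : RowDom Y X) :
    sz Y ≤ sz X * (sz X * (2 * sz X + 2) + 2) + 1 := by
  have hlen : Y.length ≤ sz X := by
    rw [h.1]
    exact length_le_sz X
  refine (sz_list_le hlen (B := sz X * (2 * sz X + 2) + 1) ?_).trans (by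
    apply Nat.add_le_add_right
    apply Nat.mul_le_mul_left
    omega)
  intro row hrow
  obtain ⟨i, hi, rfl⟩ := List.getElem_of_mem hrow
  have hgetY : Y.getD i [] = Y[i] := List.getD_eq_getElem _ _ hi
  have hiX : i < X.length := by rw [← h.1]; exact hi
  have hgetX : X.getD i [] = X[i] := List.getD_eq_getElem _ _ hiX
  obtain ⟨h1, h2⟩ := h.2 i
  rw [hgetY, hgetX] at h1 h2
  have hXi : sz X[i] ≤ sz X := sz_le_of_mem (List.getElem_mem hiX)
  have hl : Y[i].length ≤ sz X := by
    rw [h1]
    exact (length_le_sz _).trans hXi
  refine (sz_list_le hl (B := 2 * sz X + 1) ?_).trans (by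
    apply Nat.add_le_add_right
    apply Nat.mul_le_mul_left
    omega)
  intro b hb
  have hb1 : b.val ≤ (Y[i].map Bn.val).sum :=
    List.single_le_sum (fun _ _ => Nat.zero_le _) _ (List.mem_map_of_mem hb)
  have hb2 : Nat.size b.val ≤ Nat.size (X[i].map Bn.val).sum :=
    Nat.size_le_size (hb1.trans h2)
  have hb3 : 2 * Nat.size (X[i].map Bn.val).sum ≤ sz X[i] := BinB.size_sum_le _
  have hb4 := sz_bn_le b
  omega

/-- Bound for the intermediate tables (needed for ALL inputs, also ill formed ones): the total sum of
all entries never increases in a step, the number of rows and the lengths of the rows never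
change.  Sum: put `a = newKL ..`; then `X k l - X o l' ≤ a ≤ X k l + min (X o l) (X k l')`, so
the two new entries of row `o` have the same sum as the old ones if both cells exist, and if one
of them does not exist (`tget = 0`, `tset` does nothing) the other one does not increase; the same
for row `k` (`k ≠ o`, `l ≠ l'` in `stepB`).  Hence every entry of every intermediate table is at
most the total sum `N` of the start table, `Nat.size N ≤ sz X`, and the size of the code of an
intermediate table is at most `(number of cells) * (4 * Nat.size N + 2) + 2 * (number of rows) + 1`,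
a polynomial in `sz X`.  Then `PT.foldl'` (or `PT.foldl`). -/
theorem pt_runA {W X : α → List (List Bn)} {m n o B : α → ℕ} {us : α → List (List (List Bool))}
    (hm : PT m) (hn : PT n) (ho : PT o) (hB : PT B) (hW : PT W) (hX : PT X) (hu : PT us) :
    PT (fun a => runA (m a) (n a) (o a) (B a) (W a) (X a) (us a)) := by
  unfold runA
  refine PT.foldl' (step := fun a Y u => stepA (m a) (n a) (o a) (B a) (W a) Y u) ?_ hu hX
    ⟨fun a => sz (X a) * (sz (X a) * (2 * sz (X a) + 2) + 2) + 1, ?_, fun a l₁ l₂ _ => ?_⟩
  · fun_prop
  · exact (hX.pb.mul ((hX.pb.mul (((PB.const 2).mul hX.pb).add (PB.const 2))).add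
      (PB.const 2))).add (PB.const 1)
  · exact (ptRun_foldl (m a) (n a) (o a) (B a) (W a) l₁ (X a)).sz_le

end Vale.Agent.Lib.P328
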