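import Mathlib
import Vale.Agent.Lib.P328.PTIter
import Vale.Agent.Lib.P328.PTRun

/-!
P328, module PTEst: the estimator in polynomial time.
-/

namespace Vale.Agent.Lib.P328

open Vale.Agent.Lib.Common.PolyTime

variable {α : Type} [TEnc α]

@[fun_prop] theorem pt_hitA {W X : α → List (List Bn)} {m n o B T k l : α → ℕ} {t : α → Bn}
    {ρ : α → List Bool} (hm : PT m) (hn : PT n) (ho : PT o) (hB : PT B) (hT : PT T) (hW : PT W)
    (hX : PT X) (hk : PT k) (hl : PT l) (ht : PT t) (hρ : PT ρ) :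
    PT (fun a => hitA (m a) (n a) (o a) (B a) (T a) (W a) (X a) (k a) (l a) (t a) (ρ a)) := by
  unfold hitA
  have h6 : PT (fun a => 6 * B a) := PT.mul (PT.const 6) hB
  have hc1 : PT (fun a => chunks (6 * B a) (T a) (ρ a)) := pt_chunks h6 hT hρ
  have hc2 : PT (fun p : α × List Bool => chunks (B p.1) 6 p.2) :=
    pt_chunks (PT.comp hB (PT.fst PT.id)) (PT.const 6) (PT.snd PT.id)
  have hm1 : PT (fun a => (chunks (6 * B a) (T a) (ρ a)).map fun u => chunks (B a) 6 u) :=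
    PT.map (f := fun a u => chunks (B a) 6 u) hc2 hc1
  exact PT.bnLe ht (pt_tget (pt_runA hm hn ho hB hW hX hm1) hk hl)

@[fun_prop] theorem pt_cntA {m n o B T M A : α → ℕ} {st : α → Stage} {ρ : α → List Bool}
    (hm : PT m) (hn : PT n) (ho : PT o) (hB : PT B) (hT : PT T) (hM : PT M) (hA : PT A)
    (hst : PT st) (hρ : PT ρ) :
    PT (fun a => cntA (m a) (n a) (o a) (B a) (T a) (M a) (A a) (st a) (ρ a)) := by
  unfold cntA
  have h1 : PT (fun a => chunks (T a * (6 * B a)) (M a) (ρ a)) :=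
    pt_chunks (PT.mul hT (PT.mul (PT.const 6) hB)) hM hρ
  have hp1 : PT (fun p : α × List Bool => p.1) := PT.fst PT.id
  have hs1 : PT (fun p : α × List Bool => st p.1) := PT.comp hst hp1
  have hr1 : PT (fun p : α × List Bool => (st p.1).1.1) := PT.fst (PT.fst hs1)
  have hr2 : PT (fun p : α × List Bool => (st p.1).1.2) := PT.snd (PT.fst hs1)
  have h2 : PT (fun p : α × List Bool =>
      hitA (m p.1) (n p.1) (o p.1) (B p.1) (T p.1)
        (winA (m p.1) (n p.1) (A p.1) (st p.1).1.1 (st p.1).1.2 (o p.1))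
        (nwA (m p.1) (n p.1) (st p.1).1.1 (st p.1).1.2) (st p.1).2.1.1 (st p.1).2.1.2
        (st p.1).2.2 p.2) :=
    pt_hitA (PT.comp hm hp1) (PT.comp hn hp1) (PT.comp ho hp1) (PT.comp hB hp1)
      (PT.comp hT hp1)
      (pt_winA (PT.comp hm hp1) (PT.comp hn hp1) (PT.comp hA hp1) hr1 hr2 (PT.comp ho hp1))
      (pt_nwA (PT.comp hm hp1) (PT.comp hn hp1) hr1 hr2)
      (PT.fst (PT.fst (PT.snd hs1))) (PT.snd (PT.fst (PT.snd hs1))) (PT.snd (PT.snd hs1))
      (PT.snd PT.id)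
  exact PT.length (PT.filter (f := fun a ρ' => hitA (m a) (n a) (o a) (B a) (T a)
    (winA (m a) (n a) (A a) (st a).1.1 (st a).1.2 (o a))
    (nwA (m a) (n a) (st a).1.1 (st a).1.2) (st a).2.1.1 (st a).2.1.2 (st a).2.2 ρ') h2 h1)

@[fun_prop] theorem pt_cntsA {S M T B A κ : α → ℕ} {r c : α → List Bn} {ρ : α → List Bool}
    (hS : PT S) (hM : PT M) (hT : PT T) (hB : PT B) (hA : PT A) (hκ : PT κ) (hr : PT r)
    (hc : PT c) (hρ : PT ρ) :
    PT (fun a => cntsA (S a) (M a) (T a) (B a) (A a) (κ a) (r a) (c a) (ρ a)) := by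
  unfold cntsA
  have hp1 : PT (fun p : α × ℕ => p.1) := PT.fst PT.id
  have hp2 : PT (fun p : α × ℕ => p.2) := PT.snd PT.id
  have hr1 : PT (fun p : α × ℕ => r p.1) := PT.comp hr hp1
  have hc1 : PT (fun p : α × ℕ => c p.1) := PT.comp hc hp1
  have hblk : PT (fun p : α × ℕ => M p.1 * (T p.1 * (6 * B p.1))) :=
    PT.mul (PT.comp hM hp1) (PT.mul (PT.comp hT hp1) (PT.mul (PT.const 6) (PT.comp hB hp1)))
  have h2 : PT (fun p : α × ℕ =>
      cntA (r p.1).length (c p.1).length (argmaxV (r p.1)) (B p.1) (T p.1) (M p.1) (A p.1)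
        (stageA (κ p.1) (r p.1) (c p.1) p.2)
        (((ρ p.1).drop (M p.1 * (T p.1 * (6 * B p.1)) * p.2)).take
          (M p.1 * (T p.1 * (6 * B p.1))))) :=
    pt_cntA (PT.length hr1) (PT.length hc1) (pt_argmaxV hr1) (PT.comp hB hp1) (PT.comp hT hp1)
      (PT.comp hM hp1) (PT.comp hA hp1) (pt_stageA (PT.comp hκ hp1) hr1 hc1 hp2)
      (PT.take (PT.drop (PT.comp hρ hp1) (PT.mul hblk hp2)) hblk)
  exact PT.map (f := fun a s => cntA (r a).length (c a).length (argmaxV (r a)) (B a) (T a) (M a)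
    (A a) (stageA (κ a) (r a) (c a) s)
    (((ρ a).drop (M a * (T a * (6 * B a)) * s)).take (M a * (T a * (6 * B a))))) h2
    (PT.range (PT.succ hS))

@[fun_prop] theorem pt_estA {S M T B A κ : α → ℕ} {r c : α → List Bn} {ρ : α → List Bool}
    (hS : PT S) (hM : PT M) (hT : PT T) (hB : PT B) (hA : PT A) (hκ : PT κ) (hr : PT r)
    (hc : PT c) (hρ : PT ρ) :
    PT (fun a => estA (S a) (M a) (T a) (B a) (A a) (κ a) (r a) (c a) (ρ a)) := by
  unfold estA
  have h := pt_cntsA hS hM hT hB hA hκ hr hc hρ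
  have h1 : PT (fun a => (cntsA (S a) (M a) (T a) (B a) (A a) (κ a) (r a) (c a) (ρ a)).headD
      0) := by
    have he : (fun a => (cntsA (S a) (M a) (T a) (B a) (A a) (κ a) (r a) (c a) (ρ a)).headD
        0) = fun a => ((cntsA (S a) (M a) (T a) (B a) (A a) (κ a) (r a) (c a) (ρ a)).head?).getD
          0 := by
      funext a
      cases cntsA (S a) (M a) (T a) (B a) (A a) (κ a) (r a) (c a) (ρ a) <;> rfl
    rw [he]
    exact PT.optionGetD (PT.head? h) (PT.const 0)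
  have h2 : PT (fun a => (cntsA (S a) (M a) (T a) (B a) (A a) (κ a) (r a) (c a)
      (ρ a)).tail.map Bn.ofNat) :=
    PT.map (f := fun _ x => Bn.ofNat x) (PT.bnOfNat (PT.snd PT.id)) (PT.tail h)
  exact PT.pair (PT.bnMul (PT.bnOfNat h1) (PT.bnPow (PT.bnOfNat hM) hS))
    (PT.bnMul (PT.bnOfNat hM) (PT.bnProd h2))

theorem pt_algA (e : ℕ) {Λ : α → ℕ} {r c : α → List Bn} {ρ : α → List Bool} (hΛ : PT Λ)
    (hr : PT r) (hc : PT c) (hρ : PT ρ) : PT (fun a => algA e (Λ a) (r a) (c a) (ρ a)) := by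
  unfold algA
  have hk : PT (fun a => kapA (r a).length (c a).length) := by
    unfold kapA
    exact PT.mul (PT.mul (PT.const 8) (PT.mul (PT.length hr) (PT.length hc)))
      (PT.add (PT.length hr) (PT.length hc))
  exact pt_estA (pt_natpow 8 hΛ) (pt_natpow 38 hΛ) (pt_natpow (16 * e) hΛ)
    (PT.mul (PT.const (40 * (e + 2))) hΛ) (pt_natpow 15 hΛ) hk hr hc hρ

end Vale.Agent.Lib.P328
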