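import Mathlib
import Vale.Agent.Lib.P328.EncDefs
import Vale.Agent.Lib.P328.IOA
import Vale.Agent.Lib.P328.IOB
import Vale.Agent.Lib.P328.PTEst
import Vale.Agent.Lib.P328.EstD
import Vale.Agent.Lib.Common.PolyTime.Compile

/-!
P328, final assembly: the FPRAS.
-/

namespace Vale.Agent.Lib.P328

open Vale.Agent.Lib.Common.PolyTime

/-- the algorithm as a function of the input and the random bits -/
noncomputable def estimate (a : ℕ) (x : Input × List Bool) : ℕ × ℕ :=
  ((algA a ((encInput x.1).length + 4) (x.1.r.map Bn.mk) (x.1.c.map Bn.mk) x.2).1.val,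
    (algA a ((encInput x.1).length + 4) (x.1.r.map Bn.mk) (x.1.c.map Bn.mk) x.2).2.val)

/-- number of random bits as a polynomial in the length of the input -/
noncomputable def bitsPoly (a : ℕ) : Polynomial ℕ :=
  (Polynomial.X + 4) ^ 38 * ((Polynomial.X + 4) ^ (16 * a) *
    (6 * (Polynomial.C (40 * (a + 2)) * (Polynomial.X + 4)))) * ((Polynomial.X + 4) ^ 8 + 1)

theorem bitsPoly_eval (a L : ℕ) : (bitsPoly a).eval L = bitsA a (L + 4) := by
  unfold bitsPoly bitsA
  simp only [Polynomial.eval_mul, Polynomial.eval_add, Polynomial.eval_pow, Polynomial.eval_X,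
    Polynomial.eval_C, Polynomial.eval_ofNat, Polynomial.eval_one]

/-- polynomial time: `unparseOut ∘ algA ∘ parseIn` -/
theorem estimate_poly (a : ℕ) :
    Nonempty (Turing.TM2ComputableInPolyTime encIn encOut (estimate a)) := by
  have hpt : PT (fun l : List Sym => unparseOut (algA a (parseIn l).1 (parseIn l).2.1.1
      (parseIn l).2.1.2 (parseIn l).2.2)) :=
    PT.comp pt_unparseOut (pt_algA a (PT.fst pt_parseIn) (PT.fst (PT.fst (PT.snd pt_parseIn)))
      (PT.snd (PT.fst (PT.snd pt_parseIn))) (PT.snd (PT.snd pt_parseIn)))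
  obtain ⟨F, hF, h⟩ := hpt
  refine PolyOn.toTM2 (F := F) symD symD symD_injective encIn encOut (estimate a) ?_ ?_
  · refine hF.mono ?_
    rintro x ⟨S, rfl⟩
    exact ⟨encIn S, rfl⟩
  · intro x
    have h' := h (encIn x)
    simp only at h'
    obtain ⟨x, ρ⟩ := x
    rw [parseIn_encIn] at h'
    exact h'

theorem cardI_eq (r c : List ℕ) (m n : ℕ) (hm : m = r.length) (hn : n = c.length) :
    cardI m n (r.map Bn.mk, c.map Bn.mk) =
      ((tab (fun i : Fin r.length => r.get i) (fun j : Fin c.length => c.get j)).card : ℝ) := by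
  subst hm hn
  have h : ∀ v : List ℕ, toV v.length (v.map Bn.mk) = fun i : Fin v.length => v.get i := by
    intro v
    funext i
    unfold toV vget
    rw [List.getD_eq_getElem _ _ (by rw [List.length_map]; exact i.2), List.getElem_map]
    rfl
  unfold cardI
  simp only [h]

theorem map_val_mk (v : List ℕ) : (v.map Bn.mk).map Bn.val = v := by
  rw [List.map_map]
  conv_rhs => rw [← List.map_id v]
  rfl

open Classical in
/-- success probability -/
theorem estimate_spec : ∃ a : ℕ, ∀ x : Input, x.r ≠ [] → x.c ≠ [] → x.r.sum = x.c.sum → 1 ≤ x.E →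
    (1 - (1 / 2 : ℝ) ^ x.D) * 2 ^ (bitsPoly a).eval (encInput x).length ≤
      ((Finset.univ.filter fun ρ : Fin ((bitsPoly a).eval (encInput x).length) → Bool =>
        |((estimate a (x, List.ofFn ρ)).1 : ℝ) / ((estimate a (x, List.ofFn ρ)).2 : ℝ) -
          ((tab (fun i : Fin x.r.length => x.r.get i) (fun j : Fin x.c.length => x.c.get j)).card : ℝ)|
          ≤ ((tab (fun i : Fin x.r.length => x.r.get i)
            (fun j : Fin x.c.length => x.c.get j)).card : ℝ) / x.E).card : ℝ) := by
  obtain ⟨a, ha⟩ := algA_spec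
  refine ⟨a, fun x hr hc hsum hE => ?_⟩
  obtain ⟨h1, h2⟩ := length_encInput_ge x
  have hr1 : 1 ≤ x.r.length := List.length_pos_iff.2 hr
  have hc1 : 1 ≤ x.c.length := List.length_pos_iff.2 hc
  have key := ha ((encInput x).length + 4) (x.r.map Bn.mk) (x.c.map Bn.mk) x.E x.D
    (by simpa using hr) (by simpa using hc) (by rw [map_val_mk, map_val_mk]; exact hsum)
    (by omega) (by rw [List.length_map, List.length_map]; omega)
    (by rw [map_val_mk]; exact h2) hE (by omega) (by omega)
  rw [cardI_eq x.r x.c _ _ (List.length_map _) (List.length_map _), ← bitsPoly_eval,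
    EL_ebit_eq, ge_iff_le, le_div_iff₀ (by positivity)] at key
  refine key.trans (le_of_eq ?_)
  rw [Finset.sum_ite, Finset.sum_const_zero, add_zero, Finset.sum_const, nsmul_eq_mul, mul_one]
  rfl

end Vale.Agent.Lib.P328
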