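import Vale.Agent.Lib.P328.FibreA

/-!
P328, module Fibre: weights and generators on the fibres of two rows.
-/

namespace Vale.Agent.Lib.P328

open Finset

variable {I J : Type} [Fintype I] [DecidableEq I] [Fintype J] [DecidableEq J]

/-- the weight of the rows other than `o`, `k` -/
noncomputable def rest (τ : I → J → ℕ) (o k : I) (P : I → J → ℕ) : ℝ :=
  ∏ i ∈ (univ.erase o).erase k, ∏ l, phi (τ i l) (P i l)

theorem rest_pos (τ : I → J → ℕ) (o k : I) (P : I → J → ℕ) : 0 < rest τ o k P := by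
  unfold rest
  exact Finset.prod_pos fun i _ => Finset.prod_pos fun l _ => phi_pos _ _

theorem fibre_join_k (o k : I) (s : J → ℕ) (P : I → J → ℕ) (x : J → ℕ) :
    join o k s P x k = x := by
  simp [join]

theorem fibre_join_o {o k : I} (hk : k ≠ o) (s : J → ℕ) (P : I → J → ℕ) (x : J → ℕ) :
    join o k s P x o = s - x := by
  simp [join, hk.symm]

theorem fibre_join_other {o k i : I} (hio : i ≠ o) (hik : i ≠ k) (s : J → ℕ) (P : I → J → ℕ)
    (x : J → ℕ) : join o k s P x i = P i := by
  simp [join, hio, hik]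

theorem tw_join (τ : I → J → ℕ) {o k : I} (hk : k ≠ o) (s : J → ℕ) (P : I → J → ℕ) (x : J → ℕ) :
    tw τ (join o k s P x) = rest τ o k P * wt (psi s (τ o) (τ k)) x := by
  unfold tw rest wt psi
  rw [← Finset.mul_prod_erase univ _ (Finset.mem_univ o),
    ← Finset.mul_prod_erase (univ.erase o) _ (Finset.mem_erase.2 ⟨hk, Finset.mem_univ k⟩),
    fibre_join_k, fibre_join_o hk]
  have h1 : ∏ i ∈ (univ.erase o).erase k, ∏ l, phi (τ i l) (join o k s P x i l) =
      ∏ i ∈ (univ.erase o).erase k, ∏ l, phi (τ i l) (P i l) := by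
    apply Finset.prod_congr rfl
    intro i hi
    rw [Finset.mem_erase, Finset.mem_erase] at hi
    rw [fibre_join_other hi.2.1 hi.1]
  rw [h1, Finset.prod_mul_distrib]
  simp only [Pi.sub_apply]
  ring

theorem fibre_sw_join {o k : I} (hk : k ≠ o) (s : J → ℕ) (P : I → J → ℕ) {x : J → ℕ}
    (hx : ∀ l, x l ≤ s l) {l : J} (hl : x l < s l) {a : J} (ha : (x + e l) a ≠ 0) :
    sw (join o k s P x) o k l a = join o k s P (x + e l - e a) := by
  have h1 : s - x - e l + e a = s - (x + e l - e a) := by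
    funext j
    simp only [Pi.add_apply, Pi.sub_apply, e] at ha ⊢
    have hxj := hx j
    by_cases hjl : j = l
    · subst hjl
      by_cases hja : j = a
      · subst hja
        simp only [Pi.single_eq_same]
        omega
      · rw [Pi.single_eq_same, Pi.single_eq_of_ne hja]
        omega
    · by_cases hja : j = a
      · subst hja
        rw [Pi.single_eq_of_ne hjl] at ha
        rw [Pi.single_eq_same, Pi.single_eq_of_ne hjl]
        omega
      · rw [Pi.single_eq_of_ne hjl, Pi.single_eq_of_ne hja]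
        omega
  unfold sw
  rw [fibre_join_k, fibre_join_o hk, h1]
  funext i
  by_cases hik : i = k
  · subst hik
    rw [Function.update_self, fibre_join_k]
  · rw [Function.update_of_ne hik]
    by_cases hio : i = o
    · subst hio
      rw [Function.update_self, fibre_join_o hk]
    · rw [Function.update_of_ne hio, fibre_join_other hio hik, fibre_join_other hio hik]

/-- `DK` on the fibre.  For `x l < s l`: `sw (join x) o k l a = join (x + e l - e a)` whenever
`(x + e l) a ≠ 0`; otherwise the rate `gr (τ k a) 0 = 0` kills the term. -/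
theorem DK_join (τ : I → J → ℕ) {o k : I} (hk : k ≠ o) (s : J → ℕ) (P : I → J → ℕ) {x : J → ℕ}
    (hx : ∀ l, x l ≤ s l) {l : J} (hl : x l < s l) (F : (I → J → ℕ) → ℝ) :
    DK τ o k F (join o k s P x) l = DD (τ k) (fun y => F (join o k s P y)) (x + e l) := by
  unfold DK DD
  rw [fibre_join_k]
  congr 1
  apply Finset.sum_congr rfl
  intro a _
  by_cases ha : (x + e l) a = 0
  · rw [ha, gr_zero, zero_mul, zero_mul]
  · rw [fibre_sw_join hk s P hx hl ha]

theorem LK_join (τ : I → J → ℕ) {o k : I} (hk : k ≠ o) (s : J → ℕ) (P : I → J → ℕ) {x : J → ℕ}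
    (hx : ∀ l, x l ≤ s l) (F : (I → J → ℕ) → ℝ) :
    LK τ o k F (join o k s P x) = LL s (τ o) (τ k) (fun y => F (join o k s P y)) x := by
  unfold LK LL
  apply Finset.sum_congr rfl
  intro l _
  rw [fibre_join_o hk, Pi.sub_apply]
  rcases (hx l).eq_or_lt with hl | hl
  · rw [hl, Nat.sub_self, gr_zero, zero_mul, zero_mul]
  · rw [DK_join τ hk s P hx hl F]

theorem RK_join (τ : I → J → ℕ) {o k : I} (hk : k ≠ o) (s : J → ℕ) (P : I → J → ℕ) {x : J → ℕ}
    (hx : ∀ l, x l ≤ s l) (F : (I → J → ℕ) → ℝ) :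
    ∑ l, gr (τ o l) (join o k s P x o l) *
        (gr (τ o l) (join o k s P x o l) - gr (τ o l) (join o k s P x o l - 1)) *
        (F (join o k s P x) - DK τ o k F (join o k s P x) l) ^ 2 =
      ∑ l, gr (τ o l) (s l - x l) * (gr (τ o l) (s l - x l) - gr (τ o l) (s l - x l - 1)) *
        (F (join o k s P x) - DD (τ k) (fun y => F (join o k s P y)) (x + e l)) ^ 2 := by
  apply Finset.sum_congr rfl
  intro l _
  rw [fibre_join_o hk, Pi.sub_apply]
  rcases (hx l).eq_or_lt with hl | hl
  · rw [hl, Nat.sub_self, gr_zero, zero_mul, zero_mul, zero_mul]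
  · rw [DK_join τ hk s P hx hl F]

theorem fibre_lev_le {s : J → ℕ} {j : ℕ} {x : J → ℕ} (hx : x ∈ lev s j) (l : J) : x l ≤ s l := by
  unfold lev at hx
  rw [Finset.mem_filter, Fintype.mem_piFinset] at hx
  have := hx.1 l
  rw [Finset.mem_range] at this
  omega

/-- `|L_k F|²` as a sum over fibres (`fibre_sum`, `tw_join`, `LK_join`) -/
theorem normLK_eq (τ : I → J → ℕ) {r : I → ℕ} {c : J → ℕ} {o k : I} (hk : k ≠ o)
    (F : (I → J → ℕ) → ℝ) :
    ∑ X ∈ tab r c, tw τ X * LK τ o k F X ^ 2 =
      ∑ P ∈ labels r c o k, rest τ o k P *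
        nL (cap c P) (τ o) (τ k) (r k) (fun y => F (join o k (cap c P) P y)) := by
  rw [fibre_sum hk]
  apply Finset.sum_congr rfl
  intro P _
  unfold nL
  rw [Finset.mul_sum]
  apply Finset.sum_congr rfl
  intro x hx
  rw [tw_join τ hk, LK_join τ hk _ P (fibre_lev_le hx), mul_assoc]

/-- `R_k` as a sum over fibres (`fibre_sum`, `tw_join`, `RK_join`) -/
theorem RK_eq (τ : I → J → ℕ) {r : I → ℕ} {c : J → ℕ} {o k : I} (hk : k ≠ o)
    (F : (I → J → ℕ) → ℝ) :
    RK τ r c o k F =
      ∑ P ∈ labels r c o k, rest τ o k P *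
        Rt (cap c P) (τ o) (τ k) (r k) (fun y => F (join o k (cap c P) P y)) := by
  unfold RK
  rw [fibre_sum hk]
  apply Finset.sum_congr rfl
  intro P _
  unfold Rt
  rw [Finset.mul_sum]
  apply Finset.sum_congr rfl
  intro x hx
  rw [tw_join τ hk, RK_join τ hk _ P (fibre_lev_le hx), mul_assoc]

end Vale.Agent.Lib.P328
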