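import Vale.Agent.Lib.P328.TabBase

/-!
P328, module Fibre: tables as families of two row fibres (rows `o` and `k`).
-/

namespace Vale.Agent.Lib.P328

open Finset

variable {I J : Type} [Fintype I] [DecidableEq I] [Fintype J] [DecidableEq J]

/-- column sums left for the rows `o`, `k` when the other rows are `P` (`P` vanishes on `o`, `k`) -/
def cap (c : J → ℕ) (P : I → J → ℕ) : J → ℕ := fun l => c l - ∑ i, P i l

/-- put the rows `o`, `k` back: row `k` becomes `x`, row `o` becomes `s - x` -/
def join (o k : I) (s : J → ℕ) (P : I → J → ℕ) (x : J → ℕ) : I → J → ℕ :=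
  Function.update (Function.update P o (s - x)) k x

/-- the labels of the fibres -/
def labels (r : I → ℕ) (c : J → ℕ) (o k : I) : Finset (I → J → ℕ) := (tab r c).image (piK o k)

private theorem FibreA_piK_or {o k i : I} (X : I → J → ℕ) (h : i = o ∨ i = k) :
    piK o k X i = 0 := by
  unfold piK
  rw [if_pos h]

private theorem FibreA_piK_nor {o k i : I} (X : I → J → ℕ) (h : ¬ (i = o ∨ i = k)) :
    piK o k X i = X i := by
  unfold piK
  rw [if_neg h]

private theorem FibreA_sum {o k : I} (hk : k ≠ o) (X : I → J → ℕ) (l : J) :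
    ∑ i, X i l = ∑ i, piK o k X i l + X o l + X k l := by
  have h1 : ∀ i, X i l = piK o k X i l + (if i = o then X i l else 0) +
      (if i = k then X i l else 0) := by
    intro i
    by_cases h2 : i = o
    · subst h2
      rw [FibreA_piK_or X (Or.inl rfl), if_pos rfl, if_neg (Ne.symm hk), Pi.zero_apply]
      omega
    · by_cases h3 : i = k
      · subst h3
        rw [FibreA_piK_or X (Or.inr rfl), if_pos rfl, if_neg h2, Pi.zero_apply]
        omega
      · rw [FibreA_piK_nor X (by tauto), if_neg h2, if_neg h3]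
        omega
  rw [Finset.sum_congr rfl fun i _ => h1 i, Finset.sum_add_distrib, Finset.sum_add_distrib,
    Finset.sum_ite_eq' Finset.univ o, Finset.sum_ite_eq' Finset.univ k,
    if_pos (Finset.mem_univ _), if_pos (Finset.mem_univ _)]

private theorem FibreA_cap {r : I → ℕ} {c : J → ℕ} {o k : I} (hk : k ≠ o) {X : I → J → ℕ}
    (hX : X ∈ tab r c) (l : J) : cap c (piK o k X) l = X o l + X k l := by
  unfold cap
  have h1 := (mem_tab.1 hX).2 l
  rw [FibreA_sum hk X l] at h1
  omega

private theorem FibreA_join_k (o k : I) (s : J → ℕ) (P : I → J → ℕ) (x : J → ℕ) :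
    join o k s P x k = x := by
  unfold join
  rw [Function.update_self]

private theorem FibreA_join_o {o k : I} (hk : k ≠ o) (s : J → ℕ) (P : I → J → ℕ) (x : J → ℕ) :
    join o k s P x o = s - x := by
  unfold join
  rw [Function.update_of_ne (Ne.symm hk), Function.update_self]

private theorem FibreA_join_nor {o k i : I} (h : ¬ (i = o ∨ i = k)) (s : J → ℕ)
    (P : I → J → ℕ) (x : J → ℕ) : join o k s P x i = P i := by
  unfold join
  rw [Function.update_of_ne (fun h1 => h (Or.inr h1)),
    Function.update_of_ne (fun h1 => h (Or.inl h1))]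

theorem cap_le (c : J → ℕ) (P : I → J → ℕ) (l : J) : cap c P l ≤ c l := by
  exact Nat.sub_le _ _

/-- the capacities of a fibre sum to `r o + r k` -/
theorem cap_sum {r : I → ℕ} {c : J → ℕ} {o k : I} (hk : k ≠ o) {P : I → J → ℕ}
    (hP : P ∈ labels r c o k) : ∑ l, cap c P l = r o + r k := by
  obtain ⟨X, hX, rfl⟩ := Finset.mem_image.1 hP
  rw [Finset.sum_congr rfl fun l _ => FibreA_cap hk hX l, Finset.sum_add_distrib,
    (mem_tab.1 hX).1 o, (mem_tab.1 hX).1 k]

theorem piK_join {r : I → ℕ} {c : J → ℕ} {o k : I} {P : I → J → ℕ}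
    (hP : P ∈ labels r c o k) (s x : J → ℕ) : piK o k (join o k s P x) = P := by
  obtain ⟨X, hX, rfl⟩ := Finset.mem_image.1 hP
  funext i
  by_cases h : i = o ∨ i = k
  · rw [FibreA_piK_or _ h, FibreA_piK_or _ h]
  · rw [FibreA_piK_nor _ h, FibreA_join_nor h]

/-- the tables with label `P` are the `join o k (cap c P) P x`, `x ∈ lev (cap c P) (r k)` -/
theorem fibre_eq {r : I → ℕ} {c : J → ℕ} {o k : I} (hk : k ≠ o) {P : I → J → ℕ}
    (hP : P ∈ labels r c o k) :
    (tab r c).filter (fun X => piK o k X = P) =
      (lev (cap c P) (r k)).image (join o k (cap c P) P) := by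
  ext X
  rw [Finset.mem_filter, Finset.mem_image]
  constructor
  · rintro ⟨hX, rfl⟩
    refine ⟨X k, mem_lev.2 ⟨fun l => ?_, (mem_tab.1 hX).1 k⟩, ?_⟩
    · rw [FibreA_cap hk hX l]
      omega
    · funext i
      by_cases h1 : i = k
      · subst h1
        rw [FibreA_join_k]
      · by_cases h2 : i = o
        · subst h2
          rw [FibreA_join_o hk]
          funext l
          rw [Pi.sub_apply, FibreA_cap hk hX l]
          omega
        · rw [FibreA_join_nor (by tauto), FibreA_piK_nor _ (by tauto)]
  · rintro ⟨x, hx, rfl⟩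
    obtain ⟨hx1, hx2⟩ := mem_lev.1 hx
    refine ⟨mem_tab.2 ⟨fun i => ?_, fun l => ?_⟩, piK_join hP _ _⟩
    · by_cases h1 : i = k
      · subst h1
        rw [FibreA_join_k]
        exact hx2
      · by_cases h2 : i = o
        · subst h2
          rw [FibreA_join_o hk]
          have h3 := cap_sum hk hP
          have h4 : ∑ l, (cap c P - x) l + ∑ l, x l = ∑ l, cap c P l := by
            rw [← Finset.sum_add_distrib]
            refine Finset.sum_congr rfl fun l _ => ?_
            have := hx1 l
            rw [Pi.sub_apply]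
            omega
          omega
        · rw [FibreA_join_nor (by tauto)]
          obtain ⟨X, hX, rfl⟩ := Finset.mem_image.1 hP
          rw [FibreA_piK_nor _ (by tauto)]
          exact (mem_tab.1 hX).1 i
    · rw [FibreA_sum hk, piK_join hP, FibreA_join_k, FibreA_join_o hk, Pi.sub_apply]
      have h3 := hx1 l
      have h4 : ∑ i, P i l ≤ c l := by
        obtain ⟨X, hX, rfl⟩ := Finset.mem_image.1 hP
        have h5 := (mem_tab.1 hX).2 l
        rw [FibreA_sum hk] at h5
        omega
      unfold cap at h3 ⊢
      omega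

theorem join_injective (o k : I) (s : J → ℕ) (P : I → J → ℕ) :
    Function.Injective (join o k s P) := by
  intro x y h
  have h1 := congrFun h k
  rwa [FibreA_join_k, FibreA_join_k] at h1

/-- summation over tables, fibre by fibre -/
theorem fibre_sum {r : I → ℕ} {c : J → ℕ} {o k : I} (hk : k ≠ o) (f : (I → J → ℕ) → ℝ) :
    ∑ X ∈ tab r c, f X =
      ∑ P ∈ labels r c o k, ∑ x ∈ lev (cap c P) (r k), f (join o k (cap c P) P x) := by
  rw [← Finset.sum_fiberwise_of_maps_to (t := labels r c o k) (g := piK o k)
    (fun X hX => Finset.mem_image_of_mem _ hX)]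
  refine Finset.sum_congr rfl fun P hP => ?_
  rw [fibre_eq hk hP, Finset.sum_image fun x _ y _ h => join_injective o k _ _ h]

end Vale.Agent.Lib.P328
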