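import Vale.Agent.Lib.P328.HHColumn

/-!
P328, module HHColumnTwo: the wall term and the mass of one column, kind 2 (`T' = 0`, another column
of large capacity).
-/

namespace Vale.Agent.Lib.P328.HH

open Finset

variable {J : Type} [Fintype J] [DecidableEq J]

theorem psi_zero (s T : J → ℕ) (l : J) (v : ℕ) :
    psi s T (fun _ => 0) l v = phi (T l) (s l - v) := by
  unfold psi
  rw [phi_zero, mul_one]

/-- exact telescoping -/
theorem sum_tele_eq (T a L : ℕ) :
    ∑ i ∈ range L, 1 / (((a : ℝ) + i + 1 + T) * ((a : ℝ) + i + 2 + T)) =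
      (L : ℝ) / (((a : ℝ) + 1 + T) * ((a : ℝ) + L + 1 + T)) := by
  have hT : (0 : ℝ) ≤ T := Nat.cast_nonneg T
  have ha : (0 : ℝ) ≤ a := Nat.cast_nonneg a
  induction L with
  | zero => simp
  | succ L ih =>
    rw [Finset.sum_range_succ, ih]
    have hL : (0 : ℝ) ≤ L := Nat.cast_nonneg L
    have h1 : (a : ℝ) + 1 + T ≠ 0 := by positivity
    have h2 : (a : ℝ) + L + 1 + T ≠ 0 := by positivity
    have h3 : (a : ℝ) + L + 2 + T ≠ 0 := by positivity
    push_cast
    have e : (a : ℝ) + (L + 1) + 1 + T = a + L + 2 + T := by ring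
    rw [e]
    field_simp
    ring

/-- total wall potential of a window is at most `6 phi T S` -/
theorem sum_phi_Gam_le (T a M : ℕ) :
    ∑ i ∈ range (M + 1), phi T (a + i) * Gam T (a + i) ≤ 6 * phi T (a + M) := by
  have hT : (0 : ℝ) ≤ T := Nat.cast_nonneg T
  have ha : (0 : ℝ) ≤ a := Nat.cast_nonneg a
  have hM : (0 : ℝ) ≤ M := Nat.cast_nonneg M
  have h1 : ∑ i ∈ range (M + 1), phi T (a + i) * Gam T (a + i) ≤
      ∑ i ∈ range (M + 1), 6 * (1 / (((a : ℝ) + i + 1 + T) * ((a : ℝ) + i + 2 + T))) := by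
    apply Finset.sum_le_sum
    intro i _
    have h := phi_Gam_le T (a + i)
    push_cast at h
    rw [mul_one_div]
    exact h
  rw [← Finset.mul_sum, sum_tele_eq] at h1
  refine h1.trans ?_
  apply mul_le_mul_of_nonneg_left _ (by norm_num)
  unfold phi
  push_cast
  rw [div_le_div_iff₀ (by positivity) (by positivity)]
  have e : (a : ℝ) + (M + 1) + 1 + T = a + M + 2 + T := by ring
  rw [e]
  have h2 : ((M : ℝ) + 1) * (a + M + 1 + T) ≤ (a + M + 1) * (a + M + 2) * (a + 1 + T) := by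
    have h3 : ((M : ℝ) + 1) * (a + M + 1 + T) ≤ (a + M + 2) * ((a + M + 1) * (a + 1 + T)) := by
      have h4 : (a : ℝ) + M + 1 + T ≤ (a + M + 2) * (a + 1 + T) := by
        nlinarith [mul_nonneg ha hT, mul_nonneg hM hT, mul_nonneg ha ha, mul_nonneg ha hM]
      have h5 : (M : ℝ) + 1 ≤ a + M + 1 := by linarith
      calc ((M : ℝ) + 1) * (a + M + 1 + T) ≤ (a + M + 1) * ((a + M + 2) * (a + 1 + T)) :=
            mul_le_mul h5 h4 (by positivity) (by positivity)
        _ = _ := by ring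
    linarith
  calc ((M : ℝ) + 1) * ((a + M + 1 + T) * (a + M + 2 + T))
      = (((M : ℝ) + 1) * (a + M + 1 + T)) * (a + M + 2 + T) := by ring
    _ ≤ ((a + M + 1) * (a + M + 2) * (a + 1 + T)) * (a + M + 2 + T) :=
        mul_le_mul_of_nonneg_right h2 (by positivity)
    _ = (a + M + 1) * (a + M + 2) * ((a + 1 + T) * (a + M + 2 + T)) := by ring

/-- the leaf wall potential of kind 2 sits on the slice `0` -/
theorem VV_zero (s T : J → ℕ) (b : J) (ρ : ℕ) (u : (J → ℕ) → ℝ) :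
    VV s T (fun _ => 0) b ρ u = phi (T b) (s b) *
      (Zb s T (fun _ => 0) b ρ * AA s T (fun _ => 0) b ρ u 0 ^ 2) := by
  rw [VV_slice, Finset.sum_range_succ', Finset.sum_eq_zero, zero_add]
  · simp only [Gam_zero_zero, psi_zero, Nat.sub_zero, mul_one]
  · intro i _
    simp only [Gam_zero_succ, mul_zero, zero_mul]

section

variable (s T : J → ℕ) (b l' : J) (ρ : ℕ) (u t : (J → ℕ) → ℝ)

/-- the path from slice `i` to the slice `0` -/
theorem path_zero (hb : l' ≠ b) (hl : 8 * ρ ≤ s l') {i : ℕ} (hi : i ≤ min (s b) ρ) :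
    Zb s T (fun _ => 0) b (ρ - i) *
      (AA s T (fun _ => 0) b ρ u i - AA s T (fun _ => 0) b ρ u 0) ^ 2 ≤
      4 * (∑ k ∈ Finset.Ico 0 i, 1 / phi (T b) (s b - (k + 1))) *
        EE s T (fun _ => 0) ρ u t := by
  have h := path_AA s T (fun _ => 0) b ρ u t (Nat.zero_le i) hi (γ := 2) (by norm_num)
    (fun k _ hk => Zb_le_two s T b l' hb hl (by omega) (by omega))
  have e : ∑ k ∈ Finset.Ico 0 i, 1 / psi s T (fun _ => 0) b (k + 1) =
      ∑ k ∈ Finset.Ico 0 i, 1 / phi (T b) (s b - (k + 1)) := by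
    apply Finset.sum_congr rfl
    intro k _
    rw [psi_zero]
  rw [e] at h
  refine h.trans (le_of_eq ?_)
  ring

/-- kind 2: wall term of a column -/
theorem column_two (hb : l' ≠ b) (hl : 8 * ρ ≤ s l') (H : ℝ)
    (hH : ∑ i ∈ range (min (s b) ρ + 1), 1 / ((i : ℝ) + 1) ≤ H) :
    RR s T (fun _ => 0) b ρ u ≤ 24 * VV s T (fun _ => 0) b ρ u +
      8 * (12 * (((min (s b) ρ : ℕ) : ℝ) + 1) / ((T b : ℝ) + 1) + 24 * H) *
        EE s T (fun _ => 0) ρ u t := by
  set M := min (s b) ρ with hM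
  have hMs : M ≤ s b := min_le_left _ _
  have hMρ : M ≤ ρ := min_le_right _ _
  obtain ⟨a, ha⟩ := Nat.exists_eq_add_of_le hMs
  have hEE := EE_nonneg s T (fun _ => 0) ρ u t
  let g : ℕ → ℝ := fun i => phi (T b) (a + i) * Gam (T b) (a + i) *
    ∑ k ∈ Finset.Icc i M, 1 / phi (T b) (a + k)
  have hg0 : ∀ i, 0 ≤ g i := fun i =>
    mul_nonneg (mul_nonneg (phi_pos _ _).le (Gam_nonneg _ _))
      (Finset.sum_nonneg fun k _ => (one_div_pos.2 (phi_pos _ _)).le)
  rw [RR_slice, ← hM]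
  set X := Zb s T (fun _ => 0) b ρ * AA s T (fun _ => 0) b ρ u 0 ^ 2 with hX
  have hX0 : 0 ≤ X := mul_nonneg (Zb_nonneg _ _ _ _ _) (sq_nonneg _)
  have hterm : ∀ i ∈ range (M + 1), psi s T (fun _ => 0) b i * Gam (T b) (s b - i) *
      (Zb s T (fun _ => 0) b (ρ - i) * AA s T (fun _ => 0) b ρ u i ^ 2) ≤
      4 * X * (phi (T b) (a + (M - i)) * Gam (T b) (a + (M - i))) +
        8 * EE s T (fun _ => 0) ρ u t * g (M - i) := by
    intro i hi
    rw [Finset.mem_range] at hi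
    have e1 : a + (M - i) = s b - i := by omega
    have hpath := path_zero s T b l' ρ u t hb hl (i := i) (by omega)
    have hZ : Zb s T (fun _ => 0) b (ρ - i) ≤ 2 * Zb s T (fun _ => 0) b ρ :=
      Zb_le_two s T b l' hb hl (Nat.sub_le _ _) le_rfl
    rw [psi_zero]
    have hψG : 0 ≤ phi (T b) (s b - i) * Gam (T b) (s b - i) :=
      mul_nonneg (phi_pos _ _).le (Gam_nonneg _ _)
    have hZ0 := Zb_nonneg s T (fun _ => 0) b (ρ - i)
    have hA2 : AA s T (fun _ => 0) b ρ u i ^ 2 ≤ 2 * AA s T (fun _ => 0) b ρ u 0 ^ 2 +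
        2 * (AA s T (fun _ => 0) b ρ u i - AA s T (fun _ => 0) b ρ u 0) ^ 2 := by
      nlinarith [sq_nonneg (AA s T (fun _ => 0) b ρ u i - 2 * AA s T (fun _ => 0) b ρ u 0)]
    have h3 : Zb s T (fun _ => 0) b (ρ - i) * AA s T (fun _ => 0) b ρ u i ^ 2 ≤
        4 * X + 8 * (∑ k ∈ Finset.Ico 0 i, 1 / phi (T b) (s b - (k + 1))) *
          EE s T (fun _ => 0) ρ u t := by
      have h4 := mul_le_mul_of_nonneg_left hA2 hZ0
      have h5 : Zb s T (fun _ => 0) b (ρ - i) * AA s T (fun _ => 0) b ρ u 0 ^ 2 ≤ 2 * X := by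
        rw [hX, ← mul_assoc]
        exact mul_le_mul_of_nonneg_right hZ (sq_nonneg _)
      linarith
    have h6 := mul_le_mul_of_nonneg_left h3 hψG
    refine h6.trans ?_
    rw [e1]
    have h7 : ∑ k ∈ Finset.Ico 0 i, 1 / phi (T b) (s b - (k + 1)) ≤
        ∑ k ∈ Finset.Icc (M - i) M, 1 / phi (T b) (a + k) := by
      have e : ∑ k ∈ Finset.Ico 0 i, 1 / phi (T b) (s b - (k + 1)) =
          ∑ k ∈ (Finset.Ico 0 i).image (fun k => M - (k + 1)), 1 / phi (T b) (a + k) := by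
        rw [Finset.sum_image]
        · apply Finset.sum_congr rfl
          intro k hk
          rw [Finset.mem_Ico] at hk
          congr 2
          omega
        · intro x hx y hy h
          rw [Finset.mem_coe, Finset.mem_Ico] at hx hy
          simp only at h
          omega
      rw [e]
      apply Finset.sum_le_sum_of_subset_of_nonneg
      · intro x hx
        rw [Finset.mem_image] at hx
        obtain ⟨k, hk, rfl⟩ := hx
        rw [Finset.mem_Ico] at hk
        rw [Finset.mem_Icc]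
        omega
      · intro j _ _
        exact (one_div_pos.2 (phi_pos _ _)).le
    have h8 : phi (T b) (s b - i) * Gam (T b) (s b - i) *
        (8 * (∑ k ∈ Finset.Ico 0 i, 1 / phi (T b) (s b - (k + 1))) *
          EE s T (fun _ => 0) ρ u t) ≤ 8 * EE s T (fun _ => 0) ρ u t * g (M - i) := by
      simp only [g]
      rw [e1]
      have := mul_le_mul_of_nonneg_left h7 (mul_nonneg hψG (by linarith :
        0 ≤ 8 * EE s T (fun _ => 0) ρ u t))
      linarith
    linarith
  refine (Finset.sum_le_sum hterm).trans ?_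
  rw [Finset.sum_add_distrib, ← Finset.mul_sum, ← Finset.mul_sum]
  have e1 : ∑ i ∈ range (M + 1), g (M - i) = ∑ i ∈ range (M + 1), g i := by
    have := Finset.sum_range_reflect g (M + 1)
    simpa using this
  have e2 : ∑ i ∈ range (M + 1), phi (T b) (a + (M - i)) * Gam (T b) (a + (M - i)) =
      ∑ i ∈ range (M + 1), phi (T b) (a + i) * Gam (T b) (a + i) := by
    have := Finset.sum_range_reflect (fun i => phi (T b) (a + i) * Gam (T b) (a + i)) (M + 1)
    simpa using this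
  rw [e1, e2]
  have h1 := double_sum (T b) a M H hH
  have h2 := sum_phi_Gam_le (T b) a M
  have e3 : a + M = s b := by omega
  rw [e3] at h2
  have h3 := mul_le_mul_of_nonneg_left h1 (by linarith : 0 ≤ 8 * EE s T (fun _ => 0) ρ u t)
  have h4 := mul_le_mul_of_nonneg_left h2 (by linarith : 0 ≤ 4 * X)
  rw [VV_zero, ← hX]
  have h5 : 4 * X * (6 * phi (T b) (s b)) = 24 * (phi (T b) (s b) * X) := by ring
  rw [h5] at h4
  have h6 : 8 * EE s T (fun _ => 0) ρ u t *
      (12 * ((M : ℝ) + 1) / ((T b : ℝ) + 1) + 24 * H) =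
      8 * (12 * ((M : ℝ) + 1) / ((T b : ℝ) + 1) + 24 * H) * EE s T (fun _ => 0) ρ u t := by ring
  rw [h6] at h3
  linarith

/-- kind 2: mass of a column -/
theorem mass_two (hb : l' ≠ b) (hl : 8 * ρ ≤ s l') :
    MM s T (fun _ => 0) ρ u ≤ 8 * ((ρ : ℝ) + 1) ^ 2 *
      (VV s T (fun _ => 0) b ρ u + EE s T (fun _ => 0) ρ u t) := by
  set M := min (s b) ρ with hM
  have hMs : M ≤ s b := min_le_left _ _
  have hMρ : M ≤ ρ := min_le_right _ _
  have hEE := EE_nonneg s T (fun _ => 0) ρ u t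
  have hVV := VV_nonneg s T (fun _ => 0) b ρ u
  rw [MM_slice s T (fun _ => 0) b, ← hM]
  set X := Zb s T (fun _ => 0) b ρ * AA s T (fun _ => 0) b ρ u 0 ^ 2 with hX
  have hX0 : 0 ≤ X := mul_nonneg (Zb_nonneg _ _ _ _ _) (sq_nonneg _)
  have hVX : VV s T (fun _ => 0) b ρ u = phi (T b) (s b) * X := VV_zero s T b ρ u
  have hMr : (M : ℝ) ≤ ρ := by exact_mod_cast hMρ
  have hM0 : (0 : ℝ) ≤ M := Nat.cast_nonneg M
  have hterm : ∀ i ∈ range (M + 1), psi s T (fun _ => 0) b i *
      (Zb s T (fun _ => 0) b (ρ - i) * AA s T (fun _ => 0) b ρ u i ^ 2) ≤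
      4 * VV s T (fun _ => 0) b ρ u + 8 * (M : ℝ) * EE s T (fun _ => 0) ρ u t := by
    intro i hi
    rw [Finset.mem_range] at hi
    have hpath := path_zero s T b l' ρ u t hb hl (i := i) (by omega)
    have hZ : Zb s T (fun _ => 0) b (ρ - i) ≤ 2 * Zb s T (fun _ => 0) b ρ :=
      Zb_le_two s T b l' hb hl (Nat.sub_le _ _) le_rfl
    rw [psi_zero]
    have hψ0 : 0 ≤ phi (T b) (s b - i) := (phi_pos _ _).le
    have hZ0 := Zb_nonneg s T (fun _ => 0) b (ρ - i)
    have hA2 : AA s T (fun _ => 0) b ρ u i ^ 2 ≤ 2 * AA s T (fun _ => 0) b ρ u 0 ^ 2 +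
        2 * (AA s T (fun _ => 0) b ρ u i - AA s T (fun _ => 0) b ρ u 0) ^ 2 := by
      nlinarith [sq_nonneg (AA s T (fun _ => 0) b ρ u i - 2 * AA s T (fun _ => 0) b ρ u 0)]
    have h3 : Zb s T (fun _ => 0) b (ρ - i) * AA s T (fun _ => 0) b ρ u i ^ 2 ≤
        4 * X + 8 * (∑ k ∈ Finset.Ico 0 i, 1 / phi (T b) (s b - (k + 1))) *
          EE s T (fun _ => 0) ρ u t := by
      have h4 := mul_le_mul_of_nonneg_left hA2 hZ0
      have h5 : Zb s T (fun _ => 0) b (ρ - i) * AA s T (fun _ => 0) b ρ u 0 ^ 2 ≤ 2 * X := by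
        rw [hX, ← mul_assoc]
        exact mul_le_mul_of_nonneg_right hZ (sq_nonneg _)
      linarith
    have h6 := mul_le_mul_of_nonneg_left h3 hψ0
    refine h6.trans ?_
    have h7 : phi (T b) (s b - i) * ∑ k ∈ Finset.Ico 0 i, 1 / phi (T b) (s b - (k + 1)) ≤ M := by
      rw [Finset.mul_sum]
      have h8 : ∀ k ∈ Finset.Ico 0 i,
          phi (T b) (s b - i) * (1 / phi (T b) (s b - (k + 1))) ≤ 1 := by
        intro k hk
        rw [Finset.mem_Ico] at hk
        rw [mul_one_div, div_le_one (phi_pos _ _)]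
        exact phi_mono (T b) (by omega)
      have h9 := Finset.sum_le_sum h8
      simp only [Finset.sum_const, Nat.card_Ico, nsmul_eq_mul, mul_one, Nat.sub_zero] at h9
      have h10 : (i : ℝ) ≤ M := by
        have : i ≤ M := by omega
        exact_mod_cast this
      linarith
    have h11 : phi (T b) (s b - i) * X ≤ phi (T b) (s b) * X :=
      mul_le_mul_of_nonneg_right (phi_mono (T b) (Nat.sub_le _ _)) hX0
    have h12 := mul_le_mul_of_nonneg_right h7 (by linarith : 0 ≤ 8 * EE s T (fun _ => 0) ρ u t)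
    rw [hVX]
    calc phi (T b) (s b - i) * (4 * X + 8 *
          (∑ k ∈ Finset.Ico 0 i, 1 / phi (T b) (s b - (k + 1))) * EE s T (fun _ => 0) ρ u t)
        = 4 * (phi (T b) (s b - i) * X) + (phi (T b) (s b - i) *
          ∑ k ∈ Finset.Ico 0 i, 1 / phi (T b) (s b - (k + 1))) *
            (8 * EE s T (fun _ => 0) ρ u t) := by ring
      _ ≤ 4 * (phi (T b) (s b) * X) + M * (8 * EE s T (fun _ => 0) ρ u t) := by linarith
      _ = _ := by ring
  have hsum := Finset.sum_le_sum hterm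
  rw [Finset.sum_const, Finset.card_range, nsmul_eq_mul] at hsum
  push_cast at hsum
  refine hsum.trans ?_
  have h1 : ((M : ℝ) + 1) * (4 * VV s T (fun _ => 0) b ρ u +
      8 * (M : ℝ) * EE s T (fun _ => 0) ρ u t) ≤
      ((ρ : ℝ) + 1) * (8 * ((ρ : ℝ) + 1) * (VV s T (fun _ => 0) b ρ u +
        EE s T (fun _ => 0) ρ u t)) := by
    apply mul_le_mul
    · linarith
    · nlinarith [mul_nonneg (by linarith : (0 : ℝ) ≤ ρ) hVV, mul_nonneg hM0 hEE,
        mul_nonneg (by linarith : (0 : ℝ) ≤ ρ - M) hEE]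
    · have := mul_nonneg hM0 hEE
      nlinarith
    · linarith
  refine h1.trans (le_of_eq ?_)
  ring

end

end Vale.Agent.Lib.P328.HH
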