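import Vale.Agent.Lib.P328.LowerA

/-!
P328, module Lower: `TT` dominates the star energies and the leaf wall potentials of the
functions `u_b`.
-/

namespace Vale.Agent.Lib.P328

open Finset

variable {J : Type} [Fintype J] [DecidableEq J]

private theorem lower_wall_nonneg (T : ℕ) (z : ℕ) (c : ℝ) :
    0 ≤ gr T z * (gr T z - gr T (z - 1)) * c ^ 2 :=
  mul_nonneg (mul_nonneg (gr_nonneg _ _) (sub_nonneg.2 (gr_mono T (Nat.sub_le z 1))))
    (sq_nonneg _)

private theorem lower_term (T' : J → ℕ) (h : (J → ℕ) → ℝ) (y : J → ℕ) (a b : J) (ha : y a ≠ 0) :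
    (uu T' h b (y - e a) - tt T' h b y) ^ 2 ≤
      9 * (gr (T' a) (y a) * gr (T' b) ((y - e a) b) *
        (h (y - e a - e b) - DD T' h (y - e a) - DD T' h (y - e b) + DD T' (DD T' h) y) ^ 2) +
      (if a = b then 9 * (gr (T' a) (y a) * (gr (T' a) (y a) - gr (T' a) (y a - 1)) *
        (DD T' h (y - e a) - DD T' (DD T' h) y) ^ 2) else 0) := by
  have h2 : 0 ≤ (if a = b then 9 * (gr (T' a) (y a) * (gr (T' a) (y a) - gr (T' a) (y a - 1)) *
        (DD T' h (y - e a) - DD T' (DD T' h) y) ^ 2) else 0) := by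
    split_ifs with hab
    · exact mul_nonneg (by norm_num) (lower_wall_nonneg _ _ _)
    · exact le_rfl
  by_cases h1 : (y - e a) b = 0
  · by_cases h3 : y b = 0
    · have e1 : uu T' h b (y - e a) = 0 := by
        unfold uu
        rw [if_pos h1]
      have e2 : tt T' h b y = 0 := by
        unfold tt
        rw [if_pos h3]
      rw [e1, e2, sub_zero]
      have h4 : 0 ≤ 9 * (gr (T' a) (y a) * gr (T' b) ((y - e a) b) *
          (h (y - e a - e b) - DD T' h (y - e a) - DD T' h (y - e b) + DD T' (DD T' h) y) ^ 2) :=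
        mul_nonneg (by norm_num) (mul_nonneg (mul_nonneg (gr_nonneg _ _) (gr_nonneg _ _))
          (sq_nonneg _))
      rw [zero_pow (by norm_num)]
      linarith
    · have hab : a = b := by
        by_contra hne
        simp only [Pi.sub_apply, e_ne (Ne.symm hne), tsub_zero] at h1
        exact h3 h1
      subst hab
      have h5 : y a = 1 := by
        simp only [Pi.sub_apply, e_same] at h1
        omega
      have e1 : uu T' h a (y - e a) = 0 := by
        unfold uu
        rw [if_pos h1]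
      have e2 : tt T' h a y = DD T' h (y - e a) - DD T' (DD T' h) y := by
        unfold tt
        rw [if_neg h3]
      rw [e1, e2, if_pos rfl, h1, gr_zero, h5, Nat.sub_self, gr_zero, mul_zero, zero_mul, mul_zero,
        zero_add, sub_zero, zero_sub, neg_sq]
      have h6 := third_le_gr (T' a) (z := 1) (by norm_num)
      have h7 : 1 ≤ 9 * (gr (T' a) 1 * gr (T' a) 1) := by nlinarith
      calc (DD T' h (y - e a) - DD T' (DD T' h) y) ^ 2
          = 1 * (DD T' h (y - e a) - DD T' (DD T' h) y) ^ 2 := (one_mul _).symm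
        _ ≤ 9 * (gr (T' a) 1 * gr (T' a) 1) * (DD T' h (y - e a) - DD T' (DD T' h) y) ^ 2 :=
            mul_le_mul_of_nonneg_right h7 (sq_nonneg _)
        _ = _ := by ring
  · have h3 : y b ≠ 0 := by
      intro h4
      apply h1
      simp only [Pi.sub_apply, h4, Nat.zero_sub]
    have e1 : uu T' h b (y - e a) = h (y - e a - e b) - DD T' h (y - e a) := by
      unfold uu
      rw [if_neg h1]
    have e2 : tt T' h b y = DD T' h (y - e b) - DD T' (DD T' h) y := by
      unfold tt
      rw [if_neg h3]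
    rw [e1, e2]
    have h6 := third_le_gr (T' a) ha
    have h7 := third_le_gr (T' b) h1
    have h8 : 1 ≤ 9 * (gr (T' a) (y a) * gr (T' b) ((y - e a) b)) := by nlinarith
    calc (h (y - e a - e b) - DD T' h (y - e a) - (DD T' h (y - e b) - DD T' (DD T' h) y)) ^ 2
        = 1 * (h (y - e a - e b) - DD T' h (y - e a) - DD T' h (y - e b) +
            DD T' (DD T' h) y) ^ 2 := by ring
      _ ≤ 9 * (gr (T' a) (y a) * gr (T' b) ((y - e a) b)) *
          (h (y - e a - e b) - DD T' h (y - e a) - DD T' h (y - e b) +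
            DD T' (DD T' h) y) ^ 2 := mul_le_mul_of_nonneg_right h8 (sq_nonneg _)
      _ = 9 * (gr (T' a) (y a) * gr (T' b) ((y - e a) b) *
          (h (y - e a - e b) - DD T' h (y - e a) - DD T' h (y - e b) +
            DD T' (DD T' h) y) ^ 2) := by ring
      _ ≤ _ := le_add_of_nonneg_right h2

/-- the summand of `TT` -/
private noncomputable def lowerS (T' : J → ℕ) (h : (J → ℕ) → ℝ) (y : J → ℕ) : ℝ :=
  ∑ a, gr (T' a) (y a) * (gr (T' a) (y a) - gr (T' a) (y a - 1)) *
    (DD T' h (y - e a) - DD T' (DD T' h) y) ^ 2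

private theorem lower_point (T' : J → ℕ) (h : (J → ℕ) → ℝ) (y : J → ℕ) :
    ∑ b, ∑ a, (if y a = 0 then 0 else (uu T' h b (y - e a) - tt T' h b y) ^ 2) ≤
      9 * ((∑ a, ∑ b, gr (T' a) (y a) * gr (T' b) ((y - e a) b) *
        (h (y - e a - e b) - DD T' h (y - e a) - DD T' h (y - e b) + DD T' (DD T' h) y) ^ 2) +
        lowerS T' h y) := by
  have h1 : ∀ b a : J, (if y a = 0 then 0 else (uu T' h b (y - e a) - tt T' h b y) ^ 2) ≤
      9 * (gr (T' a) (y a) * gr (T' b) ((y - e a) b) *
        (h (y - e a - e b) - DD T' h (y - e a) - DD T' h (y - e b) + DD T' (DD T' h) y) ^ 2) +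
      (if a = b then 9 * (gr (T' a) (y a) * (gr (T' a) (y a) - gr (T' a) (y a - 1)) *
        (DD T' h (y - e a) - DD T' (DD T' h) y) ^ 2) else 0) := by
    intro b a
    by_cases ha : y a = 0
    · rw [if_pos ha]
      apply add_nonneg
      · exact mul_nonneg (by norm_num) (mul_nonneg (mul_nonneg (gr_nonneg _ _) (gr_nonneg _ _))
          (sq_nonneg _))
      · split_ifs with hab
        · exact mul_nonneg (by norm_num) (lower_wall_nonneg _ _ _)
        · exact le_rfl
    · rw [if_neg ha]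
      exact lower_term T' h y a b ha
  refine (Finset.sum_le_sum fun b _ => Finset.sum_le_sum fun a _ => h1 b a).trans (le_of_eq ?_)
  rw [Finset.sum_comm]
  simp only [Finset.sum_add_distrib, Finset.sum_ite_eq, Finset.mem_univ, if_true]
  rw [mul_add, Finset.mul_sum]
  unfold lowerS
  rw [Finset.mul_sum]
  congr 1
  apply Finset.sum_congr rfl
  intro a _
  rw [Finset.mul_sum]

/-- `∑_b EE(u_b, t_b) ≤ 9 TT`.
Proof: `h(y-e_a-e_b) - Dh(y-e_a) - Dh(y-e_b) + DDh(y) = u_b(y-e_a) - t_b(y)` if `y_a ≥ 1` and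
`(y-e_a)_b ≥ 1`, and then `m_{ab} ≥ 1/9` (`third_le_gr`).  The terms of `EE(u_b,t_b)` with
`(y - e_a)_b = 0` vanish if `y_b = 0`, and for `a = b`, `y_b = 1` equal
`(Dh(y - e_b) - DDh(y))²`, with `q_b (q_b - q_b⁻) = q_b² ≥ 1/9`. -/
theorem sum_EE_le (s T T' : J → ℕ) (r : ℕ) (h : (J → ℕ) → ℝ) :
    ∑ b, EE s T T' (r + 1) (uu T' h b) (tt T' h b) ≤ 9 * TT s T T' r h := by
  have h1 : ∑ b, EE s T T' (r + 1) (uu T' h b) (tt T' h b) =
      ∑ y ∈ lev s (r + 2), wt (psi s T T') y *
        ∑ b, ∑ a, (if y a = 0 then 0 else (uu T' h b (y - e a) - tt T' h b y) ^ 2) := by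
    unfold EE
    rw [Finset.sum_comm]
    apply Finset.sum_congr rfl
    intro y _
    rw [← Finset.mul_sum]
  rw [h1]
  unfold TT
  rw [Finset.mul_sum]
  apply Finset.sum_le_sum
  intro y _
  have h2 := mul_le_mul_of_nonneg_left (lower_point T' h y) (wt_pos s T T' y).le
  refine h2.trans (le_of_eq ?_)
  unfold lowerS
  ring

private theorem lower_S_le (s T T' : J → ℕ) (r : ℕ) (h : (J → ℕ) → ℝ) :
    ∑ y ∈ lev s (r + 2), wt (psi s T T') y * lowerS T' h y ≤ TT s T T' r h := by
  unfold TT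
  apply Finset.sum_le_sum
  intro y _
  apply mul_le_mul_of_nonneg_left _ (wt_pos s T T' y).le
  unfold lowerS
  apply le_add_of_nonneg_left
  exact Finset.sum_nonneg fun a _ => Finset.sum_nonneg fun b _ =>
    mul_nonneg (mul_nonneg (gr_nonneg _ _) (gr_nonneg _ _)) (sq_nonneg _)

private theorem lower_Gam_le_one (T z : ℕ) : Gam T z ≤ 1 := by
  unfold Gam
  have h1 := gr_le_one T (z + 1)
  have h2 := gr_nonneg T z
  linarith

/-- one term of `VV` -/
private theorem lower_vv (s T T' : J → ℕ) (h : (J → ℕ) → ℝ) (w : J → ℕ) (a b : J)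
    (ha : w a < s a) :
    wt (psi s T T') w * Gam (T' b) (w b) * uu T' h b w ^ 2 ≤
      6 * (wt (psi s T T') (w + e a) * (uu T' h b w - tt T' h b (w + e a)) ^ 2) +
      18 * (wt (psi s T T') (w + e a) * (gr (T' b) ((w + e a) b) *
        (gr (T' b) ((w + e a) b) - gr (T' b) ((w + e a) b - 1)) *
        (DD T' h (w + e a - e b) - DD T' (DD T' h) (w + e a)) ^ 2)) := by
  have hw1 := wt_le_add s T T' ha
  have hw0 := (wt_pos s T T' w).le
  have hy0 := (wt_pos s T T' (w + e a)).le
  set y := w + e a with hy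
  have hwall := lower_wall_nonneg (T' b) (y b) (DD T' h (y - e b) - DD T' (DD T' h) y)
  by_cases hb : w b = 0
  · have e1 : uu T' h b w = 0 := by
      unfold uu
      rw [if_pos hb]
    have h1 : wt (psi s T T') w * Gam (T' b) (w b) * uu T' h b w ^ 2 = 0 := by
      rw [e1]
      ring
    rw [h1]
    have h2 : 0 ≤ wt (psi s T T') y * (uu T' h b w - tt T' h b y) ^ 2 :=
      mul_nonneg hy0 (sq_nonneg _)
    have h3 := mul_nonneg hy0 hwall
    linarith
  · have hyb : y b ≠ 0 := by
      rw [hy, Pi.add_apply]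
      omega
    have e2 : tt T' h b y = DD T' h (y - e b) - DD T' (DD T' h) y := by
      unfold tt
      rw [if_neg hyb]
    have hG0 := Gam_nonneg (T' b) (w b)
    have hG1 := lower_Gam_le_one (T' b) (w b)
    have hle : y b - 1 ≤ w b := by
      rw [hy, Pi.add_apply]
      by_cases hba : b = a
      · subst hba
        rw [e_same]
        omega
      · rw [e_ne hba]
        omega
    have hG2 : Gam (T' b) (w b) ≤ gr (T' b) (y b) - gr (T' b) (y b - 1) := by
      have h1 := Gam_anti (T' b) hle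
      have h2 : Gam (T' b) (y b - 1) = gr (T' b) (y b) - gr (T' b) (y b - 1) := by
        unfold Gam
        rw [Nat.sub_add_cancel (Nat.one_le_iff_ne_zero.2 hyb)]
      rw [← h2]
      exact h1
    have hq := third_le_gr (T' b) hyb
    have hsq : uu T' h b w ^ 2 ≤ 2 * (uu T' h b w - tt T' h b y) ^ 2 + 2 * tt T' h b y ^ 2 := by
      nlinarith [sq_nonneg (uu T' h b w - 2 * tt T' h b y)]
    have h1 : wt (psi s T T') w * Gam (T' b) (w b) * uu T' h b w ^ 2 ≤
        wt (psi s T T') w * Gam (T' b) (w b) *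
          (2 * (uu T' h b w - tt T' h b y) ^ 2 + 2 * tt T' h b y ^ 2) :=
      mul_le_mul_of_nonneg_left hsq (mul_nonneg hw0 hG0)
    have h2 : wt (psi s T T') w * Gam (T' b) (w b) ≤ 3 * wt (psi s T T') y * 1 :=
      mul_le_mul hw1 hG1 hG0 (by positivity)
    have h3 : wt (psi s T T') w * Gam (T' b) (w b) ≤ 3 * wt (psi s T T') y *
        (3 * (gr (T' b) (y b) * (gr (T' b) (y b) - gr (T' b) (y b - 1)))) := by
      apply mul_le_mul hw1 _ hG0 (by positivity)
      have h4 : 0 ≤ gr (T' b) (y b) - gr (T' b) (y b - 1) := hG0.trans hG2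
      nlinarith
    have h5 := mul_le_mul_of_nonneg_right h2
      (sq_nonneg (uu T' h b w - tt T' h b y))
    have h6 := mul_le_mul_of_nonneg_right h3 (sq_nonneg (tt T' h b y))
    rw [e2] at h1 h5 h6 ⊢
    nlinarith

/-- `∑_b VV_b(u_b) ≤ 72 n TT`.
Proof: for `w ∈ lev s (r+1)` choose `a = a(w)` with `w a < s a` (exists since `r + 1 < ∑ s`), and
`y = w + e a`.  `u_b(w)² ≤ 2 (u_b(w) - t_b(y))² + 2 t_b(y)²`; if `u_b(w) ≠ 0` then `w b ≥ 1` and
`Gam (T' b) (w b) ≤ Gam (T' b) (y b - 1) = q_b - q_b⁻` (`Gam_anti`; `y b - 1 = w b` if `a = b`,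
`= w b - 1` otherwise), and `Gam ≤ 1`; `wt w ≤ 3 wt y` (`wt_le_add`); each `y` is reached from at
most `n` points `w`; `q_b ≥ 1/3`.  Hence
`VV_b ≤ 6 EE(u_b,t_b) + 18 n ∑_y wt y q_b (q_b - q_b⁻) t_b(y)²`, and `sum_EE_le`. -/
theorem sum_VV_le (s T T' : J → ℕ) (r : ℕ) (h : (J → ℕ) → ℝ) (hr : r + 2 ≤ ∑ l, s l) :
    ∑ b, VV s T T' b (r + 1) (uu T' h b) ≤ 72 * Fintype.card J * TT s T T' r h := by
  -- the right hand side for one pair
  set F : (J → ℕ) → J → ℝ := fun w a => ∑ b,
    (6 * (wt (psi s T T') (w + e a) * (uu T' h b w - tt T' h b (w + e a)) ^ 2) +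
      18 * (wt (psi s T T') (w + e a) * (gr (T' b) ((w + e a) b) *
        (gr (T' b) ((w + e a) b) - gr (T' b) ((w + e a) b - 1)) *
        (DD T' h (w + e a - e b) - DD T' (DD T' h) (w + e a)) ^ 2))) with hF
  have hF0 : ∀ w a, 0 ≤ F w a := by
    intro w a
    rw [hF]
    apply Finset.sum_nonneg
    intro b _
    have hy0 := (wt_pos s T T' (w + e a)).le
    have h2 : 0 ≤ wt (psi s T T') (w + e a) * (uu T' h b w - tt T' h b (w + e a)) ^ 2 :=
      mul_nonneg hy0 (sq_nonneg _)
    have h3 := mul_nonneg hy0 (lower_wall_nonneg (T' b) ((w + e a) b)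
      (DD T' h (w + e a - e b) - DD T' (DD T' h) (w + e a)))
    linarith
  have h1 : ∑ b, VV s T T' b (r + 1) (uu T' h b) ≤
      ∑ w ∈ lev s (r + 1), ∑ a, (if w a < s a then F w a else 0) := by
    unfold VV
    rw [Finset.sum_comm]
    apply Finset.sum_le_sum
    intro w hw
    obtain ⟨a, ha⟩ : ∃ a, w a < s a := by
      by_contra hcon
      push Not at hcon
      have h2 : ∑ l, s l ≤ ∑ l, w l := Finset.sum_le_sum fun l _ => hcon l
      rw [(mem_lev.1 hw).2] at h2
      omega
    have h2 : ∑ b, wt (psi s T T') w * Gam (T' b) (w b) * uu T' h b w ^ 2 ≤ F w a :=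
      Finset.sum_le_sum fun b _ => lower_vv s T T' h w a b ha
    refine h2.trans ?_
    have h3 : (if w a < s a then F w a else 0) ≤ ∑ a, (if w a < s a then F w a else 0) :=
      Finset.single_le_sum (f := fun a => if w a < s a then F w a else 0)
        (fun a _ => by
          split_ifs
          · exact hF0 w a
          · exact le_rfl) (Finset.mem_univ a)
    rw [if_pos ha] at h3
    exact h3
  rw [sum_shift s (r + 1) F] at h1
  -- pointwise
  have h2 : ∀ y : J → ℕ, ∑ a, (if y a = 0 then 0 else F (y - e a) a) ≤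
      6 * (wt (psi s T T') y *
        ∑ b, ∑ a, (if y a = 0 then 0 else (uu T' h b (y - e a) - tt T' h b y) ^ 2)) +
      18 * (Fintype.card J * (wt (psi s T T') y * lowerS T' h y)) := by
    intro y
    have hy0 := (wt_pos s T T' y).le
    have hS0 : 0 ≤ lowerS T' h y := Finset.sum_nonneg fun a _ => lower_wall_nonneg _ _ _
    have h3 : ∀ a, (if y a = 0 then 0 else F (y - e a) a) ≤
        6 * (wt (psi s T T') y * ∑ b, (if y a = 0 then 0 else
          (uu T' h b (y - e a) - tt T' h b y) ^ 2)) +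
        18 * (wt (psi s T T') y * lowerS T' h y) := by
      intro a
      by_cases ha : y a = 0
      · simp only [if_pos ha, Finset.sum_const_zero, mul_zero, zero_add]
        exact mul_nonneg (by norm_num) (mul_nonneg hy0 hS0)
      · simp only [if_neg ha]
        rw [hF]
        simp only [sub_add_e ha]
        rw [Finset.sum_add_distrib, ← Finset.mul_sum, ← Finset.mul_sum, ← Finset.mul_sum,
          ← Finset.mul_sum]
        exact le_of_eq rfl
    refine (Finset.sum_le_sum fun a _ => h3 a).trans (le_of_eq ?_)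
    rw [Finset.sum_add_distrib, Finset.sum_const, Finset.card_univ, nsmul_eq_mul,
      ← Finset.mul_sum, ← Finset.mul_sum, Finset.sum_comm]
    ring
  have h3 := h1.trans (Finset.sum_le_sum fun y _ => h2 y)
  rw [Finset.sum_add_distrib, ← Finset.mul_sum, ← Finset.mul_sum, ← Finset.mul_sum] at h3
  have h4 : ∑ y ∈ lev s (r + 1 + 1), wt (psi s T T') y *
      ∑ b, ∑ a, (if y a = 0 then 0 else (uu T' h b (y - e a) - tt T' h b y) ^ 2) =
      ∑ b, EE s T T' (r + 1) (uu T' h b) (tt T' h b) := by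
    unfold EE
    rw [Finset.sum_comm]
    apply Finset.sum_congr rfl
    intro y _
    rw [← Finset.mul_sum]
  rw [h4] at h3
  have h5 := sum_EE_le s T T' r h
  have h6 := lower_S_le s T T' r h
  have h7 := TT_nonneg s T T' r h
  have hn : 1 ≤ (Fintype.card J : ℝ) := by
    have h8 : 0 < Fintype.card J := by
      rw [Fintype.card_pos_iff]
      by_contra hcon
      rw [not_nonempty_iff] at hcon
      rw [Finset.univ_eq_empty, Finset.sum_empty] at hr
      omega
    exact_mod_cast h8
  have h8 : 18 * ((Fintype.card J : ℝ) * ∑ y ∈ lev s (r + 1 + 1), wt (psi s T T') y *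
      lowerS T' h y) ≤ 18 * ((Fintype.card J : ℝ) * TT s T T' r h) :=
    mul_le_mul_of_nonneg_left (mul_le_mul_of_nonneg_left h6 (by positivity)) (by norm_num)
  nlinarith

end Vale.Agent.Lib.P328
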