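import Vale.Agent.Lib.P328.HHColumnOne
import Vale.Agent.Lib.P328.HHColumnTwo
import Vale.Agent.Lib.P328.Lower

/-!
P328, module FibreMain: the two row inequality.
-/

namespace Vale.Agent.Lib.P328

open Finset

variable {J : Type} [Fintype J] [DecidableEq J]

private theorem ratio_le {M T K : ℝ} (hT : 0 ≤ T) (hK : 1 ≤ K)
    (h : M ≤ K * (T + 1)) : 12 * (M + 1) / (T + 1) ≤ 24 * K := by
  rw [div_le_iff₀ (by linarith)]
  nlinarith

/-- kind 1 -/
private theorem fibre_one (s T : J → ℕ) (r : ℕ) (h : (J → ℕ) → ℝ) {K H : ℝ}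
    (hr : 2 * (r + 1) ≤ ∑ l, s l) (hK : 1 ≤ K)
    (hscale : ∀ l, ((min (s l) (r + 1) : ℕ) : ℝ) ≤ K * ((T l : ℝ) + 1))
    (hHb : ∀ b, ∑ i ∈ range (min (s b) (r + 1) + 1), 1 / ((i : ℝ) + 1) ≤ H) (hH1 : 1 ≤ H) :
    Rt s T T r h ≤ (216 * Fintype.card J + 6912 * (K + H)) * TT s T T r h := by
  have h1 := Rt_le s T T r h
  have h2 := sum_EE_le s T T r h
  have h3 := sum_VV_le s T T r h (by omega)
  have h4 : ∀ b, RR s T T b (r + 1) (uu T h b) ≤ 3 * VV s T T b (r + 1) (uu T h b) +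
      768 * (K + H) * EE s T T (r + 1) (uu T h b) (tt T h b) := by
    intro b
    have h5 := HH.column_one s T b (r + 1) (uu T h b) (tt T h b) hr H (hHb b)
    have h6 := ratio_le (Nat.cast_nonneg (T b)) hK (hscale b)
    have h7 := EE_nonneg s T T (r + 1) (uu T h b) (tt T h b)
    have h8 : 32 * (12 * (((min (s b) (r + 1) : ℕ) : ℝ) + 1) / ((T b : ℝ) + 1) + 24 * H) *
        EE s T T (r + 1) (uu T h b) (tt T h b) ≤
        768 * (K + H) * EE s T T (r + 1) (uu T h b) (tt T h b) := by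
      apply mul_le_mul_of_nonneg_right _ h7
      linarith
    linarith
  have h5 := Finset.sum_le_sum (fun b (_ : b ∈ (Finset.univ : Finset J)) => h4 b)
  rw [Finset.sum_add_distrib, ← Finset.mul_sum, ← Finset.mul_sum] at h5
  have h6 : 768 * (K + H) * ∑ b, EE s T T (r + 1) (uu T h b) (tt T h b) ≤
      768 * (K + H) * (9 * TT s T T r h) :=
    mul_le_mul_of_nonneg_left h2 (by linarith)
  linarith

/-- kind 2 -/
private theorem fibre_two (s T : J → ℕ) (r : ℕ) (h : (J → ℕ) → ℝ) {K H : ℝ}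
    (hr : 2 * (r + 1) ≤ ∑ l, s l) (hK : 1 ≤ K)
    (hscale : ∀ l, ((min (s l) (r + 1) : ℕ) : ℝ) ≤ K * ((T l : ℝ) + 1))
    (hbig : 8 * Fintype.card J * (r + 1) ≤ ∑ l, s l)
    (hHb : ∀ b, ∑ i ∈ range (min (s b) (r + 1) + 1), 1 / ((i : ℝ) + 1) ≤ H) (hH1 : 1 ≤ H) :
    Rt s T (fun _ => 0) r h ≤ (456 * Fintype.card J * (72 * Fintype.card J) +
      9 * (192 * (K + H) + 432 * Fintype.card J)) * TT s T (fun _ => 0) r h := by
  classical
  -- the column of large capacity
  obtain ⟨p, hp⟩ : ∃ p, 8 * (r + 1) ≤ s p := by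
    by_contra hcon
    push Not at hcon
    have hne : Nonempty J := by
      by_contra hJ
      rw [not_nonempty_iff] at hJ
      have : ∑ l, s l = 0 := by simp
      omega
    have h1 : ∑ l, s l < ∑ l : J, 8 * (r + 1) :=
      Finset.sum_lt_sum_of_nonempty Finset.univ_nonempty (fun l _ => hcon l)
    rw [Finset.sum_const, Finset.card_univ, smul_eq_mul] at h1
    have h2 : 8 * Fintype.card J * (r + 1) = Fintype.card J * (8 * (r + 1)) := by ring
    omega
  have hn1 : (1 : ℝ) ≤ Fintype.card J := by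
    have : 0 < Fintype.card J := Fintype.card_pos_iff.2 ⟨p⟩
    exact_mod_cast this
  set n : ℝ := (Fintype.card J : ℝ) with hn
  have h1 := Rt_le s T (fun _ => 0) r h
  have h2 := sum_EE_le s T (fun _ => 0) r h
  have h3 := sum_VV_le s T (fun _ => 0) r h (by omega)
  have hTT := TT_nonneg s T (fun _ => 0) r h
  let V : J → ℝ := fun b => VV s T (fun _ => 0) b (r + 1) (uu (fun _ => 0) h b)
  let E : J → ℝ := fun b =>
    EE s T (fun _ => 0) (r + 1) (uu (fun _ => 0) h b) (tt (fun _ => 0) h b)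
  have hV0 : ∀ b, 0 ≤ V b := fun b => VV_nonneg _ _ _ _ _ _
  have hE0 : ∀ b, 0 ≤ E b := fun b => EE_nonneg _ _ _ _ _ _
  -- the columns other than `p`
  have h4 : ∀ b, b ≠ p → RR s T (fun _ => 0) b (r + 1) (uu (fun _ => 0) h b) ≤
      24 * V b + 192 * (K + H) * E b := by
    intro b hb
    have h5 := HH.column_two s T b p (r + 1) (uu (fun _ => 0) h b) (tt (fun _ => 0) h b)
      (Ne.symm hb) hp H (hHb b)
    have h6 := ratio_le (Nat.cast_nonneg (T b)) hK (hscale b)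
    have h8 : 8 * (12 * (((min (s b) (r + 1) : ℕ) : ℝ) + 1) / ((T b : ℝ) + 1) + 24 * H) * E b ≤
        192 * (K + H) * E b := by
      apply mul_le_mul_of_nonneg_right _ (hE0 b)
      linarith
    have h9 : RR s T (fun _ => 0) b (r + 1) (uu (fun _ => 0) h b) ≤
        24 * V b + 8 * (12 * (((min (s b) (r + 1) : ℕ) : ℝ) + 1) / ((T b : ℝ) + 1) + 24 * H) *
          E b := h5
    linarith
  -- the column `p`
  have hM : ∀ b, b ≠ p → MM s T (fun _ => 0) (r + 1) (uu (fun _ => 0) h b) ≤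
      8 * (((r + 1 : ℕ) : ℝ) + 1) ^ 2 * (V b + E b) := by
    intro b hb
    exact HH.mass_two s T b p (r + 1) (uu (fun _ => 0) h b) (tt (fun _ => 0) h b)
      (Ne.symm hb) hp
  have hMp : MM s T (fun _ => 0) (r + 1) (uu (fun _ => 0) h p) ≤
      9 * n * ∑ b ∈ Finset.univ.erase p, MM s T (fun _ => 0) (r + 1) (uu (fun _ => 0) h b) := by
    unfold MM
    rw [Finset.sum_comm, Finset.mul_sum]
    apply Finset.sum_le_sum
    intro w _
    have h5 := uu_sq_le (fun _ => 0) h p w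
    have h6 : 0 ≤ wt (psi s T fun _ => 0) w := (HH.wt_psi_pos _ _ _ _).le
    calc wt (psi s T fun _ => 0) w * uu (fun _ => 0) h p w ^ 2
        ≤ wt (psi s T fun _ => 0) w * (9 * (Fintype.card J : ℝ) *
          ∑ b ∈ Finset.univ.erase p, uu (fun _ => 0) h b w ^ 2) :=
          mul_le_mul_of_nonneg_left h5 h6
      _ = 9 * n * ∑ b ∈ Finset.univ.erase p,
          wt (psi s T fun _ => 0) w * uu (fun _ => 0) h b w ^ 2 := by
          rw [← Finset.mul_sum]
          ring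
  have hRp : RR s T (fun _ => 0) p (r + 1) (uu (fun _ => 0) h p) ≤
      6 / ((7 * ((r + 1 : ℕ) : ℝ) + 2) * (7 * ((r + 1 : ℕ) : ℝ) + 3)) *
        MM s T (fun _ => 0) (r + 1) (uu (fun _ => 0) h p) := by
    unfold RR MM
    rw [Finset.mul_sum]
    apply Finset.sum_le_sum
    intro w hw
    have hwp : w p ≤ r + 1 := by
      rw [← (mem_lev.1 hw).2]
      exact Finset.single_le_sum (f := w) (fun i _ => Nat.zero_le _) (Finset.mem_univ p)
    have h5 := Gam_le (T p) (s p - w p)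
    have h6 : (7 : ℝ) * ((r + 1 : ℕ) : ℝ) ≤ ((s p - w p : ℕ) : ℝ) := by
      have : 7 * (r + 1) ≤ s p - w p := by omega
      exact_mod_cast this
    have h7 : 6 / ((((s p - w p : ℕ) : ℝ) + 2) * (((s p - w p : ℕ) : ℝ) + 3)) ≤
        6 / ((7 * ((r + 1 : ℕ) : ℝ) + 2) * (7 * ((r + 1 : ℕ) : ℝ) + 3)) := by
      apply div_le_div_of_nonneg_left (by norm_num) (by positivity)
      apply mul_le_mul
      · linarith
      · linarith
      · positivity
      · positivity
    have h8 : 0 ≤ wt (psi s T fun _ => 0) w * uu (fun _ => 0) h p w ^ 2 :=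
      mul_nonneg (HH.wt_psi_pos _ _ _ _).le (sq_nonneg _)
    calc wt (psi s T fun _ => 0) w * Gam (T p) (s p - w p) * uu (fun _ => 0) h p w ^ 2
        = Gam (T p) (s p - w p) * (wt (psi s T fun _ => 0) w * uu (fun _ => 0) h p w ^ 2) := by
          ring
      _ ≤ _ := mul_le_mul_of_nonneg_right (h5.trans h7) h8
  have hR2 : RR s T (fun _ => 0) p (r + 1) (uu (fun _ => 0) h p) ≤
      432 * n * ∑ b ∈ Finset.univ.erase p, (V b + E b) := by
    have hρ0 : (0 : ℝ) ≤ ((r + 1 : ℕ) : ℝ) := Nat.cast_nonneg _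
    set ρ : ℝ := ((r + 1 : ℕ) : ℝ) with hρ
    set S := ∑ b ∈ Finset.univ.erase p, (V b + E b) with hS
    have hS0 : 0 ≤ S := Finset.sum_nonneg fun b _ => add_nonneg (hV0 b) (hE0 b)
    have h5 : ∑ b ∈ Finset.univ.erase p, MM s T (fun _ => 0) (r + 1) (uu (fun _ => 0) h b) ≤
        8 * (ρ + 1) ^ 2 * S := by
      rw [hS, Finset.mul_sum]
      apply Finset.sum_le_sum
      intro b hb
      exact hM b (Finset.ne_of_mem_erase hb)
    have h6 : MM s T (fun _ => 0) (r + 1) (uu (fun _ => 0) h p) ≤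
        9 * n * (8 * (ρ + 1) ^ 2 * S) :=
      hMp.trans (mul_le_mul_of_nonneg_left h5 (by linarith))
    have h7 := hRp.trans (mul_le_mul_of_nonneg_left h6 (by positivity :
      0 ≤ 6 / ((7 * ρ + 2) * (7 * ρ + 3))))
    refine h7.trans ?_
    have h8 : 6 / ((7 * ρ + 2) * (7 * ρ + 3)) * (9 * n * (8 * (ρ + 1) ^ 2 * S)) =
        ((ρ + 1) ^ 2 / ((7 * ρ + 2) * (7 * ρ + 3))) * (432 * n * S) := by ring
    rw [h8]
    have h9 : (ρ + 1) ^ 2 / ((7 * ρ + 2) * (7 * ρ + 3)) ≤ 1 := by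
      rw [div_le_one (by positivity)]
      nlinarith
    calc ((ρ + 1) ^ 2 / ((7 * ρ + 2) * (7 * ρ + 3))) * (432 * n * S)
        ≤ 1 * (432 * n * S) := mul_le_mul_of_nonneg_right h9 (by positivity)
      _ = 432 * n * S := one_mul _
  -- sum up
  have h5 : ∑ b, RR s T (fun _ => 0) b (r + 1) (uu (fun _ => 0) h b) ≤
      432 * n * ∑ b ∈ Finset.univ.erase p, (V b + E b) +
      ∑ b ∈ Finset.univ.erase p, (24 * V b + 192 * (K + H) * E b) := by
    rw [← Finset.add_sum_erase Finset.univ _ (Finset.mem_univ p)]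
    exact add_le_add hR2 (Finset.sum_le_sum fun b hb => h4 b (Finset.ne_of_mem_erase hb))
  have hsubV : ∑ b ∈ Finset.univ.erase p, V b ≤ ∑ b, V b :=
    Finset.sum_le_sum_of_subset_of_nonneg (Finset.erase_subset _ _) fun b _ _ => hV0 b
  have hsubE : ∑ b ∈ Finset.univ.erase p, E b ≤ ∑ b, E b :=
    Finset.sum_le_sum_of_subset_of_nonneg (Finset.erase_subset _ _) fun b _ _ => hE0 b
  rw [Finset.sum_add_distrib, Finset.sum_add_distrib, ← Finset.mul_sum, ← Finset.mul_sum] at h5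
  have hVt : ∑ b ∈ Finset.univ.erase p, V b ≤ 72 * n * TT s T (fun _ => 0) r h :=
    hsubV.trans h3
  have hEt : ∑ b ∈ Finset.univ.erase p, E b ≤ 9 * TT s T (fun _ => 0) r h :=
    hsubE.trans h2
  have hVs0 : 0 ≤ ∑ b ∈ Finset.univ.erase p, V b := Finset.sum_nonneg fun b _ => hV0 b
  have hA : (432 * n + 24) * ∑ b ∈ Finset.univ.erase p, V b ≤
      (456 * n) * (72 * n * TT s T (fun _ => 0) r h) := by
    apply mul_le_mul _ hVt hVs0 (by linarith)
    linarith
  have hB : (432 * n + 192 * (K + H)) * ∑ b ∈ Finset.univ.erase p, E b ≤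
      (432 * n + 192 * (K + H)) * (9 * TT s T (fun _ => 0) r h) :=
    mul_le_mul_of_nonneg_left hEt (by linarith)
  linarith

/-- The two row inequality. -/
theorem fibre_main (s T T' : J → ℕ) (r : ℕ) (h : (J → ℕ) → ℝ) {K H : ℝ}
    (hr : 2 * (r + 1) ≤ ∑ l, s l) (hK : 1 ≤ K)
    (hscale : ∀ l, ((min (s l) (r + 1) : ℕ) : ℝ) ≤ K * ((T l : ℝ) + 1))
    (hkind : T' = T ∨ (T' = 0 ∧ 8 * Fintype.card J * (r + 1) ≤ ∑ l, s l))
    (hH : ∑ i ∈ range (r + 2), 1 / ((i : ℝ) + 1) ≤ H) :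
    Rt s T T' r h ≤ 10 ^ 24 * (Fintype.card J : ℝ) ^ 2 * K ^ 3 * H * TT s T T' r h := by
  have hHb : ∀ b, ∑ i ∈ range (min (s b) (r + 1) + 1), 1 / ((i : ℝ) + 1) ≤ H := by
    intro b
    refine le_trans ?_ hH
    apply Finset.sum_le_sum_of_subset_of_nonneg
    · intro x hx
      rw [Finset.mem_range] at hx ⊢
      omega
    · intro i _ _
      positivity
  have hH1 : 1 ≤ H := by
    refine le_trans ?_ hH
    have h1 : (fun i : ℕ => 1 / ((i : ℝ) + 1)) 0 ≤ ∑ i ∈ range (r + 2), 1 / ((i : ℝ) + 1) :=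
      Finset.single_le_sum (f := fun i : ℕ => 1 / ((i : ℝ) + 1)) (fun i _ => by positivity)
        (Finset.mem_range.2 (by omega))
    simpa using h1
  have hn1 : (1 : ℝ) ≤ Fintype.card J := by
    have hne : Nonempty J := by
      by_contra hJ
      rw [not_nonempty_iff] at hJ
      have : ∑ l, s l = 0 := by simp
      omega
    have : 0 < Fintype.card J := Fintype.card_pos
    exact_mod_cast this
  set n : ℝ := (Fintype.card J : ℝ) with hn
  have hTT := TT_nonneg s T T' r h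
  -- elementary bounds
  have hKH : K + H ≤ 2 * (K * H) := by nlinarith
  have hK3 : K ≤ K ^ 3 := by
    have h1 : 0 ≤ K := by linarith
    have h2 : 0 ≤ K ^ 2 - 1 := by nlinarith
    have h3 := mul_nonneg h1 h2
    nlinarith
  have hKHn : K * H ≤ n ^ 2 * K ^ 3 * H := by
    have h1 : 1 ≤ n ^ 2 := by nlinarith
    have h2 : K ≤ n ^ 2 * K ^ 3 := by
      have : K ^ 3 ≤ n ^ 2 * K ^ 3 := by
        have h3 : 0 ≤ K ^ 3 := by positivity
        nlinarith
      linarith
    exact mul_le_mul_of_nonneg_right h2 (by linarith)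
  have hnn : n ≤ n ^ 2 := by nlinarith
  have hn2 : n ^ 2 ≤ n ^ 2 * K ^ 3 * H := by
    have h1 : 1 ≤ K ^ 3 * H := by
      have : 1 ≤ K ^ 3 := by linarith
      nlinarith
    have h2 : 0 ≤ n ^ 2 := by positivity
    nlinarith
  rcases hkind with hT | ⟨hT, hbig⟩
  · subst hT
    have h1 := fibre_one s T' r h hr hK hscale hHb hH1
    refine h1.trans ?_
    have h2 : 216 * n + 6912 * (K + H) ≤ 10 ^ 24 * n ^ 2 * K ^ 3 * H := by
      nlinarith
    exact mul_le_mul_of_nonneg_right h2 hTT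
  · subst hT
    have h1 := fibre_two s T r h hr hK hscale hbig hHb hH1
    have h2 : 456 * n * (72 * n) + 9 * (192 * (K + H) + 432 * n) ≤
        10 ^ 24 * n ^ 2 * K ^ 3 * H := by
      nlinarith
    refine le_trans h1 ?_
    exact mul_le_mul_of_nonneg_right h2 hTT

end Vale.Agent.Lib.P328
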