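import Vale.Agent.Lib.P328.Coupling
import Vale.Agent.Lib.P328.Evar

/-!
P328, module HBDefs: pair heat baths on a level.
-/

namespace Vale.Agent.Lib.P328

open Finset

variable {J : Type} [Fintype J] [DecidableEq J]

/-- heat bath of the coordinates `l`, `l'` on the level `r` -/
noncomputable def hb (ψ : J → ℕ → ℝ) (s : J → ℕ) (r : ℕ) (l l' : J) (f : (J → ℕ) → ℝ) :
    (J → ℕ) → ℝ := cexp (lev s r) (wt ψ) (pi2 l l') f

/-- average of the pair heat baths over ordered pairs -/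
noncomputable def PP (ψ : J → ℕ → ℝ) (s : J → ℕ) (r : ℕ) (f : (J → ℕ) → ℝ) (x : J → ℕ) : ℝ :=
  (∑ l, ∑ l', hb ψ s r l l' f x) / (Fintype.card J : ℝ) ^ 2

/-- `f` changes by at most `C` along unit moves -/
def Lip (s : J → ℕ) (r : ℕ) (C : ℝ) (f : (J → ℕ) → ℝ) : Prop :=
  ∀ x ∈ lev s r, ∀ a b, a ≠ b → x a ≠ 0 → x b < s b → |f x - f (x - e a + e b)| ≤ C

end Vale.Agent.Lib.P328
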