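import Vale.Agent.Lib.P328.HBDefs

/-!
P328, module HBLip: one pair heat bath does not increase the Lipschitz constant.
-/

namespace Vale.Agent.Lib.P328

open Finset

variable {J : Type} [Fintype J] [DecidableEq J]

/-- the vector `x` with coordinates `l`, `l'` replaced -/
private def hbp (x : J → ℕ) (l l' : J) (i q : ℕ) : J → ℕ :=
  Function.update (Function.update x l i) l' q

private theorem hbp_left (x : J → ℕ) {l l' : J} (hl : l ≠ l') (i q : ℕ) :
    hbp x l l' i q l = i := by
  simp [hbp, Function.update_of_ne hl]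

private theorem hbp_right (x : J → ℕ) (l l' : J) (i q : ℕ) : hbp x l l' i q l' = q := by
  simp [hbp]

private theorem hbp_other (x : J → ℕ) {l l' j : J} (h1 : j ≠ l) (h2 : j ≠ l') (i q : ℕ) :
    hbp x l l' i q j = x j := by
  simp [hbp, Function.update_of_ne h1, Function.update_of_ne h2]

/-- the weight of the other coordinates -/
private noncomputable def hbW (ψ : J → ℕ → ℝ) (x : J → ℕ) (l l' : J) : ℝ :=
  ∏ j, if j = l ∨ j = l' then 1 else ψ j (x j)

private theorem wt_hbp (ψ : J → ℕ → ℝ) (x : J → ℕ) {l l' : J} (hl : l ≠ l') (i q : ℕ) :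
    wt ψ (hbp x l l' i q) = hbW ψ x l l' * (ψ l i * ψ l' q) := by
  have h1 : ∏ j, (if j = l then ψ l i else 1) = ψ l i := by simp
  have h2 : ∏ j, (if j = l' then ψ l' q else 1) = ψ l' q := by simp
  rw [wt, hbW, ← h1, ← h2, ← Finset.prod_mul_distrib, ← Finset.prod_mul_distrib]
  refine Finset.prod_congr rfl fun j _ => ?_
  by_cases hj : j = l
  · subst hj
    rw [hbp_left x hl]
    simp [hl]
  · by_cases hj' : j = l'
    · subst hj'
      rw [hbp_right]
      simp [hl.symm]
    · rw [hbp_other x hj hj']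
      simp [hj, hj']

private theorem hbW_pos {ψ : J → ℕ → ℝ} {s : J → ℕ} (h : LCW ψ s) {r : ℕ} {x : J → ℕ}
    (hx : x ∈ lev s r) (l l' : J) : 0 < hbW ψ x l l' := by
  refine Finset.prod_pos fun j _ => ?_
  split_ifs
  · exact one_pos
  · exact h.pos j _ ((mem_lev.1 hx).1 j)

private theorem sum_hbp (x : J → ℕ) {l l' : J} (hl : l ≠ l') (i q : ℕ) :
    ∑ j, hbp x l l' i q j + (x l + x l') = ∑ j, x j + (i + q) := by
  have h1 : ∑ j, (if j = l then x l else 0) = x l := by simp
  have h2 : ∑ j, (if j = l' then x l' else 0) = x l' := by simp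
  have h3 : ∑ j, (if j = l then i else 0) = i := by simp
  have h4 : ∑ j, (if j = l' then q else 0) = q := by simp
  rw [← h1, ← h2, ← h3, ← h4]
  simp only [← Finset.sum_add_distrib]
  refine Finset.sum_congr rfl fun j _ => ?_
  by_cases hj : j = l
  · subst hj
    rw [hbp_left x hl]
    simp [hl]
    omega
  · by_cases hj' : j = l'
    · subst hj'
      rw [hbp_right]
      simp [hl.symm]
      omega
    · rw [hbp_other x hj hj']
      simp [hj, hj']

/-- membership of the replaced vector -/
private theorem hbp_mem {s : J → ℕ} {r : ℕ} {x : J → ℕ} (hx : x ∈ lev s r) {l l' : J} (hl : l ≠ l')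
    {i q : ℕ} (hi : i ≤ s l) (hq : q ≤ s l') (hs : i + q = x l + x l') :
    hbp x l l' i q ∈ lev s r := by
  rw [mem_lev] at hx ⊢
  refine ⟨fun j => ?_, ?_⟩
  · by_cases hj : j = l
    · subst hj
      rw [hbp_left x hl]
      exact hi
    · by_cases hj' : j = l'
      · subst hj'
        rw [hbp_right]
        exact hq
      · rw [hbp_other x hj hj']
        exact hx.1 j
  · have := sum_hbp x hl i q
    omega

private theorem pi2_hbp (x : J → ℕ) {l l' : J} (i q : ℕ) :
    pi2 l l' (hbp x l l' i q) = pi2 l l' x := by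
  funext j
  simp only [pi2]
  by_cases hj : j = l ∨ j = l'
  · rw [if_pos hj, if_pos hj]
  · rw [if_neg hj, if_neg hj]
    push Not at hj
    exact hbp_other x hj.1 hj.2 i q

/-- a member of the class of `x` is a replaced vector -/
private theorem class_hbp {s : J → ℕ} {r : ℕ} {x Y : J → ℕ} (hx : x ∈ lev s r) (hY : Y ∈ lev s r)
    {l l' : J} (hl : l ≠ l') (hp : pi2 l l' Y = pi2 l l' x) :
    Y l + Y l' = x l + x l' ∧ hbp x l l' (Y l) (Y l') = Y := by
  have hother : ∀ j, j ≠ l → j ≠ l' → Y j = x j := by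
    intro j h1 h2
    have := congrFun hp j
    simp only [pi2, h1, h2, or_self, if_false] at this
    exact this
  have heq : hbp x l l' (Y l) (Y l') = Y := by
    funext j
    by_cases hj : j = l
    · subst hj
      rw [hbp_left x hl]
    · by_cases hj' : j = l'
      · subst hj'
        rw [hbp_right]
      · rw [hbp_other x hj hj']
        exact (hother j hj hj').symm
  refine ⟨?_, heq⟩
  have h1 := sum_hbp x hl (Y l) (Y l')
  rw [heq, (mem_lev.1 hY).2, (mem_lev.1 hx).2] at h1
  omega

private theorem class_sum (ψ : J → ℕ → ℝ) {s : J → ℕ} {r : ℕ} {x : J → ℕ} (hx : x ∈ lev s r)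
    {l l' : J} (hl : l ≠ l') (F : (J → ℕ) → ℝ) :
    ∑ Y ∈ (lev s r).filter (fun Y => pi2 l l' Y = pi2 l l' x), wt ψ Y * F Y =
      hbW ψ x l l' * ∑ i ∈ range (x l + x l' + 1),
        trc (s l) (ψ l) i * trc (s l') (ψ l') (x l + x l' - i) *
          F (hbp x l l' i (x l + x l' - i)) := by
  have h1 : ∑ i ∈ range (x l + x l' + 1),
        trc (s l) (ψ l) i * trc (s l') (ψ l') (x l + x l' - i) *
          F (hbp x l l' i (x l + x l' - i)) =
      ∑ i ∈ (range (x l + x l' + 1)).filter (fun i => i ≤ s l ∧ x l + x l' - i ≤ s l'),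
        ψ l i * ψ l' (x l + x l' - i) * F (hbp x l l' i (x l + x l' - i)) := by
    rw [Finset.sum_filter]
    refine Finset.sum_congr rfl fun i _ => ?_
    by_cases h1 : i ≤ s l
    · by_cases h2 : x l + x l' - i ≤ s l'
      · simp only [trc, if_pos h1, if_pos h2, if_pos (And.intro h1 h2)]
      · simp only [trc, if_neg h2, mul_zero, zero_mul]
        rw [if_neg fun h => h2 h.2]
    · simp only [trc, if_neg h1, zero_mul]
      rw [if_neg fun h => h1 h.1]
  rw [h1, Finset.mul_sum]
  symm
  refine Finset.sum_nbij' (fun i => hbp x l l' i (x l + x l' - i)) (fun Y => Y l) ?_ ?_ ?_ ?_ ?_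
  · intro i hi
    rw [Finset.mem_filter, Finset.mem_range] at hi
    rw [Finset.mem_filter]
    exact ⟨hbp_mem hx hl hi.2.1 hi.2.2 (by omega), pi2_hbp x _ _⟩
  · intro Y hY
    rw [Finset.mem_filter] at hY
    obtain ⟨hY1, hY2⟩ := class_hbp hx hY.1 hl hY.2
    have hb1 := (mem_lev.1 hY.1).1 l
    have hb2 := (mem_lev.1 hY.1).1 l'
    rw [Finset.mem_filter, Finset.mem_range]
    refine ⟨by omega, hb1, by omega⟩
  · intro i _
    exact hbp_left x hl _ _
  · intro Y hY
    rw [Finset.mem_filter] at hY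
    obtain ⟨hY1, hY2⟩ := class_hbp hx hY.1 hl hY.2
    have : x l + x l' - Y l = Y l' := by omega
    rw [this, hY2]
  · intro i _
    rw [wt_hbp ψ x hl]
    ring

/-- the heat bath in coordinates -/
private theorem hb_formula {ψ : J → ℕ → ℝ} {s : J → ℕ} (h : LCW ψ s) {r : ℕ} {x : J → ℕ}
    (hx : x ∈ lev s r) {l l' : J} (hl : l ≠ l') (f : (J → ℕ) → ℝ) :
    hb ψ s r l l' f x = (∑ i ∈ range (x l + x l' + 1),
        trc (s l) (ψ l) i * trc (s l') (ψ l') (x l + x l' - i) *
          f (hbp x l l' i (x l + x l' - i))) /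
      conv (trc (s l) (ψ l)) (trc (s l') (ψ l')) (x l + x l') := by
  have hW := hbW_pos h hx l l'
  have hden : ∑ Y ∈ (lev s r).filter (fun Y => pi2 l l' Y = pi2 l l' x), wt ψ Y =
      hbW ψ x l l' * conv (trc (s l) (ψ l)) (trc (s l') (ψ l')) (x l + x l') := by
    have := class_sum ψ hx hl (fun _ => (1 : ℝ))
    simp only [mul_one] at this
    rw [this]
    rfl
  rw [hb, cexp, class_sum ψ hx hl f, hden, mul_div_mul_left _ _ hW.ne']

private theorem conv_pos' {ψ : J → ℕ → ℝ} {s : J → ℕ} (h : LCW ψ s) (l l' : J) {p : ℕ}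
    (hp : p ≤ s l + s l') : 0 < conv (trc (s l) (ψ l)) (trc (s l') (ψ l')) p :=
  ((h.trc l).conv (h.trc l')).pos p hp

/-- difference of two weighted sums -/
private theorem avg_diff {ι : Type} (S : Finset ι) (c F G : ι → ℝ) {C : ℝ}
    (hc : ∀ i ∈ S, 0 ≤ c i) (hFG : ∀ i ∈ S, c i ≠ 0 → |F i - G i| ≤ C) :
    |∑ i ∈ S, c i * (F i - G i)| ≤ C * ∑ i ∈ S, c i := by
  refine (Finset.abs_sum_le_sum_abs _ _).trans ?_
  rw [Finset.mul_sum]
  refine Finset.sum_le_sum fun i hi => ?_
  rw [abs_mul, abs_of_nonneg (hc i hi)]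
  by_cases h0 : c i = 0
  · rw [h0]
    simp
  · rw [mul_comm C]
    exact mul_le_mul_of_nonneg_left (hFG i hi h0) (hc i hi)

private theorem trc_ne {S i : ℕ} {g : ℕ → ℝ} (h : trc S g i ≠ 0) : i ≤ S := by
  by_contra hc
  exact h (by simp [trc, hc])

/-- the moved vector -/
private theorem move_mem {s : J → ℕ} {r : ℕ} {x : J → ℕ} (hx : x ∈ lev s r) {a b : J}
    (hab : a ≠ b) (ha : x a ≠ 0) (hb' : x b < s b) : x - e a + e b ∈ lev s r := by
  have hr : r ≠ 0 := by
    intro h0
    have h1 := (mem_lev.1 hx).2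
    rw [h0] at h1
    exact ha (Finset.sum_eq_zero_iff.1 h1 a (Finset.mem_univ a))
  obtain ⟨r', rfl⟩ := Nat.exists_eq_succ_of_ne_zero hr
  have h1 : x - e a ∈ lev s r' := sub_e_mem hx ha
  apply add_e_mem h1
  simp only [Pi.sub_apply]
  omega

private theorem move_back {x : J → ℕ} {a b : J} (hab : a ≠ b) (ha : x a ≠ 0) :
    x - e a + e b - e b + e a = x := by
  rw [add_sub_e, sub_add_e ha]

/-- case 1 and 2: equal labels or equal columns -/
private theorem hb_self {ψ : J → ℕ → ℝ} {s : J → ℕ} (h : LCW ψ s) {r : ℕ} {x : J → ℕ}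
    (hx : x ∈ lev s r) (l : J) (f : (J → ℕ) → ℝ) : hb ψ s r l l f x = f x := by
  have hcl : (lev s r).filter (fun Y => pi2 l l Y = pi2 l l x) = {x} := by
    ext Y
    rw [Finset.mem_filter, Finset.mem_singleton]
    constructor
    · rintro ⟨hY, hp⟩
      have hother : ∀ j, j ≠ l → Y j = x j := by
        intro j h1
        have := congrFun hp j
        simp only [pi2, h1, or_self, if_false] at this
        exact this
      have hl : Y l = x l := by
        have h1 := (mem_lev.1 hY).2
        have h2 := (mem_lev.1 hx).2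
        rw [← Finset.add_sum_erase _ _ (Finset.mem_univ l)] at h1 h2
        have h3 : ∑ j ∈ Finset.univ.erase l, Y j = ∑ j ∈ Finset.univ.erase l, x j :=
          Finset.sum_congr rfl fun j hj => hother j (Finset.ne_of_mem_erase hj)
        omega
      funext j
      by_cases hj : j = l
      · subst hj
        exact hl
      · exact hother j hj
    · rintro rfl
      exact ⟨hx, rfl⟩
  have hw : wt ψ x ≠ 0 :=
    (Finset.prod_pos fun j _ => h.pos j _ ((mem_lev.1 hx).1 j)).ne'
  rw [hb, cexp, hcl, Finset.sum_singleton, Finset.sum_singleton, mul_div_cancel_left₀ _ hw]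

private theorem hb_label {ψ : J → ℕ → ℝ} {s : J → ℕ} {r : ℕ} {l l' : J} {x y : J → ℕ}
    (hxy : pi2 l l' x = pi2 l l' y) (f : (J → ℕ) → ℝ) :
    hb ψ s r l l' f x = hb ψ s r l l' f y := by
  rw [hb, cexp, cexp, hxy]

/-- case 3: the pair is disjoint from the move -/
private theorem hb_disj {ψ : J → ℕ → ℝ} {s : J → ℕ} (h : LCW ψ s) {r : ℕ} {C : ℝ}
    {f : (J → ℕ) → ℝ} (hf : Lip s r C f) {l l' : J} (hl : l ≠ l') {x : J → ℕ} (hx : x ∈ lev s r)
    {a b : J} (hab : a ≠ b) (ha : x a ≠ 0) (hb' : x b < s b)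
    (hal : a ≠ l) (hal' : a ≠ l') (hbl : b ≠ l) (hbl' : b ≠ l') :
    |hb ψ s r l l' f x - hb ψ s r l l' f (x - e a + e b)| ≤ C := by
  have hy := move_mem hx hab ha hb'
  have hyl : (x - e a + e b) l = x l := by
    simp [Pi.add_apply, Pi.sub_apply, e_ne hal.symm, e_ne hbl.symm]
  have hyl' : (x - e a + e b) l' = x l' := by
    simp [Pi.add_apply, Pi.sub_apply, e_ne hal'.symm, e_ne hbl'.symm]
  have hps : x l + x l' ≤ s l + s l' :=
    add_le_add ((mem_lev.1 hx).1 l) ((mem_lev.1 hx).1 l')
  have hK := conv_pos' h l l' hps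
  rw [hb_formula h hx hl, hb_formula h hy hl, hyl, hyl', ← sub_div, abs_div, abs_of_pos hK,
    div_le_iff₀ hK, ← Finset.sum_sub_distrib]
  simp only [← mul_sub]
  refine avg_diff (range (x l + x l' + 1))
    (fun i => trc (s l) (ψ l) i * trc (s l') (ψ l') (x l + x l' - i))
    (fun i => f (hbp x l l' i (x l + x l' - i)))
    (fun i => f (hbp (x - e a + e b) l l' i (x l + x l' - i))) ?_ ?_
  · intro i _
    exact mul_nonneg ((h.trc l).nonneg _) ((h.trc l').nonneg _)
  · intro i hi hne
    rw [Finset.mem_range] at hi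
    have h1 : i ≤ s l := trc_ne (left_ne_zero_of_mul hne)
    have h2 : x l + x l' - i ≤ s l' := trc_ne (right_ne_zero_of_mul hne)
    have hm := hbp_mem hx hl h1 h2 (by omega)
    have he : hbp (x - e a + e b) l l' i (x l + x l' - i) =
        hbp x l l' i (x l + x l' - i) - e a + e b := by
      funext j
      simp only [Pi.add_apply, Pi.sub_apply]
      by_cases hj : j = l
      · subst hj
        rw [hbp_left _ hl, hbp_left _ hl, e_ne hal.symm, e_ne hbl.symm]
        rfl
      · by_cases hj' : j = l'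
        · subst hj'
          rw [hbp_right, hbp_right, e_ne hal'.symm, e_ne hbl'.symm]
          rfl
        · rw [hbp_other _ hj hj', hbp_other _ hj hj']
          rfl
    change |f _ - f _| ≤ C
    rw [he]
    refine hf _ hm a b hab ?_ ?_
    · rw [hbp_other _ hal hal']
      exact ha
    · rw [hbp_other _ hbl hbl']
      exact hb'

/-- case 4: the unit leaves the pair -/
private theorem hb_leave {ψ : J → ℕ → ℝ} {s : J → ℕ} (h : LCW ψ s) {r : ℕ} {C : ℝ}
    {f : (J → ℕ) → ℝ} (hf : Lip s r C f) {l l' : J} (hl : l ≠ l') {x : J → ℕ} (hx : x ∈ lev s r)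
    {a b : J} (hab : a ≠ b) (ha : x a ≠ 0) (hb' : x b < s b)
    (hal : a = l ∨ a = l') (hbl : b ≠ l) (hbl' : b ≠ l') :
    |hb ψ s r l l' f x - hb ψ s r l l' f (x - e a + e b)| ≤ C := by
  have hy := move_mem hx hab ha hb'
  set y : J → ℕ := x - e a + e b with hydef
  have hyo : ∀ j, y j = x j - e a j + e b j := fun j => rfl
  -- the pair sums
  have hysum : y l + y l' + 1 = x l + x l' := by
    rw [hyo, hyo, e_ne hbl.symm, e_ne hbl'.symm]
    rcases hal with rfl | rfl
    · rw [e_same, e_ne hl.symm]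
      omega
    · rw [e_same, e_ne hl]
      omega
  set σ : ℕ := y l + y l' with hσ
  have hps : σ + 1 ≤ s l + s l' := by
    rw [hysum]
    exact add_le_add ((mem_lev.1 hx).1 l) ((mem_lev.1 hx).1 l')
  set fl := trc (s l) (ψ l) with hfl
  set fr := trc (s l') (ψ l') with hfr
  have hLCl : LC fl (s l) := h.trc l
  have hLCr : LC fr (s l') := h.trc l'
  have hK1 : 0 < conv fl fr (σ + 1) := (hLCl.conv hLCr).pos _ hps
  have hK0 : 0 < conv fl fr σ := (hLCl.conv hLCr).pos _ (by omega)
  obtain ⟨τ, hτ0, hτ1, hτz, hτt, hτ⟩ := two_factor hLCl hLCr hps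
  have hxf := hb_formula h hx hl f
  rw [← hysum] at hxf
  have hyf := hb_formula h hy hl f
  rw [← hσ] at hyf
  -- abbreviations
  set X : ℕ → ℝ := fun i => f (hbp x l l' i (σ + 1 - i)) with hX
  set Y : ℕ → ℝ := fun i => f (hbp y l l' i (σ - i)) with hY
  set B : ℕ → ℝ := fun i => fl i * fr (σ + 1 - i) with hB
  have hB0 : ∀ i, 0 ≤ B i := fun i => mul_nonneg (hLCl.nonneg _) (hLCr.nonneg _)
  have hxf' : hb ψ s r l l' f x = (∑ i ∈ range (σ + 2), B i * X i) / conv fl fr (σ + 1) := hxf
  have hyf' : hb ψ s r l l' f y =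
      (∑ i ∈ range (σ + 1), ((1 - τ i) * B i + τ (i + 1) * B (i + 1)) * Y i) /
        conv fl fr (σ + 1) := by
    rw [hyf, div_eq_div_iff hK0.ne' hK1.ne', Finset.sum_mul, Finset.sum_mul]
    refine Finset.sum_congr rfl fun i hi => ?_
    rw [Finset.mem_range] at hi
    have h1 := hτ i (by omega)
    have h2 : B (i + 1) = fl (i + 1) * fr (σ - i) := by
      simp only [hB]
      congr 2
      omega
    rw [h2]
    simp only [hB, hY]
    have h3 : fl i * fr (σ - i) * f (hbp y l l' i (σ - i)) * conv fl fr (σ + 1) =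
        (fl i * fr (σ - i) * conv fl fr (σ + 1)) * f (hbp y l l' i (σ - i)) := by ring
    rw [h3, h1]
    ring
  -- split the first sum
  have hsplit : ∀ F : ℕ → ℝ, ∑ i ∈ range (σ + 2), B i * F i =
      ∑ i ∈ range (σ + 1), ((1 - τ i) * B i * F i + τ (i + 1) * B (i + 1) * F (i + 1)) := by
    intro F
    have h1 : ∑ i ∈ range (σ + 2), B i * F i =
        ∑ i ∈ range (σ + 2), (1 - τ i) * B i * F i + ∑ i ∈ range (σ + 2), τ i * B i * F i := by
      rw [← Finset.sum_add_distrib]
      refine Finset.sum_congr rfl fun i _ => ?_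
      ring
    rw [h1, Finset.sum_range_succ (fun i => (1 - τ i) * B i * F i),
      Finset.sum_range_succ' (fun i => τ i * B i * F i), hτz, Finset.sum_add_distrib]
    have h2 : (1 - τ (σ + 1)) * B (σ + 1) = 0 := by
      simp only [hB]
      rw [← mul_assoc, hτt, zero_mul]
    rw [h2]
    ring
  have hconv : ∑ i ∈ range (σ + 1), ((1 - τ i) * B i + τ (i + 1) * B (i + 1)) =
      conv fl fr (σ + 1) := by
    have h1 := hsplit (fun _ => 1)
    simp only [mul_one] at h1
    rw [← h1]
    rfl
  -- the differences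
  have hd1 : ∀ i ∈ range (σ + 1), (1 - τ i) * B i ≠ 0 → |X i - Y i| ≤ C := by
    intro i hi hne
    rw [Finset.mem_range] at hi
    have hBne := right_ne_zero_of_mul hne
    have h1 : i ≤ s l := trc_ne (left_ne_zero_of_mul hBne)
    have h2 : σ + 1 - i ≤ s l' := trc_ne (right_ne_zero_of_mul hBne)
    have hm := hbp_mem hx hl h1 h2 (by omega)
    have he : hbp y l l' i (σ - i) = hbp x l l' i (σ + 1 - i) - e l' + e b := by
      funext j
      simp only [Pi.add_apply, Pi.sub_apply]
      by_cases hj : j = l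
      · subst hj
        rw [hbp_left _ hl, hbp_left _ hl, e_ne hl, e_ne hbl.symm]
        rfl
      · by_cases hj' : j = l'
        · subst hj'
          rw [hbp_right, hbp_right, e_same, e_ne hbl'.symm]
          omega
        · rw [hbp_other _ hj hj', hbp_other _ hj hj', hyo, e_ne hj']
          have : e a j = 0 := by
            rcases hal with rfl | rfl
            · exact e_ne hj
            · exact e_ne hj'
          rw [this]
    simp only [hX, hY]
    rw [he]
    refine hf _ hm l' b hbl'.symm ?_ ?_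
    · rw [hbp_right]
      omega
    · rw [hbp_other _ hbl hbl']
      exact hb'
  have hd2 : ∀ i ∈ range (σ + 1), τ (i + 1) * B (i + 1) ≠ 0 → |X (i + 1) - Y i| ≤ C := by
    intro i hi hne
    rw [Finset.mem_range] at hi
    have hBne := right_ne_zero_of_mul hne
    have h1 : i + 1 ≤ s l := trc_ne (left_ne_zero_of_mul hBne)
    have h2 : σ + 1 - (i + 1) ≤ s l' := trc_ne (right_ne_zero_of_mul hBne)
    have hm := hbp_mem hx hl h1 h2 (by omega)
    have he : hbp y l l' i (σ - i) = hbp x l l' (i + 1) (σ + 1 - (i + 1)) - e l + e b := by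
      funext j
      simp only [Pi.add_apply, Pi.sub_apply]
      by_cases hj : j = l
      · subst hj
        rw [hbp_left _ hl, hbp_left _ hl, e_same, e_ne hbl.symm]
        omega
      · by_cases hj' : j = l'
        · subst hj'
          rw [hbp_right, hbp_right, e_ne hl.symm, e_ne hbl'.symm]
          omega
        · rw [hbp_other _ hj hj', hbp_other _ hj hj', hyo, e_ne hj]
          have : e a j = 0 := by
            rcases hal with rfl | rfl
            · exact e_ne hj
            · exact e_ne hj'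
          rw [this]
    simp only [hX, hY]
    rw [he]
    refine hf _ hm l b hbl.symm ?_ ?_
    · rw [hbp_left _ hl]
      omega
    · rw [hbp_other _ hbl hbl']
      exact hb'
  have hdiff : ∑ i ∈ range (σ + 2), B i * X i -
      ∑ i ∈ range (σ + 1), ((1 - τ i) * B i + τ (i + 1) * B (i + 1)) * Y i =
      ∑ i ∈ range (σ + 1), (1 - τ i) * B i * (X i - Y i) +
        ∑ i ∈ range (σ + 1), τ (i + 1) * B (i + 1) * (X (i + 1) - Y i) := by
    rw [hsplit X, ← Finset.sum_sub_distrib, ← Finset.sum_add_distrib]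
    refine Finset.sum_congr rfl fun i _ => ?_
    ring
  rw [hxf', hyf', ← sub_div, abs_div, abs_of_pos hK1, div_le_iff₀ hK1, hdiff]
  refine (abs_add_le _ _).trans ?_
  have e1 := avg_diff (range (σ + 1)) (fun i => (1 - τ i) * B i) X Y
    (fun i _ => mul_nonneg (by linarith [hτ1 i]) (hB0 i)) hd1
  have e2 := avg_diff (range (σ + 1)) (fun i => τ (i + 1) * B (i + 1)) (fun i => X (i + 1)) Y
    (fun i _ => mul_nonneg (hτ0 _) (hB0 _)) hd2
  calc |∑ i ∈ range (σ + 1), (1 - τ i) * B i * (X i - Y i)| +
        |∑ i ∈ range (σ + 1), τ (i + 1) * B (i + 1) * (X (i + 1) - Y i)|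
      ≤ C * ∑ i ∈ range (σ + 1), (1 - τ i) * B i +
        C * ∑ i ∈ range (σ + 1), τ (i + 1) * B (i + 1) := add_le_add e1 e2
    _ = C * ∑ i ∈ range (σ + 1), ((1 - τ i) * B i + τ (i + 1) * B (i + 1)) := by
        rw [Finset.sum_add_distrib]
        ring
    _ = C * conv fl fr (σ + 1) := by rw [hconv]

/-- One pair, one move `y = x - e_a + e_b`.
Proof.  Write `f` near `x` in the coordinates `l, l'`: for `l ≠ l'` and `p = x l + x l'`, the class
of `x` is `{x^{(i,p-i)} : i ≤ s l, p - i ≤ s l'}` with weights proportional to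
`ψ l i * ψ l' (p - i)`, i.e. `f_l i * f_{l'} (p - i)`, total `conv f_l f_{l'} p`, where
`f_l = trc (s l) (ψ l)` (log-concave: `LCW.trc`).
(1) `{l,l'} = {a,b}`: `x` and `y` have the same class, difference `0`.
(2) `l = l'`: the class of `x` is `{x}` (sum fixed), difference at most `C`.
(3) `{l,l'}` disjoint from `{a,b}`: same law for `i`, and `x^{(i,p-i)}`, `y^{(i,p-i)}` are
neighbours; difference at most `C`.
(4) exactly one of `a`, `b` belongs to `{l,l'}`: the pair sums of `x` and `y` are `σ+1` and `σ` (or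
`σ` and `σ + 1`), and `two_factor` gives a coupling of the two laws of `i` in which the configuration
with sum `σ` is obtained from the one with sum `σ + 1` by removing one unit from `l` or `l'`; the
two resulting vectors are neighbours, so the difference is at most `C`. -/
theorem hb_lip {ψ : J → ℕ → ℝ} {s : J → ℕ} (h : LCW ψ s) {r : ℕ} {C : ℝ} (hC : 0 ≤ C)
    {f : (J → ℕ) → ℝ} (hf : Lip s r C f) (l l' : J) {x : J → ℕ} (hx : x ∈ lev s r) {a b : J}
    (hab : a ≠ b) (ha : x a ≠ 0) (hb' : x b < s b) :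
    |hb ψ s r l l' f x - hb ψ s r l l' f (x - e a + e b)| ≤ C := by
  have hy := move_mem hx hab ha hb'
  by_cases hl : l = l'
  · subst hl
    rw [hb_self h hx, hb_self h hy]
    exact hf x hx a b hab ha hb'
  · by_cases h1 : a = l ∨ a = l'
    · by_cases h2 : b = l ∨ b = l'
      · have hlab : pi2 l l' x = pi2 l l' (x - e a + e b) := by
          funext j
          simp only [pi2, Pi.add_apply, Pi.sub_apply]
          by_cases hj : j = l ∨ j = l'
          · rw [if_pos hj, if_pos hj]
          · rw [if_neg hj, if_neg hj]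
            push Not at hj
            have h3 : e a j = 0 := by
              rcases h1 with rfl | rfl
              · exact e_ne hj.1
              · exact e_ne hj.2
            have h4 : e b j = 0 := by
              rcases h2 with rfl | rfl
              · exact e_ne hj.1
              · exact e_ne hj.2
            rw [h3, h4]
            rfl
        rw [hb_label hlab, sub_self, abs_zero]
        exact hC
      · push Not at h2
        exact hb_leave h hf hl hx hab ha hb' h1 h2.1 h2.2
    · by_cases h2 : b = l ∨ b = l'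
      · push Not at h1
        rw [abs_sub_comm]
        have hyb : (x - e a + e b) b ≠ 0 := by
          simp only [Pi.add_apply, e_same]
          omega
        have hya : (x - e a + e b) a < s a := by
          have := (mem_lev.1 hx).1 a
          simp only [Pi.add_apply, Pi.sub_apply, e_same, e_ne hab]
          omega
        have h3 := hb_leave h hf hl hy hab.symm hyb hya h2 h1.1 h1.2
        rw [move_back hab ha] at h3
        exact h3
      · push Not at h1 h2
        exact hb_disj h hf hl hx hab ha hb' h1.1 h1.2 h2.1 h2.2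

end Vale.Agent.Lib.P328
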