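import Vale.Agent.Lib.P328.HHSliceDiff

/-!
P328, module HHColumn: one dimensional Hardy inequality along one column of a two row fibre.
-/

namespace Vale.Agent.Lib.P328.HH

open Finset

variable {J : Type} [Fintype J] [DecidableEq J]

/-! ### sums over slices -/

theorem RR_slice (s T T' : J → ℕ) (b : J) (ρ : ℕ) (u : (J → ℕ) → ℝ) :
    RR s T T' b ρ u = ∑ i ∈ range (min (s b) ρ + 1), psi s T T' b i * Gam (T b) (s b - i) *
      (Zb s T T' b (ρ - i) * AA s T T' b ρ u i ^ 2) := by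
  unfold RR
  rw [sum_slice s b]
  apply Finset.sum_congr rfl
  intro i _
  rw [AA_sq, Finset.mul_sum]
  apply Finset.sum_congr rfl
  intro v _
  rw [wt_slice, Function.update_self]
  ring

theorem VV_slice (s T T' : J → ℕ) (b : J) (ρ : ℕ) (u : (J → ℕ) → ℝ) :
    VV s T T' b ρ u = ∑ i ∈ range (min (s b) ρ + 1), psi s T T' b i * Gam (T' b) i *
      (Zb s T T' b (ρ - i) * AA s T T' b ρ u i ^ 2) := by
  unfold VV
  rw [sum_slice s b]
  apply Finset.sum_congr rfl
  intro i _
  rw [AA_sq, Finset.mul_sum]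
  apply Finset.sum_congr rfl
  intro v _
  rw [wt_slice, Function.update_self]
  ring

theorem MM_slice (s T T' : J → ℕ) (b : J) (ρ : ℕ) (u : (J → ℕ) → ℝ) :
    MM s T T' ρ u = ∑ i ∈ range (min (s b) ρ + 1), psi s T T' b i *
      (Zb s T T' b (ρ - i) * AA s T T' b ρ u i ^ 2) := by
  unfold MM
  rw [sum_slice s b]
  apply Finset.sum_congr rfl
  intro i _
  rw [AA_sq, Finset.mul_sum]
  apply Finset.sum_congr rfl
  intro v _
  rw [wt_slice]
  ring

theorem ZA_nonneg (s T T' : J → ℕ) (b : J) (ρ : ℕ) (u : (J → ℕ) → ℝ) (i : ℕ) :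
    0 ≤ Zb s T T' b (ρ - i) * AA s T T' b ρ u i ^ 2 :=
  mul_nonneg (Zb_nonneg _ _ _ _ _) (sq_nonneg _)

theorem EE_nonneg (s T T' : J → ℕ) (ρ : ℕ) (u t : (J → ℕ) → ℝ) : 0 ≤ EE s T T' ρ u t := by
  apply Finset.sum_nonneg
  intro y _
  apply mul_nonneg (wt_psi_pos _ _ _ _).le
  apply Finset.sum_nonneg
  intro a _
  split_ifs
  · exact le_rfl
  · exact sq_nonneg _

theorem VV_nonneg (s T T' : J → ℕ) (b : J) (ρ : ℕ) (u : (J → ℕ) → ℝ) :
    0 ≤ VV s T T' b ρ u :=
  Finset.sum_nonneg fun w _ =>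
    mul_nonneg (mul_nonneg (wt_psi_pos _ _ _ _).le (Gam_nonneg _ _)) (sq_nonneg _)

theorem MM_nonneg (s T T' : J → ℕ) (ρ : ℕ) (u : (J → ℕ) → ℝ) :
    0 ≤ MM s T T' ρ u :=
  Finset.sum_nonneg fun w _ => mul_nonneg (wt_psi_pos _ _ _ _).le (sq_nonneg _)

/-! ### path from slice `i` to slice `j` -/

/-- Cauchy-Schwarz along a path -/
theorem path_cs (A ψ : ℕ → ℝ) (hψ : ∀ k, 0 < ψ k) (j i : ℕ) (hji : j ≤ i) :
    (A i - A j) ^ 2 ≤ (∑ k ∈ Finset.Ico j i, 1 / ψ (k + 1)) *
      ∑ k ∈ Finset.Ico j i, ψ (k + 1) * (A k - A (k + 1)) ^ 2 := by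
  have h1 : A j - A i = ∑ k ∈ Finset.Ico j i, (A k - A (k + 1)) := by
    rw [Finset.sum_Ico_eq_sum_range]
    have := Finset.sum_range_sub' (fun n => A (j + n)) (i - j)
    simp only [add_zero] at this
    have e : j + (i - j) = i := by omega
    rw [e] at this
    rw [← this]
    rfl
  have h2 : (A i - A j) ^ 2 = (∑ k ∈ Finset.Ico j i, (A k - A (k + 1))) ^ 2 := by
    rw [← h1]
    ring
  rw [h2]
  apply Finset.sum_sq_le_sum_mul_sum_of_sq_le_mul
  · intro k _
    exact (one_div_pos.2 (hψ _)).le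
  · intro k _
    exact mul_nonneg (hψ _).le (sq_nonneg _)
  · intro k _
    have := (hψ (k + 1)).ne'
    apply le_of_eq
    field_simp

theorem sum_ESl_le (s T T' : J → ℕ) (b : J) (ρ : ℕ) (u t : (J → ℕ) → ℝ) (j i : ℕ)
    (hi : i ≤ min (s b) ρ) :
    ∑ k ∈ Finset.Ico j i, ESl s T T' b ρ u t (k + 1) ≤ EE s T T' ρ u t := by
  rw [EE_slice s T T' b ρ u t]
  have h1 : ∑ k ∈ Finset.Ico j i, ESl s T T' b ρ u t (k + 1) =
      ∑ k ∈ (Finset.Ico j i).image (fun k => k + 1), ESl s T T' b ρ u t k := by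
    rw [Finset.sum_image]
    intro x _ y _ h
    exact Nat.succ_injective h
  rw [h1]
  apply Finset.sum_le_sum_of_subset_of_nonneg
  · intro x hx
    rw [Finset.mem_image] at hx
    obtain ⟨k, hk, rfl⟩ := hx
    rw [Finset.mem_Ico] at hk
    rw [Finset.mem_range]
    omega
  · intro k _ _
    exact ESl_nonneg _ _ _ _ _ _ _ _

theorem path_AA (s T T' : J → ℕ) (b : J) (ρ : ℕ) (u t : (J → ℕ) → ℝ) {j i : ℕ} (hji : j ≤ i)
    (hi : i ≤ min (s b) ρ) {γ : ℝ} (hγ : 0 ≤ γ)
    (hZ : ∀ k, j ≤ k → k < i → Zb s T T' b (ρ - i) ≤ γ * Zb s T T' b (ρ - k)) :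
    Zb s T T' b (ρ - i) * (AA s T T' b ρ u i - AA s T T' b ρ u j) ^ 2 ≤
      γ * (∑ k ∈ Finset.Ico j i, 1 / psi s T T' b (k + 1)) * (2 * EE s T T' ρ u t) := by
  have hψ : ∀ k, 0 < psi s T T' b k := fun k => psi_pos s T T' b k
  have hs0 : 0 ≤ ∑ k ∈ Finset.Ico j i, 1 / psi s T T' b (k + 1) :=
    Finset.sum_nonneg fun k _ => (one_div_pos.2 (hψ _)).le
  have hE := EE_nonneg s T T' ρ u t
  rcases (Zb_nonneg s T T' b (ρ - i)).eq_or_lt with h0 | hpos
  · rw [← h0, zero_mul]
    positivity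
  · have h1 := path_cs (AA s T T' b ρ u) (psi s T T' b) hψ j i hji
    have h2 : ∑ k ∈ Finset.Ico j i, Zb s T T' b (ρ - i) *
        (psi s T T' b (k + 1) * (AA s T T' b ρ u k - AA s T T' b ρ u (k + 1)) ^ 2) ≤
        ∑ k ∈ Finset.Ico j i, γ * (2 * ESl s T T' b ρ u t (k + 1)) := by
      apply Finset.sum_le_sum
      intro k hk
      rw [Finset.mem_Ico] at hk
      have hZk := hZ k hk.1 hk.2
      have hZkpos : 0 < Zb s T T' b (ρ - k) := by
        by_contra hcon
        have : Zb s T T' b (ρ - k) = 0 := le_antisymm (not_lt.1 hcon) (Zb_nonneg _ _ _ _ _)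
        rw [this, mul_zero] at hZk
        linarith
      have hne : ρ - k ≤ ∑ l, sB s b l := by
        by_contra hcon
        rw [Zb_eq_zero (not_le.1 hcon)] at hZkpos
        exact lt_irrefl _ hZkpos
      have h3 := slice_diff s T T' b ρ u t (i := k) (by omega) hne
      have hsq : 0 ≤ psi s T T' b (k + 1) *
          (AA s T T' b ρ u k - AA s T T' b ρ u (k + 1)) ^ 2 :=
        mul_nonneg (hψ _).le (sq_nonneg _)
      calc Zb s T T' b (ρ - i) *
          (psi s T T' b (k + 1) * (AA s T T' b ρ u k - AA s T T' b ρ u (k + 1)) ^ 2)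
          ≤ (γ * Zb s T T' b (ρ - k)) *
          (psi s T T' b (k + 1) * (AA s T T' b ρ u k - AA s T T' b ρ u (k + 1)) ^ 2) :=
            mul_le_mul_of_nonneg_right hZk hsq
        _ = γ * (psi s T T' b (k + 1) * (Zb s T T' b (ρ - k) *
          (AA s T T' b ρ u k - AA s T T' b ρ u (k + 1)) ^ 2)) := by ring
        _ ≤ γ * (2 * ESl s T T' b ρ u t (k + 1)) := mul_le_mul_of_nonneg_left h3 hγ
    rw [← Finset.mul_sum, ← Finset.mul_sum, ← Finset.mul_sum] at h2
    have h4 := sum_ESl_le s T T' b ρ u t j i hi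
    have h5 : γ * (2 * ∑ k ∈ Finset.Ico j i, ESl s T T' b ρ u t (k + 1)) ≤
        γ * (2 * EE s T T' ρ u t) := by
      apply mul_le_mul_of_nonneg_left _ hγ
      linarith
    calc Zb s T T' b (ρ - i) * (AA s T T' b ρ u i - AA s T T' b ρ u j) ^ 2
        ≤ Zb s T T' b (ρ - i) * ((∑ k ∈ Finset.Ico j i, 1 / psi s T T' b (k + 1)) *
          ∑ k ∈ Finset.Ico j i, psi s T T' b (k + 1) *
            (AA s T T' b ρ u k - AA s T T' b ρ u (k + 1)) ^ 2) :=
          mul_le_mul_of_nonneg_left h1 hpos.le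
      _ = (∑ k ∈ Finset.Ico j i, 1 / psi s T T' b (k + 1)) * (Zb s T T' b (ρ - i) *
          ∑ k ∈ Finset.Ico j i, psi s T T' b (k + 1) *
            (AA s T T' b ρ u k - AA s T T' b ρ u (k + 1)) ^ 2) := by ring
      _ ≤ (∑ k ∈ Finset.Ico j i, 1 / psi s T T' b (k + 1)) * (γ * (2 * EE s T T' ρ u t)) :=
          mul_le_mul_of_nonneg_left (h2.trans h5) hs0
      _ = _ := by ring

/-! ### comparison of slice masses -/

/-- a symmetric log-concave sequence is unimodal about the centre -/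
theorem symm_unimodal {f : ℕ → ℝ} {S : ℕ} (h : LC f S) (hs : ∀ j ≤ S, f (S - j) = f j)
    {x y : ℕ} (hxy : x ≤ y) (hS : x + y ≤ S) : f x ≤ f y := by
  have h1 := h.tp (i := x) (k := S - y) (d := y - x) (by omega)
  have e1 : S - y + (y - x) = S - x := by omega
  have e2 : x + (y - x) = y := by omega
  rw [e1, e2, hs x (by omega), hs y (by omega)] at h1
  have hx := h.nonneg x
  have hy := h.nonneg y
  nlinarith

theorem psi_symm (s T : J → ℕ) (l : J) {v : ℕ} (hv : v ≤ s l) :
    psi s T T l (s l - v) = psi s T T l v := by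
  unfold psi
  rw [mul_comm]
  congr 2
  omega

/-- reflection of the level weights -/
theorem Zb_symm (s T : J → ℕ) (b : J) {j : ℕ} (hj : j ≤ ∑ l, sB s b l) :
    Zb s T T b (∑ l, sB s b l - j) = Zb s T T b j := by
  unfold Zb ZZ
  refine Finset.sum_bij' (fun v _ => sB s b - v) (fun v _ => sB s b - v) ?_ ?_ ?_ ?_ ?_
  · intro v hv
    rw [mem_lev] at hv ⊢
    refine ⟨fun l => by simp [Pi.sub_apply], ?_⟩
    have h1 : ∑ l, (sB s b - v) l + ∑ l, v l = ∑ l, sB s b l := by
      rw [← Finset.sum_add_distrib]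
      apply Finset.sum_congr rfl
      intro l _
      have := hv.1 l
      simp only [Pi.sub_apply]
      omega
    omega
  · intro v hv
    rw [mem_lev] at hv ⊢
    refine ⟨fun l => by simp [Pi.sub_apply], ?_⟩
    have h1 : ∑ l, (sB s b - v) l + ∑ l, v l = ∑ l, sB s b l := by
      rw [← Finset.sum_add_distrib]
      apply Finset.sum_congr rfl
      intro l _
      have := hv.1 l
      simp only [Pi.sub_apply]
      omega
    omega
  · intro v hv
    rw [mem_lev] at hv
    funext l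
    have := hv.1 l
    simp only [Pi.sub_apply]
    omega
  · intro v hv
    rw [mem_lev] at hv
    funext l
    have := hv.1 l
    simp only [Pi.sub_apply]
    omega
  · intro v hv
    rw [mem_lev] at hv
    unfold wt
    apply Finset.prod_congr rfl
    intro l _
    by_cases hl : l = b
    · subst hl
      simp [psB]
    · have h1 := hv.1 l
      simp only [sB, Function.update_of_ne hl] at h1
      simp only [psB, sB, Function.update_of_ne hl, Pi.sub_apply]
      exact (psi_symm s T l h1).symm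

/-- kind 1: masses on the path -/
theorem Zb_le_one (s T : J → ℕ) (b : J) {ρ i k : ℕ} (h2 : 2 * ρ ≤ ∑ l, s l) (hki : k ≤ i)
    (hi : i ≤ ρ) (hs : s b ≤ k + i) : Zb s T T b (ρ - i) ≤ Zb s T T b (ρ - k) := by
  have hLC : LC (Zb s T T b) (∑ l, sB s b l) := ZZ_LC ((psi_LCW s T T).slice b)
  have hsum := sum_sB s b
  apply symm_unimodal hLC (fun j hj => Zb_symm s T b hj)
  · omega
  · omega

/-- kind 2: a column `l'` of large capacity makes the masses almost increasing -/
theorem Zb_le_two (s T : J → ℕ) (b l' : J) (hb : l' ≠ b) {ρ j j' : ℕ} (hl : 8 * ρ ≤ s l')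
    (hj : j ≤ j') (hj' : j' ≤ ρ) :
    Zb s T (fun _ => 0) b j ≤ 2 * Zb s T (fun _ => 0) b j' := by
  obtain ⟨d, rfl⟩ := Nat.exists_eq_add_of_le hj
  unfold Zb ZZ
  rw [Finset.mul_sum]
  set W : (J → ℕ) → ℝ := wt (psB (psi s T fun _ => 0) b) with hW
  have hinj : ∀ x ∈ lev (sB s b) j, ∀ y ∈ lev (sB s b) j,
      (x + d • e l') = (y + d • e l') → x = y := by
    intro x _ y _ h
    exact add_right_cancel h
  have h1 : ∑ v ∈ lev (sB s b) j, 2 * W (v + d • e l') =
      ∑ v ∈ (lev (sB s b) j).image (fun v => v + d • e l'), 2 * W v := by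
    rw [Finset.sum_image]
    intro x hx y hy h
    exact hinj x hx y hy h
  have h2 : ∑ v ∈ (lev (sB s b) j).image (fun v => v + d • e l'), 2 * W v ≤
      ∑ v ∈ lev (sB s b) (j + d), 2 * W v := by
    apply Finset.sum_le_sum_of_subset_of_nonneg
    · intro y hy
      rw [Finset.mem_image] at hy
      obtain ⟨v, hv, rfl⟩ := hy
      rw [mem_lev] at hv ⊢
      have hvl : v l' ≤ j := by
        rw [← hv.2]
        exact Finset.single_le_sum (f := v) (fun i _ => Nat.zero_le _) (Finset.mem_univ l')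
      refine ⟨fun l => ?_, ?_⟩
      · by_cases hll : l = l'
        · subst hll
          simp only [Pi.add_apply, Pi.smul_apply, e_same, smul_eq_mul, mul_one, sB,
            Function.update_of_ne hb]
          omega
        · simp only [Pi.add_apply, Pi.smul_apply, e_ne hll, smul_eq_mul, mul_zero, add_zero]
          exact hv.1 l
      · simp only [Pi.add_apply, Pi.smul_apply, smul_eq_mul]
        rw [Finset.sum_add_distrib, ← Finset.mul_sum, sum_e, hv.2, mul_one]
    · intro v _ _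
      have : 0 < W v := wt_psB_pos s T _ b v
      linarith
  refine le_trans ?_ h2
  rw [← h1]
  apply Finset.sum_le_sum
  intro v hv
  rw [mem_lev] at hv
  have hvl : v l' ≤ j := by
    rw [← hv.2]
    exact Finset.single_le_sum (f := v) (fun i _ => Nat.zero_le _) (Finset.mem_univ l')
  -- compare the weights
  have hfac : ∀ x : J → ℕ, W x = psi s T (fun _ => 0) l' (x l') *
      ∏ l ∈ Finset.univ.erase l', psB (psi s T fun _ => 0) b l (x l) := by
    intro x
    rw [hW]
    unfold wt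
    rw [← Finset.mul_prod_erase Finset.univ _ (Finset.mem_univ l')]
    congr 1
    simp only [psB, Function.update_of_ne hb]
  rw [hfac v, hfac (v + d • e l')]
  have hprod : ∏ l ∈ Finset.univ.erase l', psB (psi s T fun _ => 0) b l ((v + d • e l') l) =
      ∏ l ∈ Finset.univ.erase l', psB (psi s T fun _ => 0) b l (v l) := by
    apply Finset.prod_congr rfl
    intro l hl'
    have hll := Finset.ne_of_mem_erase hl'
    congr 1
    simp only [Pi.add_apply, Pi.smul_apply, e_ne hll, smul_eq_mul, mul_zero, add_zero]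
  rw [hprod]
  have hP : 0 ≤ ∏ l ∈ Finset.univ.erase l', psB (psi s T fun _ => 0) b l (v l) := by
    apply Finset.prod_nonneg
    intro l _
    by_cases h : l = b
    · subst h
      simp [psB]
    · simp only [psB, Function.update_of_ne h]
      exact (psi_pos s T _ l _).le
  have hvd : (v + d • e l') l' = v l' + d := by
    simp [e_same]
  rw [hvd]
  have hphi : psi s T (fun _ => 0) l' (v l') ≤ 2 * psi s T (fun _ => 0) l' (v l' + d) := by
    unfold psi
    rw [phi_zero, phi_zero, mul_one, mul_one]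
    have h3 := phi_ratio (T l') (a := s l' - (v l' + d)) (b := s l' - v l') (by omega)
    have hp1 := phi_pos (T l') (s l' - (v l' + d))
    have ha : ((s l' - (v l' + d) : ℕ) : ℝ) = (s l' : ℝ) - (v l' + d) := by
      rw [Nat.cast_sub (by omega)]
      push_cast
      ring
    have hb' : ((s l' - v l' : ℕ) : ℝ) = (s l' : ℝ) - v l' := by
      rw [Nat.cast_sub (by omega)]
    rw [ha, hb'] at h3
    have h8 : (8 : ℝ) * ρ ≤ s l' := by exact_mod_cast hl
    have hv1 : (v l' : ℝ) ≤ j := by exact_mod_cast hvl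
    have hjd : (j : ℝ) + d ≤ ρ := by exact_mod_cast hj'
    have hj0 : (0 : ℝ) ≤ j := Nat.cast_nonneg j
    have hd0 : (0 : ℝ) ≤ d := Nat.cast_nonneg d
    have hv0 : (0 : ℝ) ≤ v l' := Nat.cast_nonneg _
    set α : ℝ := (s l' : ℝ) - (v l' + d) with hα
    have hα7 : 7 * (d : ℝ) ≤ α := by linarith
    have hβ : (s l' : ℝ) - v l' = α + d := by rw [hα]; ring
    rw [hβ] at h3
    have hα0 : 0 ≤ α := by linarith
    have h5 : (α + d + 1) * (α + d + 2) ≤ 2 * ((α + 1) * (α + 2)) := by nlinarith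
    have h6 : phi (T l') (s l' - v l') * ((α + 1) * (α + 2)) ≤
        (2 * phi (T l') (s l' - (v l' + d))) * ((α + 1) * (α + 2)) := by
      calc phi (T l') (s l' - v l') * ((α + 1) * (α + 2))
          ≤ phi (T l') (s l' - (v l' + d)) * ((α + d + 1) * (α + d + 2)) := h3
        _ ≤ phi (T l') (s l' - (v l' + d)) * (2 * ((α + 1) * (α + 2))) :=
            mul_le_mul_of_nonneg_left h5 hp1.le
        _ = _ := by ring
    exact le_of_mul_le_mul_right h6 (by positivity)
  calc psi s T (fun _ => 0) l' (v l') *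
        ∏ l ∈ Finset.univ.erase l', psB (psi s T fun _ => 0) b l (v l)
      ≤ (2 * psi s T (fun _ => 0) l' (v l' + d)) *
        ∏ l ∈ Finset.univ.erase l', psB (psi s T fun _ => 0) b l (v l) :=
        mul_le_mul_of_nonneg_right hphi hP
    _ = _ := by ring

end Vale.Agent.Lib.P328.HH
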