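import Vale.Agent.Lib.P328.HHColumn

/-!
P328, module HHColumnOne: the wall term of one column, kind 1 (`T' = T`).
-/

namespace Vale.Agent.Lib.P328.HH

open Finset

variable {J : Type} [Fintype J] [DecidableEq J]

/-- `phi T S ≤ 4 phi T h` if `2 h ≥ S`, `h ≤ S` -/
theorem phi_half (T : ℕ) {S h : ℕ} (h1 : S ≤ 2 * h) (h2 : h ≤ S) : phi T S ≤ 4 * phi T h := by
  have h3 := phi_ratio T h2
  have hp := phi_pos T h
  have hS : (S : ℝ) ≤ 2 * h := by exact_mod_cast h1
  have hh : (0 : ℝ) ≤ h := Nat.cast_nonneg h
  have hS0 : (0 : ℝ) ≤ S := Nat.cast_nonneg S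
  have h4 : ((S : ℝ) + 1) * (S + 2) ≤ 4 * ((h + 1) * (h + 2)) := by nlinarith
  have h5 : phi T S * (((h : ℝ) + 1) * (h + 2)) ≤ (4 * phi T h) * (((h : ℝ) + 1) * (h + 2)) := by
    calc phi T S * (((h : ℝ) + 1) * (h + 2)) ≤ phi T h * (((S : ℝ) + 1) * (S + 2)) := h3
      _ ≤ phi T h * (4 * ((h + 1) * (h + 2))) := mul_le_mul_of_nonneg_left h4 hp.le
      _ = _ := by ring
  exact le_of_mul_le_mul_right h5 (by positivity)

/-- the inverse weights on the reflected path -/
theorem inv_psi_sum (T S z : ℕ) (hz : 2 * z ≤ S) :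
    (phi T z * phi T (S - z)) *
      (∑ k ∈ Finset.Ico z (S - z), 1 / (phi T (S - (k + 1)) * phi T (k + 1))) ≤
      8 * phi T z * ∑ j ∈ Finset.Icc z S, 1 / phi T j := by
  have hterm : ∀ k ∈ Finset.Ico z (S - z),
      phi T (S - z) * (1 / (phi T (S - (k + 1)) * phi T (k + 1))) ≤
        4 * (1 / phi T (k + 1)) + 4 * (1 / phi T (S - (k + 1))) := by
    intro k hk
    rw [Finset.mem_Ico] at hk
    have p1 := phi_pos T (k + 1)
    have p2 := phi_pos T (S - (k + 1))
    have p3 := phi_pos T (S - z)
    have h0 : phi T (S - z) ≤ phi T S := phi_mono T (Nat.sub_le _ _)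
    rcases le_total (S - (k + 1)) (k + 1) with hc | hc
    · have h1 : phi T (S - z) ≤ 4 * phi T (k + 1) :=
        h0.trans (phi_half T (by omega) (by omega))
      have h2 : phi T (S - z) * (1 / (phi T (S - (k + 1)) * phi T (k + 1))) ≤
          4 * (1 / phi T (S - (k + 1))) := by
        rw [mul_one_div, mul_one_div, div_le_div_iff₀ (mul_pos p2 p1) p2]
        nlinarith
      have h3 : 0 ≤ 4 * (1 / phi T (k + 1)) := by positivity
      linarith
    · have h1 : phi T (S - z) ≤ 4 * phi T (S - (k + 1)) :=
        h0.trans (phi_half T (by omega) (Nat.sub_le _ _))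
      have h2 : phi T (S - z) * (1 / (phi T (S - (k + 1)) * phi T (k + 1))) ≤
          4 * (1 / phi T (k + 1)) := by
        rw [mul_one_div, mul_one_div, div_le_div_iff₀ (mul_pos p2 p1) p1]
        nlinarith
      have h3 : 0 ≤ 4 * (1 / phi T (S - (k + 1))) := by positivity
      linarith
  have hpos : ∀ j, 0 ≤ 1 / phi T j := fun j => (one_div_pos.2 (phi_pos T j)).le
  have hA : ∑ k ∈ Finset.Ico z (S - z), 1 / phi T (k + 1) ≤
      ∑ j ∈ Finset.Icc z S, 1 / phi T j := by
    have e : ∑ k ∈ Finset.Ico z (S - z), 1 / phi T (k + 1) =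
        ∑ j ∈ (Finset.Ico z (S - z)).image (fun k => k + 1), 1 / phi T j := by
      rw [Finset.sum_image]
      intro x _ y _ h
      exact Nat.succ_injective h
    rw [e]
    apply Finset.sum_le_sum_of_subset_of_nonneg
    · intro x hx
      rw [Finset.mem_image] at hx
      obtain ⟨k, hk, rfl⟩ := hx
      rw [Finset.mem_Ico] at hk
      rw [Finset.mem_Icc]
      omega
    · intro j _ _
      exact hpos j
  have hB : ∑ k ∈ Finset.Ico z (S - z), 1 / phi T (S - (k + 1)) ≤
      ∑ j ∈ Finset.Icc z S, 1 / phi T j := by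
    have e : ∑ k ∈ Finset.Ico z (S - z), 1 / phi T (S - (k + 1)) =
        ∑ j ∈ (Finset.Ico z (S - z)).image (fun k => S - (k + 1)), 1 / phi T j := by
      rw [Finset.sum_image]
      intro x hx y hy h
      rw [Finset.mem_coe, Finset.mem_Ico] at hx hy
      simp only at h
      omega
    rw [e]
    apply Finset.sum_le_sum_of_subset_of_nonneg
    · intro x hx
      rw [Finset.mem_image] at hx
      obtain ⟨k, hk, rfl⟩ := hx
      rw [Finset.mem_Ico] at hk
      rw [Finset.mem_Icc]
      omega
    · intro j _ _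
      exact hpos j
  have hsum := Finset.sum_le_sum hterm
  rw [Finset.sum_add_distrib, ← Finset.mul_sum, ← Finset.mul_sum, ← Finset.mul_sum] at hsum
  have hpz := (phi_pos T z).le
  calc (phi T z * phi T (S - z)) *
        (∑ k ∈ Finset.Ico z (S - z), 1 / (phi T (S - (k + 1)) * phi T (k + 1)))
      = phi T z * (phi T (S - z) *
        (∑ k ∈ Finset.Ico z (S - z), 1 / (phi T (S - (k + 1)) * phi T (k + 1)))) := by ring
    _ ≤ phi T z * (8 * ∑ j ∈ Finset.Icc z S, 1 / phi T j) := by
        apply mul_le_mul_of_nonneg_left _ hpz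
        linarith
    _ = _ := by ring

/-- kind 1: wall term of one column -/
theorem column_one (s T : J → ℕ) (b : J) (ρ : ℕ) (u t : (J → ℕ) → ℝ)
    (h2 : 2 * ρ ≤ ∑ l, s l) (H : ℝ)
    (hH : ∑ i ∈ range (min (s b) ρ + 1), 1 / ((i : ℝ) + 1) ≤ H) :
    RR s T T b ρ u ≤ 3 * VV s T T b ρ u +
      32 * (12 * (((min (s b) ρ : ℕ) : ℝ) + 1) / ((T b : ℝ) + 1) + 24 * H) * EE s T T ρ u t := by
  set M := min (s b) ρ with hM
  have hMs : M ≤ s b := min_le_left _ _
  have hMρ : M ≤ ρ := min_le_right _ _
  obtain ⟨a, ha⟩ := Nat.exists_eq_add_of_le hMs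
  have hEE := EE_nonneg s T T ρ u t
  have hψ : ∀ k, 0 < psi s T T b k := fun k => psi_pos s T T b k
  let V : ℕ → ℝ := fun i => psi s T T b i * Gam (T b) i *
    (Zb s T T b (ρ - i) * AA s T T b ρ u i ^ 2)
  have hV0 : ∀ i, 0 ≤ V i := fun i =>
    mul_nonneg (mul_nonneg (hψ i).le (Gam_nonneg _ _)) (ZA_nonneg s T T b ρ u i)
  let g : ℕ → ℝ := fun i => phi (T b) (a + i) * Gam (T b) (a + i) *
    ∑ k ∈ Finset.Icc i M, 1 / phi (T b) (a + k)
  have hg0 : ∀ i, 0 ≤ g i := fun i =>
    mul_nonneg (mul_nonneg (phi_pos _ _).le (Gam_nonneg _ _))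
      (Finset.sum_nonneg fun k _ => (one_div_pos.2 (phi_pos _ _)).le)
  rw [RR_slice, ← hM]
  have hterm : ∀ i ∈ range (M + 1), psi s T T b i * Gam (T b) (s b - i) *
      (Zb s T T b (ρ - i) * AA s T T b ρ u i ^ 2) ≤
      (V i + 2 * (if s b < 2 * i then V (s b - i) else 0)) +
        32 * EE s T T ρ u t * g (M - i) := by
    intro i hi
    rw [Finset.mem_range] at hi
    have hgE : 0 ≤ 32 * EE s T T ρ u t * g (M - i) :=
      mul_nonneg (by linarith) (hg0 _)
    by_cases hc : s b < 2 * i
    · rw [if_pos hc]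
      -- reflected slice
      set j := s b - i with hj
      have hji : j ≤ i := by omega
      have hZ1 : ∀ k, j ≤ k → k < i → Zb s T T b (ρ - i) ≤ 1 * Zb s T T b (ρ - k) := by
        intro k hk1 hk2
        rw [one_mul]
        exact Zb_le_one s T b h2 hk2.le (by omega) (by omega)
      have hpath := path_AA s T T b ρ u t hji (by omega : i ≤ min (s b) ρ) zero_le_one hZ1
      rw [one_mul] at hpath
      have hZij : Zb s T T b (ρ - i) ≤ Zb s T T b (ρ - j) :=
        Zb_le_one s T b h2 hji (by omega) (by omega)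
      have hψij : psi s T T b i = psi s T T b j := by
        rw [hj]
        exact (psi_symm s T b (by omega)).symm
      have hG := Gam_nonneg (T b) j
      have hA2 : AA s T T b ρ u i ^ 2 ≤ 2 * AA s T T b ρ u j ^ 2 +
          2 * (AA s T T b ρ u i - AA s T T b ρ u j) ^ 2 := by
        nlinarith [sq_nonneg (AA s T T b ρ u i - 2 * AA s T T b ρ u j)]
      have hψG : 0 ≤ psi s T T b i * Gam (T b) j := mul_nonneg (hψ i).le hG
      have hZ0 := Zb_nonneg s T T b (ρ - i)
      have h3 : psi s T T b i * Gam (T b) j * (Zb s T T b (ρ - i) * AA s T T b ρ u i ^ 2) ≤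
          2 * (psi s T T b i * Gam (T b) j * (Zb s T T b (ρ - i) * AA s T T b ρ u j ^ 2)) +
          2 * (psi s T T b i * Gam (T b) j * (Zb s T T b (ρ - i) *
            (AA s T T b ρ u i - AA s T T b ρ u j) ^ 2)) := by
        have := mul_le_mul_of_nonneg_left (mul_le_mul_of_nonneg_left hA2 hZ0) hψG
        calc _ ≤ _ := this
          _ = _ := by ring
      have h4 : psi s T T b i * Gam (T b) j * (Zb s T T b (ρ - i) * AA s T T b ρ u j ^ 2) ≤
          V j := by
        simp only [V]
        rw [hψij]
        apply mul_le_mul_of_nonneg_left _ (mul_nonneg (hψ j).le hG)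
        exact mul_le_mul_of_nonneg_right hZij (sq_nonneg _)
      have h5 : psi s T T b i * Gam (T b) j * (Zb s T T b (ρ - i) *
            (AA s T T b ρ u i - AA s T T b ρ u j) ^ 2) ≤
          16 * EE s T T ρ u t * g (M - i) := by
        have e1 : a + (M - i) = j := by omega
        have h6 := mul_le_mul_of_nonneg_left hpath hψG
        refine h6.trans ?_
        have h7 := inv_psi_sum (T b) (s b) j (by omega)
        have e2 : s b - j = i := by omega
        rw [e2] at h7
        have e3 : psi s T T b i = phi (T b) j * phi (T b) i := by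
          unfold psi
          rw [← hj]
        have e4 : ∑ k ∈ Finset.Ico j i, 1 / psi s T T b (k + 1) =
            ∑ k ∈ Finset.Ico j i, 1 / (phi (T b) (s b - (k + 1)) * phi (T b) (k + 1)) := rfl
        have e5 : ∑ j' ∈ Finset.Icc j (s b), 1 / phi (T b) j' =
            ∑ k ∈ Finset.Icc (M - i) M, 1 / phi (T b) (a + k) := by
          have : Finset.Icc j (s b) = (Finset.Icc (M - i) M).image (fun k => a + k) := by
            ext x
            rw [Finset.mem_image, Finset.mem_Icc]
            constructor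
            · intro hx
              refine ⟨x - a, ?_, ?_⟩
              · rw [Finset.mem_Icc]
                omega
              · omega
            · rintro ⟨k, hk, rfl⟩
              rw [Finset.mem_Icc] at hk
              omega
          rw [this, Finset.sum_image]
          intro x _ y _ h
          exact Nat.add_left_cancel h
        calc psi s T T b i * Gam (T b) j *
              ((∑ k ∈ Finset.Ico j i, 1 / psi s T T b (k + 1)) * (2 * EE s T T ρ u t))
            = ((phi (T b) j * phi (T b) i) *
                ∑ k ∈ Finset.Ico j i, 1 / (phi (T b) (s b - (k + 1)) * phi (T b) (k + 1))) *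
                (Gam (T b) j * (2 * EE s T T ρ u t)) := by
              rw [e4, e3]
              ring
          _ ≤ (8 * phi (T b) j * ∑ j' ∈ Finset.Icc j (s b), 1 / phi (T b) j') *
                (Gam (T b) j * (2 * EE s T T ρ u t)) :=
              mul_le_mul_of_nonneg_right h7 (mul_nonneg hG (by linarith))
          _ = 16 * EE s T T ρ u t * g (M - i) := by
              simp only [g]
              rw [e1, e5]
              ring
      have h10 := hV0 i
      linarith
    · rw [if_neg hc]
      have hG : Gam (T b) (s b - i) ≤ Gam (T b) i := Gam_anti (T b) (by omega)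
      have h3 : psi s T T b i * Gam (T b) (s b - i) *
          (Zb s T T b (ρ - i) * AA s T T b ρ u i ^ 2) ≤ V i := by
        simp only [V]
        apply mul_le_mul_of_nonneg_right _ (ZA_nonneg s T T b ρ u i)
        exact mul_le_mul_of_nonneg_left hG (hψ i).le
      linarith
  refine (Finset.sum_le_sum hterm).trans ?_
  rw [Finset.sum_add_distrib, Finset.sum_add_distrib, ← Finset.mul_sum, ← Finset.mul_sum]
  have hVsum : ∑ i ∈ range (M + 1), V i = VV s T T b ρ u := by
    rw [VV_slice]
  have hVref : ∑ i ∈ range (M + 1), (if s b < 2 * i then V (s b - i) else 0) ≤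
      VV s T T b ρ u := by
    rw [← hVsum, ← Finset.sum_filter]
    have e : ∑ i ∈ (range (M + 1)).filter (fun i => s b < 2 * i), V (s b - i) =
        ∑ j ∈ ((range (M + 1)).filter (fun i => s b < 2 * i)).image (fun i => s b - i), V j := by
      rw [Finset.sum_image]
      intro x hx y hy h
      rw [Finset.mem_coe, Finset.mem_filter, Finset.mem_range] at hx hy
      simp only at h
      omega
    rw [e]
    apply Finset.sum_le_sum_of_subset_of_nonneg
    · intro x hx
      rw [Finset.mem_image] at hx
      obtain ⟨i, hi, rfl⟩ := hx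
      rw [Finset.mem_filter, Finset.mem_range] at hi
      rw [Finset.mem_range]
      omega
    · intro j _ _
      exact hV0 j
  have hgsum : ∑ i ∈ range (M + 1), g (M - i) ≤
      12 * ((M : ℝ) + 1) / ((T b : ℝ) + 1) + 24 * H := by
    have e : ∑ i ∈ range (M + 1), g (M - i) = ∑ i ∈ range (M + 1), g i := by
      have := Finset.sum_range_reflect g (M + 1)
      simpa using this
    rw [e]
    exact double_sum (T b) a M H hH
  have h9 := mul_le_mul_of_nonneg_left hgsum (by linarith : 0 ≤ 32 * EE s T T ρ u t)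
  rw [hVsum]
  linarith

end Vale.Agent.Lib.P328.HH
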