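import Vale.Agent.Lib.P328.Coupling
import Vale.Agent.Lib.P328.Phi

/-!
P328, module HHSliceDiff: the root mean squares on consecutive slices of a column differ by at most
the star energy (monotone coupling and Minkowski inequality).
-/

namespace Vale.Agent.Lib.P328.HH

open Finset

variable {J : Type} [Fintype J] [DecidableEq J]

theorem psi_pos (s T T' : J → ℕ) (l : J) (v : ℕ) : 0 < psi s T T' l v :=
  mul_pos (phi_pos _ _) (phi_pos _ _)

theorem psi_LCW (s T T' : J → ℕ) : LCW (psi s T T') s := by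
  constructor
  · intro l v _
    exact psi_pos s T T' l v
  · intro l v hv
    unfold psi
    obtain ⟨z, hz⟩ := Nat.exists_eq_add_of_le hv
    have e0 : s l - v = z + 2 := by omega
    have e1 : s l - (v + 1) = z + 1 := by omega
    have e2 : s l - (v + 2) = z := by omega
    rw [e0, e1, e2]
    have h1 := phi_logconcave (T l) z
    have h2 := phi_logconcave (T' l) v
    calc phi (T l) (z + 2) * phi (T' l) v * (phi (T l) z * phi (T' l) (v + 2))
        = (phi (T l) z * phi (T l) (z + 2)) * (phi (T' l) v * phi (T' l) (v + 2)) := by ring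
      _ ≤ phi (T l) (z + 1) ^ 2 * phi (T' l) (v + 1) ^ 2 :=
          mul_le_mul h1 h2 (mul_nonneg (phi_pos _ _).le (phi_pos _ _).le) (sq_nonneg _)
      _ = (phi (T l) (z + 1) * phi (T' l) (v + 1)) ^ 2 := by ring

theorem wt_psi_pos (s T T' : J → ℕ) (v : J → ℕ) : 0 < wt (psi s T T') v :=
  Finset.prod_pos fun l _ => psi_pos s T T' l _

theorem wt_psB_pos (s T T' : J → ℕ) (b : J) (v : J → ℕ) : 0 < wt (psB (psi s T T') b) v := by
  apply Finset.prod_pos
  intro l _
  by_cases h : l = b
  · subst h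
    simp [psB]
  · simp only [psB, Function.update_of_ne h]
    exact psi_pos s T T' l _

theorem Zb_nonneg (s T T' : J → ℕ) (b : J) (j : ℕ) : 0 ≤ Zb s T T' b j :=
  Finset.sum_nonneg fun v _ => (wt_psB_pos s T T' b v).le

theorem Zb_pos {s T T' : J → ℕ} {b : J} {j : ℕ} (h : j ≤ ∑ l, sB s b l) : 0 < Zb s T T' b j :=
  ZZ_pos ((psi_LCW s T T').slice b).pos h

theorem Zb_eq_zero {s T T' : J → ℕ} {b : J} {j : ℕ} (h : ∑ l, sB s b l < j) :
    Zb s T T' b j = 0 := ZZ_eq_zero h

theorem AA_nonneg (s T T' : J → ℕ) (b : J) (ρ : ℕ) (u : (J → ℕ) → ℝ) (i : ℕ) :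
    0 ≤ AA s T T' b ρ u i := Real.sqrt_nonneg _

theorem AA_sq (s T T' : J → ℕ) (b : J) (ρ : ℕ) (u : (J → ℕ) → ℝ) (i : ℕ) :
    Zb s T T' b (ρ - i) * AA s T T' b ρ u i ^ 2 =
      ∑ v ∈ lev (sB s b) (ρ - i), wt (psB (psi s T T') b) v * u (Function.update v b i) ^ 2 := by
  unfold AA
  have h0 : 0 ≤ ∑ v ∈ lev (sB s b) (ρ - i), wt (psB (psi s T T') b) v *
      u (Function.update v b i) ^ 2 :=
    Finset.sum_nonneg fun v _ => mul_nonneg (wt_psB_pos s T T' b v).le (sq_nonneg _)
  rw [Real.sq_sqrt (div_nonneg h0 (Zb_nonneg _ _ _ _ _))]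
  rcases le_or_gt (ρ - i) (∑ l, sB s b l) with h | h
  · have hZ := Zb_pos (T := T) (T' := T') h
    field_simp
  · rw [lev_empty h, Finset.sum_empty]
    simp

/-- Minkowski inequality, weighted -/
theorem mink {ι : Type*} (S : Finset ι) (p a b : ι → ℝ) (hp : ∀ i ∈ S, 0 ≤ p i) :
    (Real.sqrt (∑ i ∈ S, p i * a i ^ 2) - Real.sqrt (∑ i ∈ S, p i * b i ^ 2)) ^ 2 ≤
      ∑ i ∈ S, p i * (a i - b i) ^ 2 := by
  have ha : 0 ≤ ∑ i ∈ S, p i * a i ^ 2 :=
    Finset.sum_nonneg fun i hi => mul_nonneg (hp i hi) (sq_nonneg _)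
  have hb : 0 ≤ ∑ i ∈ S, p i * b i ^ 2 :=
    Finset.sum_nonneg fun i hi => mul_nonneg (hp i hi) (sq_nonneg _)
  have hcs := Finset.sum_mul_sq_le_sq_mul_sq S (fun i => Real.sqrt (p i) * a i)
    (fun i => Real.sqrt (p i) * b i)
  have e1 : ∑ i ∈ S, (Real.sqrt (p i) * a i) * (Real.sqrt (p i) * b i) =
      ∑ i ∈ S, p i * (a i * b i) := by
    apply Finset.sum_congr rfl
    intro i hi
    have := Real.mul_self_sqrt (hp i hi)
    calc (Real.sqrt (p i) * a i) * (Real.sqrt (p i) * b i)
        = (Real.sqrt (p i) * Real.sqrt (p i)) * (a i * b i) := by ring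
      _ = p i * (a i * b i) := by rw [this]
  have e2 : ∀ c : ι → ℝ, ∑ i ∈ S, (Real.sqrt (p i) * c i) ^ 2 = ∑ i ∈ S, p i * c i ^ 2 := by
    intro c
    apply Finset.sum_congr rfl
    intro i hi
    rw [mul_pow, Real.sq_sqrt (hp i hi)]
  rw [e1, e2, e2] at hcs
  have hle : ∑ i ∈ S, p i * (a i * b i) ≤
      Real.sqrt (∑ i ∈ S, p i * a i ^ 2) * Real.sqrt (∑ i ∈ S, p i * b i ^ 2) := by
    rw [← Real.sqrt_mul ha]
    exact Real.le_sqrt_of_sq_le hcs
  have e3 : ∑ i ∈ S, p i * (a i - b i) ^ 2 =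
      ∑ i ∈ S, p i * a i ^ 2 + ∑ i ∈ S, p i * b i ^ 2 - 2 * ∑ i ∈ S, p i * (a i * b i) := by
    rw [Finset.mul_sum, ← Finset.sum_add_distrib, ← Finset.sum_sub_distrib]
    apply Finset.sum_congr rfl
    intro i _
    ring
  rw [e3, sub_sq, Real.sq_sqrt ha, Real.sq_sqrt hb]
  linarith

/-- star energy of the slice `y_b = i` -/
noncomputable def ESl (s T T' : J → ℕ) (b : J) (ρ : ℕ) (u t : (J → ℕ) → ℝ) (i : ℕ) : ℝ :=
  psi s T T' b i * ∑ v ∈ lev (sB s b) (ρ + 1 - i), wt (psB (psi s T T') b) v *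
    ∑ a, if Function.update v b i a = 0 then 0 else
      (u (Function.update v b i - e a) - t (Function.update v b i)) ^ 2

theorem ESl_nonneg (s T T' : J → ℕ) (b : J) (ρ : ℕ) (u t : (J → ℕ) → ℝ) (i : ℕ) :
    0 ≤ ESl s T T' b ρ u t i := by
  apply mul_nonneg (psi_pos _ _ _ _ _).le
  apply Finset.sum_nonneg
  intro v _
  apply mul_nonneg (wt_psB_pos _ _ _ _ _).le
  apply Finset.sum_nonneg
  intro a _
  split_ifs
  · exact le_rfl
  · exact sq_nonneg _

theorem EE_slice (s T T' : J → ℕ) (b : J) (ρ : ℕ) (u t : (J → ℕ) → ℝ) :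
    EE s T T' ρ u t = ∑ i ∈ range (min (s b) (ρ + 1) + 1), ESl s T T' b ρ u t i := by
  unfold EE ESl
  rw [sum_slice s b]
  apply Finset.sum_congr rfl
  intro i _
  rw [Finset.mul_sum]
  apply Finset.sum_congr rfl
  intro v _
  rw [wt_slice]
  ring

theorem slice_diff (s T T' : J → ℕ) (b : J) (ρ : ℕ) (u t : (J → ℕ) → ℝ) {i : ℕ}
    (hiρ : i + 1 ≤ ρ) (hne : ρ - i ≤ ∑ l, sB s b l) :
    psi s T T' b (i + 1) * (Zb s T T' b (ρ - i) *
      (AA s T T' b ρ u i - AA s T T' b ρ u (i + 1)) ^ 2) ≤ 2 * ESl s T T' b ρ u t (i + 1) := by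
  classical
  have hLC := (psi_LCW s T T').slice b
  obtain ⟨κ, hκ0, hκz, hκs, hκF⟩ := coupling hLC (σ := ρ - (i + 1)) (by omega)
  have eσ : ρ - (i + 1) + 1 = ρ - i := by omega
  rw [eσ] at hκs hκF
  set W : (J → ℕ) → ℝ := wt (psB (psi s T T') b) with hW
  set Z1 := Zb s T T' b (ρ - i) with hZ1
  set Z0 := Zb s T T' b (ρ - (i + 1)) with hZ0
  have hZ1pos : 0 < Z1 := Zb_pos hne
  have hZ0pos : 0 < Z0 := Zb_pos (by omega)
  have hWpos : ∀ v, 0 < W v := wt_psB_pos s T T' b
  -- the two root mean squares as sums over the coupling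
  let S := (lev (sB s b) (ρ - i)) ×ˢ (Finset.univ : Finset J)
  let p : (J → ℕ) × J → ℝ := fun q => W q.1 * κ q.1 q.2 / Z1
  let A1 : (J → ℕ) × J → ℝ := fun q => u (Function.update q.1 b i)
  let A0 : (J → ℕ) × J → ℝ := fun q => u (Function.update (q.1 - e q.2) b (i + 1))
  have hp : ∀ q ∈ S, 0 ≤ p q := fun q _ =>
    div_nonneg (mul_nonneg (hWpos _).le (hκ0 _ _)) hZ1pos.le
  have hA1 : AA s T T' b ρ u i = Real.sqrt (∑ q ∈ S, p q * A1 q ^ 2) := by
    unfold AA
    congr 1
    rw [Finset.sum_product, Finset.sum_div]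
    apply Finset.sum_congr rfl
    intro v hv
    have h1 : ∑ a, p (v, a) * A1 (v, a) ^ 2 =
        (∑ a, κ v a) * (W v * u (Function.update v b i) ^ 2 / Z1) := by
      rw [Finset.sum_mul]
      apply Finset.sum_congr rfl
      intro a _
      simp only [p, A1]
      ring
    rw [h1, hκs v hv, one_mul]
  have hA0 : AA s T T' b ρ u (i + 1) = Real.sqrt (∑ q ∈ S, p q * A0 q ^ 2) := by
    unfold AA
    congr 1
    have h1 := hκF (fun v => u (Function.update v b (i + 1)) ^ 2)
    have h2 : ∑ q ∈ S, p q * A0 q ^ 2 =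
        (∑ v ∈ lev (sB s b) (ρ - i), W v *
          ∑ a, κ v a * u (Function.update (v - e a) b (i + 1)) ^ 2) / Z1 := by
      rw [Finset.sum_product, Finset.sum_div]
      apply Finset.sum_congr rfl
      intro v _
      rw [Finset.mul_sum, Finset.sum_div]
      apply Finset.sum_congr rfl
      intro a _
      simp only [p, A0]
      ring
    rw [h2]
    change _ / Z0 = _
    rw [div_eq_div_iff hZ0pos.ne' hZ1pos.ne']
    have h3 : Z1 * ∑ v ∈ lev (sB s b) (ρ - (i + 1)), W v * u (Function.update v b (i + 1)) ^ 2 =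
        Z0 * ∑ v ∈ lev (sB s b) (ρ - i), W v *
          ∑ a, κ v a * u (Function.update (v - e a) b (i + 1)) ^ 2 := h1
    rw [mul_comm, h3, mul_comm]
  have hm := mink S p A1 A0 hp
  rw [← hA1, ← hA0] at hm
  have hm2 : Z1 * (AA s T T' b ρ u i - AA s T T' b ρ u (i + 1)) ^ 2 ≤
      Z1 * ∑ q ∈ S, p q * (A1 q - A0 q) ^ 2 := mul_le_mul_of_nonneg_left hm hZ1pos.le
  have h4 : Z1 * ∑ q ∈ S, p q * (A1 q - A0 q) ^ 2 =
      ∑ v ∈ lev (sB s b) (ρ - i), W v * ∑ a, κ v a *
        (u (Function.update v b i) - u (Function.update (v - e a) b (i + 1))) ^ 2 := by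
    rw [Finset.sum_product, Finset.mul_sum]
    apply Finset.sum_congr rfl
    intro v _
    rw [Finset.mul_sum, Finset.mul_sum]
    apply Finset.sum_congr rfl
    intro a _
    simp only [p, A0, A1]
    field_simp
  rw [h4] at hm2
  have h5 : ∀ v ∈ lev (sB s b) (ρ - i), W v * ∑ a, κ v a *
        (u (Function.update v b i) - u (Function.update (v - e a) b (i + 1))) ^ 2 ≤
      W v * (2 * ∑ a, if Function.update v b (i + 1) a = 0 then 0 else
        (u (Function.update v b (i + 1) - e a) - t (Function.update v b (i + 1))) ^ 2) := by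
    intro v hv
    apply mul_le_mul_of_nonneg_left _ (hWpos v).le
    have hvb : v b = 0 := by
      have := (mem_lev.1 hv).1 b
      simp only [sB, Function.update_self] at this
      omega
    set y := Function.update v b (i + 1) with hy
    have eb : y - e b = Function.update v b i := by
      funext l
      by_cases hl : l = b
      · subst hl
        simp [hy, Pi.sub_apply, e_same]
      · simp [hy, Pi.sub_apply, e_ne hl, hl]
    have ea : ∀ a, a ≠ b → y - e a = Function.update (v - e a) b (i + 1) := by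
      intro a ha
      funext l
      by_cases hl : l = b
      · subst hl
        simp [hy, Pi.sub_apply, e_ne (Ne.symm ha)]
      · simp [hy, Pi.sub_apply, hl]
    have hyb : y b ≠ 0 := by simp [hy]
    have hya : ∀ a, a ≠ b → y a = v a := by
      intro a ha
      simp [hy, ha]
    -- split off the column b
    rw [← Finset.add_sum_erase Finset.univ (fun a => κ v a * (u (Function.update v b i) -
      u (Function.update (v - e a) b (i + 1))) ^ 2) (Finset.mem_univ b)]
    rw [← Finset.add_sum_erase Finset.univ (fun a => if y a = 0 then 0 else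
      (u (y - e a) - t y) ^ 2) (Finset.mem_univ b)]
    rw [hκz v b hvb, zero_mul, zero_add, if_neg hyb, eb]
    have hsum1 : ∑ a ∈ Finset.univ.erase b, κ v a ≤ 1 := by
      have h := hκs v hv
      rw [← Finset.add_sum_erase Finset.univ (κ v) (Finset.mem_univ b)] at h
      have := hκ0 v b
      linarith
    have hκ1 : ∀ a, κ v a ≤ 1 := by
      intro a
      rw [← hκs v hv]
      exact Finset.single_le_sum (f := κ v) (fun i _ => hκ0 v i) (Finset.mem_univ a)
    have hterm : ∀ a ∈ Finset.univ.erase b, κ v a * (u (Function.update v b i) -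
        u (Function.update (v - e a) b (i + 1))) ^ 2 ≤
        κ v a * (2 * (u (Function.update v b i) - t y) ^ 2) +
          2 * (if y a = 0 then 0 else (u (y - e a) - t y) ^ 2) := by
      intro a ha
      have hab := Finset.ne_of_mem_erase ha
      rw [← ea a hab]
      by_cases h0 : y a = 0
      · rw [if_pos h0, hκz v a (by rw [← hya a hab]; exact h0)]
        simp
      · rw [if_neg h0]
        have h1 := hκ0 v a
        have h2 := hκ1 a
        have h3 : (u (Function.update v b i) - u (y - e a)) ^ 2 ≤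
            2 * (u (Function.update v b i) - t y) ^ 2 + 2 * (u (y - e a) - t y) ^ 2 := by
          nlinarith [sq_nonneg ((u (Function.update v b i) - t y) + (u (y - e a) - t y))]
        calc κ v a * (u (Function.update v b i) - u (y - e a)) ^ 2
            ≤ κ v a * (2 * (u (Function.update v b i) - t y) ^ 2 +
                2 * (u (y - e a) - t y) ^ 2) := mul_le_mul_of_nonneg_left h3 h1
          _ = κ v a * (2 * (u (Function.update v b i) - t y) ^ 2) +
                κ v a * (2 * (u (y - e a) - t y) ^ 2) := by ring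
          _ ≤ κ v a * (2 * (u (Function.update v b i) - t y) ^ 2) +
                1 * (2 * (u (y - e a) - t y) ^ 2) := by
              have : κ v a * (2 * (u (y - e a) - t y) ^ 2) ≤
                  1 * (2 * (u (y - e a) - t y) ^ 2) :=
                mul_le_mul_of_nonneg_right h2 (by positivity)
              linarith
          _ = _ := by ring
    have hfin := Finset.sum_le_sum hterm
    rw [Finset.sum_add_distrib, ← Finset.sum_mul, ← Finset.mul_sum] at hfin
    have h6 : (∑ a ∈ Finset.univ.erase b, κ v a) * (2 * (u (Function.update v b i) - t y) ^ 2) ≤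
        1 * (2 * (u (Function.update v b i) - t y) ^ 2) :=
      mul_le_mul_of_nonneg_right hsum1 (by positivity)
    linarith
  have h6 := hm2.trans (Finset.sum_le_sum h5)
  have h7 : psi s T T' b (i + 1) * (Z1 * (AA s T T' b ρ u i - AA s T T' b ρ u (i + 1)) ^ 2) ≤
      psi s T T' b (i + 1) * ∑ v ∈ lev (sB s b) (ρ - i), W v *
        (2 * ∑ a, if Function.update v b (i + 1) a = 0 then 0 else
        (u (Function.update v b (i + 1) - e a) - t (Function.update v b (i + 1))) ^ 2) :=
    mul_le_mul_of_nonneg_left h6 (psi_pos _ _ _ _ _).le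
  refine h7.trans (le_of_eq ?_)
  unfold ESl
  have e8 : ρ + 1 - (i + 1) = ρ - i := by omega
  rw [e8, Finset.mul_sum, Finset.mul_sum, Finset.mul_sum]
  apply Finset.sum_congr rfl
  intro v _
  ring

end Vale.Agent.Lib.P328.HH
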