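import Vale.Agent.Lib.P328.PointId

/-!
P328, module Ident: the exact identity for the two row fibre.
-/

namespace Vale.Agent.Lib.P328

open Finset

variable {J : Type} [Fintype J] [DecidableEq J]

/-- square of the generator at one point -/
private theorem ident_sq (s T T' : J → ℕ) (h : (J → ℕ) → ℝ) (x : J → ℕ) :
    LL s T T' h x ^ 2 =
      (∑ a, ∑ b, gr (T a) (s a - x a) * gr (T b) (s b - (x + e a) b) *
        ((h x - DD T' h (x + e a)) * (h x - DD T' h (x + e b)))) +
      ∑ l, gr (T l) (s l - x l) * (gr (T l) (s l - x l) - gr (T l) (s l - x l - 1)) *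
        (h x - DD T' h (x + e l)) ^ 2 := by
  have h1 : LL s T T' h x ^ 2 = ∑ a, ∑ b, (gr (T a) (s a - x a) * (h x - DD T' h (x + e a))) *
      (gr (T b) (s b - x b) * (h x - DD T' h (x + e b))) := by
    unfold LL
    rw [sq, Finset.sum_mul_sum]
  rw [h1, ← Finset.sum_add_distrib]
  apply Finset.sum_congr rfl
  intro a _
  have h2 : gr (T a) (s a - x a) * (gr (T a) (s a - x a) - gr (T a) (s a - x a - 1)) *
        (h x - DD T' h (x + e a)) ^ 2 =
      ∑ b, if b = a then gr (T a) (s a - x a) *
        (gr (T a) (s a - x a) - gr (T a) (s a - x a - 1)) * (h x - DD T' h (x + e a)) ^ 2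
        else 0 := by
    rw [Finset.sum_ite_eq' Finset.univ a]
    simp
  rw [h2, ← Finset.sum_add_distrib]
  apply Finset.sum_congr rfl
  intro b _
  by_cases hb : b = a
  · subst hb
    rw [if_pos rfl]
    have h3 : s b - (x + e b) b = s b - x b - 1 := by
      simp only [Pi.add_apply, e_same]
      omega
    rw [h3]
    ring
  · rw [if_neg hb]
    have h3 : (x + e a) b = x b := by
      simp only [Pi.add_apply, e_ne hb]
      omega
    rw [h3]
    ring

/-- detailed balance for two units -/
private theorem ident_balance (s T T' : J → ℕ) {x : J → ℕ} {a b : J} (ha : x a < s a)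
    (hb : (x + e a) b < s b) :
    wt (psi s T T') x * (gr (T a) (s a - x a) * gr (T b) (s b - (x + e a) b)) =
      wt (psi s T T') (x + e a + e b) *
        (gr (T' a) ((x + e a + e b) a) * gr (T' b) ((x + e a + e b - e a) b)) := by
  have h1 := wt_add s T T' ha
  have h2 := wt_add s T T' hb
  have h3 : gr (T' a) (x a + 1) * gr (T' b) ((x + e a) b + 1) =
      gr (T' a) ((x + e a + e b) a) * gr (T' b) ((x + e a + e b - e a) b) := by
    by_cases hab : b = a
    · subst hab
      have e1 : (x + e b + e b) b = x b + 1 + 1 := by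
        simp only [Pi.add_apply, e_same]
      have e2 : (x + e b) b = x b + 1 := by
        simp only [Pi.add_apply, e_same]
      have e3 : (x + e b + e b - e b) b = x b + 1 := by
        simp only [Pi.add_apply, Pi.sub_apply, e_same]
        omega
      rw [e1, e2, e3]
      ring
    · have hab' : a ≠ b := fun h => hab h.symm
      have e1 : (x + e a + e b) a = x a + 1 := by
        simp only [Pi.add_apply, e_same, e_ne hab']
      have e2 : (x + e a + e b - e a) b = x b + 1 := by
        simp only [Pi.add_apply, Pi.sub_apply, e_same, e_ne hab]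
        omega
      have e3 : (x + e a) b = x b := by
        simp only [Pi.add_apply, e_ne hab]
        omega
      rw [e1, e2, e3]
  calc wt (psi s T T') x * (gr (T a) (s a - x a) * gr (T b) (s b - (x + e a) b))
      = (wt (psi s T T') x * gr (T a) (s a - x a)) * gr (T b) (s b - (x + e a) b) := by ring
    _ = wt (psi s T T') (x + e a) * gr (T b) (s b - (x + e a) b) * gr (T' a) (x a + 1) := by
        rw [h1]
        ring
    _ = wt (psi s T T') (x + e a + e b) * (gr (T' a) (x a + 1) * gr (T' b) ((x + e a) b + 1)) := by
        rw [h2]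
        ring
    _ = _ := by rw [h3]

/-- The fibre identity.
Proof: `(LL h x)² = ∑_{l,l'} G_l(x) G_{l'}(x) β_l β_{l'}`, `G_l(x) = gr (T l) (s l - x l)`,
`β_l = h x - DD h (x + e l)`.  Write `G_l(x) G_{l'}(x) = G_l(x) G_{l'}(x + e_l)` plus, for `l = l'`,
`G_l(x) (G_l(x) - G_l(x + e_l))`; the second part gives `Rt`.  In the first part use
`sum_shift2` (the terms vanish unless `x l < s l` and `(x + e l) l' < s l'`) and `wt_add` twice:
`wt x * G_l(x) * G_{l'}(x + e_l) = wt y * gr (T' l) (y l) * gr (T' l') ((y - e l) l')`,
`y = x + e l + e l'`; then `point_identity` (`x + e l = y - e l'`). -/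
theorem fibre_identity (s T T' : J → ℕ) (r : ℕ) (h : (J → ℕ) → ℝ) :
    nL s T T' r h = TT s T T' r h + Rt s T T' r h := by
  have h1 : nL s T T' r h =
      (∑ x ∈ lev s r, wt (psi s T T') x *
        (∑ a, ∑ b, gr (T a) (s a - x a) * gr (T b) (s b - (x + e a) b) *
          ((h x - DD T' h (x + e a)) * (h x - DD T' h (x + e b))))) + Rt s T T' r h := by
    unfold nL Rt
    rw [← Finset.sum_add_distrib]
    apply Finset.sum_congr rfl
    intro x _
    rw [ident_sq, mul_add]
  rw [h1]
  congr 1
  have h2 : (∑ x ∈ lev s r, wt (psi s T T') x *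
        (∑ a, ∑ b, gr (T a) (s a - x a) * gr (T b) (s b - (x + e a) b) *
          ((h x - DD T' h (x + e a)) * (h x - DD T' h (x + e b))))) =
      ∑ x ∈ lev s r, ∑ a, ∑ b, (if x a < s a ∧ (x + e a) b < s b then
        (fun (x : J → ℕ) (a b : J) => wt (psi s T T') (x + e a + e b) *
        (gr (T' a) ((x + e a + e b) a) * gr (T' b) ((x + e a + e b - e a) b)) *
          ((h x - DD T' h (x + e a)) * (h x - DD T' h (x + e b)))) x a b else 0) := by
    apply Finset.sum_congr rfl
    intro x _
    rw [Finset.mul_sum]
    apply Finset.sum_congr rfl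
    intro a _
    rw [Finset.mul_sum]
    apply Finset.sum_congr rfl
    intro b _
    by_cases ha : x a < s a
    · by_cases hb : (x + e a) b < s b
      · rw [if_pos ⟨ha, hb⟩]
        simp only []
        rw [← ident_balance s T T' ha hb]
        ring
      · rw [if_neg (fun hh => hb hh.2)]
        have h3 : s b - (x + e a) b = 0 := by omega
        rw [h3, gr_zero]
        ring
    · rw [if_neg (fun hh => ha hh.1)]
      have h3 : s a - x a = 0 := by omega
      rw [h3, gr_zero]
      ring
  rw [h2, sum_shift2]
  unfold TT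
  apply Finset.sum_congr rfl
  intro y hy
  rw [mem_lev] at hy
  rw [← point_identity T' h y (by omega), Finset.mul_sum]
  apply Finset.sum_congr rfl
  intro a _
  rw [Finset.mul_sum]
  apply Finset.sum_congr rfl
  intro b _
  by_cases hc : y a = 0 ∨ (y - e a) b = 0
  · rw [if_pos hc]
    rcases hc with hc | hc
    · rw [hc, gr_zero]
      ring
    · rw [hc, gr_zero]
      ring
  · rw [if_neg hc]
    push Not at hc
    have e1 : y - e a - e b + e b = y - e a := sub_add_e hc.2
    have e2 : y - e a + e a = y := sub_add_e hc.1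
    have e3 : y - e a - e b + e a + e b = y := by
      rw [add_right_comm, e1, e2]
    have e4 : y - e a - e b + e a = y - e b := by
      have h5 : y - e a - e b + e a + e b - e b = y - e b := by rw [e3]
      rw [add_sub_e] at h5
      exact h5
    rw [e3, e4, e1]
    ring

end Vale.Agent.Lib.P328
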