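import Vale.Agent.Lib.P328.Phi
import Vale.Agent.Lib.P328.Level

/-!
P328, module IdentA: detailed balance on the fibre.
-/

namespace Vale.Agent.Lib.P328

open Finset

variable {J : Type} [Fintype J] [DecidableEq J]

theorem psi_pos (s T T' : J → ℕ) (l : J) (v : ℕ) : 0 < psi s T T' l v :=
  mul_pos (phi_pos _ _) (phi_pos _ _)

theorem wt_pos (s T T' : J → ℕ) (v : J → ℕ) : 0 < wt (psi s T T') v :=
  Finset.prod_pos fun l _ => psi_pos s T T' l (v l)

/-- detailed balance: moving a unit of column `a` from the centre row to the leaf row -/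
theorem wt_add (s T T' : J → ℕ) {x : J → ℕ} {a : J} (ha : x a < s a) :
    wt (psi s T T') x * gr (T a) (s a - x a) =
      wt (psi s T T') (x + e a) * gr (T' a) (x a + 1) := by
  obtain ⟨m, hm⟩ : ∃ m, s a - x a = m + 1 := ⟨s a - x a - 1, by omega⟩
  have hm' : s a - (x a + 1) = m := by omega
  unfold wt
  rw [← Finset.mul_prod_erase Finset.univ (fun l => psi s T T' l (x l)) (Finset.mem_univ a),
    ← Finset.mul_prod_erase Finset.univ (fun l => psi s T T' l ((x + e a) l))
      (Finset.mem_univ a)]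
  have h1 : ∏ l ∈ Finset.univ.erase a, psi s T T' l ((x + e a) l) =
      ∏ l ∈ Finset.univ.erase a, psi s T T' l (x l) := by
    refine Finset.prod_congr rfl fun l hl => ?_
    rw [Pi.add_apply, e_ne (Finset.ne_of_mem_erase hl), add_zero]
  have h2 : (x + e a) a = x a + 1 := by rw [Pi.add_apply, e_same]
  rw [h1, h2]
  unfold psi
  rw [hm', hm]
  have h3 := gr_succ_mul (T a) m
  have h4 := gr_succ_mul (T' a) (x a)
  calc phi (T a) (m + 1) * phi (T' a) (x a) *
        (∏ l ∈ Finset.univ.erase a, phi (T l) (s l - x l) * phi (T' l) (x l)) * gr (T a) (m + 1)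
      = (gr (T a) (m + 1) * phi (T a) (m + 1)) * phi (T' a) (x a) *
        (∏ l ∈ Finset.univ.erase a, phi (T l) (s l - x l) * phi (T' l) (x l)) := by ring
    _ = phi (T a) m * (gr (T' a) (x a + 1) * phi (T' a) (x a + 1)) *
        (∏ l ∈ Finset.univ.erase a, phi (T l) (s l - x l) * phi (T' l) (x l)) := by rw [h3, h4]
    _ = _ := by ring

/-- consequently the weights of neighbours are comparable: `wt x ≤ 3 wt (x + e_a)` and conversely -/
theorem wt_le_add (s T T' : J → ℕ) {x : J → ℕ} {a : J} (ha : x a < s a) :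
    wt (psi s T T') x ≤ 3 * wt (psi s T T') (x + e a) := by
  have h1 := wt_add s T T' ha
  have h2 : 1 / 3 ≤ gr (T a) (s a - x a) := third_le_gr _ (by omega)
  have h3 : gr (T' a) (x a + 1) ≤ 1 := gr_le_one _ _
  have h4 := mul_le_mul_of_nonneg_left h2 (wt_pos s T T' x).le
  have h5 := mul_le_mul_of_nonneg_left h3 (wt_pos s T T' (x + e a)).le
  linarith

/-- `Q'(w) > 0` for `w ≠ 0` -/
theorem QQ_pos (T' : J → ℕ) {w : J → ℕ} (hw : w ≠ 0) : 0 < QQ T' w := by
  obtain ⟨a, ha⟩ := Function.ne_iff.mp hw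
  exact Finset.sum_pos' (fun b _ => gr_nonneg _ _) ⟨a, Finset.mem_univ a, gr_pos _ ha⟩

end Vale.Agent.Lib.P328
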