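import Vale.Agent.Lib.P328.Phi

/-!
P328, module RampAvg: on a line the average of the weight is at least `1/19683` of its maximum.
-/

namespace Vale.Agent.Lib.P328

open Finset

/-- product of two increasing and two decreasing ramps on `[0, M]` -/
noncomputable def ramp4 (T₁ T₂ T₃ T₄ a₁ a₂ a₃ a₄ M u : ℕ) : ℝ :=
  phi T₁ (a₁ + u) * phi T₂ (a₂ + u) * (phi T₃ (a₃ + (M - u)) * phi T₄ (a₄ + (M - u)))

theorem rampAvg_ninth (T a u M : ℕ) (hu : u ≤ M) (h : M + 1 ≤ 3 * (u + 1)) :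
    phi T (a + M) ≤ 9 * phi T (a + u) := by
  have h1 := phi_ratio T (a := a + u) (b := a + M) (by omega)
  have hp := phi_pos T (a + u)
  have h2 : ((a + M : ℕ) : ℝ) + 1 ≤ 3 * (((a + u : ℕ) : ℝ) + 1) := by
    have : a + M + 1 ≤ 3 * (a + u + 1) := by omega
    exact_mod_cast this
  have h3 : ((a + M : ℕ) : ℝ) + 2 ≤ 3 * (((a + u : ℕ) : ℝ) + 2) := by
    have : a + M + 2 ≤ 3 * (a + u + 2) := by omega
    exact_mod_cast this
  have h4 : (((a + M : ℕ) : ℝ) + 1) * (((a + M : ℕ) : ℝ) + 2) ≤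
      9 * ((((a + u : ℕ) : ℝ) + 1) * (((a + u : ℕ) : ℝ) + 2)) := by
    calc (((a + M : ℕ) : ℝ) + 1) * (((a + M : ℕ) : ℝ) + 2)
        ≤ (3 * (((a + u : ℕ) : ℝ) + 1)) * (3 * (((a + u : ℕ) : ℝ) + 2)) :=
          mul_le_mul h2 h3 (by positivity) (by positivity)
      _ = _ := by ring
  have h5 : (0 : ℝ) < (((a + u : ℕ) : ℝ) + 1) * (((a + u : ℕ) : ℝ) + 2) := by positivity
  have h6 : phi T (a + M) * ((((a + u : ℕ) : ℝ) + 1) * (((a + u : ℕ) : ℝ) + 2)) ≤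
      (9 * phi T (a + u)) * ((((a + u : ℕ) : ℝ) + 1) * (((a + u : ℕ) : ℝ) + 2)) := by
    calc _ ≤ phi T (a + u) * ((((a + M : ℕ) : ℝ) + 1) * (((a + M : ℕ) : ℝ) + 2)) := h1
      _ ≤ phi T (a + u) *
          (9 * ((((a + u : ℕ) : ℝ) + 1) * (((a + u : ℕ) : ℝ) + 2))) :=
          mul_le_mul_of_nonneg_left h4 hp.le
      _ = _ := by ring
  exact le_of_mul_le_mul_right h6 h5

theorem rampAvg_mul4 {a b c d a' b' c' d' : ℝ} (ha : 0 ≤ a) (hb : 0 ≤ b) (hc : 0 ≤ c)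
    (hd : 0 ≤ d) (h1 : a ≤ a') (h2 : b ≤ b') (h3 : c ≤ c') (h4 : d ≤ d') :
    a * b * (c * d) ≤ a' * b' * (c' * d') :=
  mul_le_mul (mul_le_mul h1 h2 hb (ha.trans h1)) (mul_le_mul h3 h4 hd (hc.trans h3))
    (mul_nonneg hc hd) (mul_nonneg (ha.trans h1) (hb.trans h2))

/-- Proof: let `m = phi T₁ (a₁+M) phi T₂ (a₂+M) phi T₃ (a₃+M) phi T₄ (a₄+M)`, an upper bound for every
value (`phi_mono`).  For `u ≤ M` with `M + 1 ≤ 3 (u+1)` and `M + 1 ≤ 3 (M - u + 1)` every factor is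
at least `1/9` of its maximum by `phi_ratio`, so the value is at least `m / 6561`; at least
`(M+1)/3` of the `u` satisfy both conditions. -/
theorem ramp_avg (T₁ T₂ T₃ T₄ a₁ a₂ a₃ a₄ M : ℕ) {v : ℕ} (hv : v ≤ M) :
    ramp4 T₁ T₂ T₃ T₄ a₁ a₂ a₃ a₄ M v * ((M : ℝ) + 1) ≤
      19683 * ∑ u ∈ range (M + 1), ramp4 T₁ T₂ T₃ T₄ a₁ a₂ a₃ a₄ M u := by
  obtain ⟨m, hm⟩ : ∃ m : ℝ, m = phi T₁ (a₁ + M) * phi T₂ (a₂ + M) *
      (phi T₃ (a₃ + M) * phi T₄ (a₄ + M)) := ⟨_, rfl⟩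
  have hmp : 0 < m := by
    rw [hm]
    exact mul_pos (mul_pos (phi_pos _ _) (phi_pos _ _)) (mul_pos (phi_pos _ _) (phi_pos _ _))
  have hub : ramp4 T₁ T₂ T₃ T₄ a₁ a₂ a₃ a₄ M v ≤ m := by
    rw [hm]
    unfold ramp4
    exact rampAvg_mul4 (phi_pos _ _).le (phi_pos _ _).le (phi_pos _ _).le (phi_pos _ _).le
      (phi_mono _ (by omega)) (phi_mono _ (by omega)) (phi_mono _ (by omega))
      (phi_mono _ (by omega))
  have hpos : ∀ u, 0 ≤ ramp4 T₁ T₂ T₃ T₄ a₁ a₂ a₃ a₄ M u := by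
    intro u
    unfold ramp4
    exact mul_nonneg (mul_nonneg (phi_pos _ _).le (phi_pos _ _).le)
      (mul_nonneg (phi_pos _ _).le (phi_pos _ _).le)
  have hlow : ∀ u, u ≤ M → M + 1 ≤ 3 * (u + 1) → M + 1 ≤ 3 * (M - u + 1) →
      m / 6561 ≤ ramp4 T₁ T₂ T₃ T₄ a₁ a₂ a₃ a₄ M u := by
    intro u hu h1 h2
    have h3 := rampAvg_ninth T₁ a₁ u M hu h1
    have h4 := rampAvg_ninth T₂ a₂ u M hu h1
    have h5 := rampAvg_ninth T₃ a₃ (M - u) M (Nat.sub_le _ _) h2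
    have h6 := rampAvg_ninth T₄ a₄ (M - u) M (Nat.sub_le _ _) h2
    have h7 := rampAvg_mul4 (phi_pos T₁ (a₁ + M)).le (phi_pos T₂ (a₂ + M)).le
      (phi_pos T₃ (a₃ + M)).le (phi_pos T₄ (a₄ + M)).le h3 h4 h5 h6
    rw [← hm] at h7
    rw [div_le_iff₀ (by norm_num)]
    unfold ramp4
    linarith
  obtain ⟨q, hq⟩ : ∃ q : ℕ, q = (M + 3) / 3 := ⟨_, rfl⟩
  have hq1 : 3 * q ≤ M + 3 := by omega
  have hq2 : M + 1 ≤ 3 * q := by omega
  have hq3 : 1 ≤ q := by omega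
  have hsub : Finset.Icc (q - 1) (M + 1 - q) ⊆ range (M + 1) := by
    intro u hu
    rw [Finset.mem_Icc] at hu
    rw [Finset.mem_range]
    omega
  have hsum : (Finset.Icc (q - 1) (M + 1 - q)).card • (m / 6561) ≤
      ∑ u ∈ range (M + 1), ramp4 T₁ T₂ T₃ T₄ a₁ a₂ a₃ a₄ M u := by
    refine (Finset.card_nsmul_le_sum _ _ _ ?_).trans
      (Finset.sum_le_sum_of_subset_of_nonneg hsub (fun u _ _ => hpos u))
    intro u hu
    rw [Finset.mem_Icc] at hu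
    exact hlow u (by omega) (by omega) (by omega)
  have hcard : ((M : ℝ) + 1) / 3 ≤ ((Finset.Icc (q - 1) (M + 1 - q)).card : ℝ) := by
    rw [Nat.card_Icc]
    have h : M + 1 ≤ 3 * (M + 1 - q + 1 - (q - 1)) := by omega
    have h' : ((M : ℝ) + 1) ≤ 3 * ((M + 1 - q + 1 - (q - 1) : ℕ) : ℝ) := by exact_mod_cast h
    linarith
  rw [nsmul_eq_mul] at hsum
  have hM : (0 : ℝ) ≤ (M : ℝ) + 1 := by positivity
  calc ramp4 T₁ T₂ T₃ T₄ a₁ a₂ a₃ a₄ M v * ((M : ℝ) + 1) ≤ m * ((M : ℝ) + 1) :=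
        mul_le_mul_of_nonneg_right hub hM
    _ = 19683 * (((M : ℝ) + 1) / 3 * (m / 6561)) := by ring
    _ ≤ 19683 * (((Finset.Icc (q - 1) (M + 1 - q)).card : ℝ) * (m / 6561)) := by
        apply mul_le_mul_of_nonneg_left _ (by norm_num)
        exact mul_le_mul_of_nonneg_right hcard (by positivity)
    _ ≤ _ := mul_le_mul_of_nonneg_left hsum (by norm_num)

end Vale.Agent.Lib.P328
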