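import Vale.Agent.Lib.P328.LineA
import Vale.Agent.Lib.P328.RampAvg

/-!
P328, module Line: weights along a line.
-/

namespace Vale.Agent.Lib.P328

open Finset

variable {I J : Type} [Fintype I] [DecidableEq I] [Fintype J] [DecidableEq J]

private theorem line_phi_pos (T z : ℕ) : 0 < phi T z := by
  unfold phi
  positivity

/-- the four cells of the minor -/
private def lineS (o k : I) (l l' : J) : Finset (I × J) := {(k, l), (o, l'), (k, l'), (o, l)}

private theorem line_prod (τ : I → J → ℕ) {o k : I} (hk : k ≠ o) {l l' : J} (hl : l ≠ l')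
    (Y : I → J → ℕ) :
    tw τ Y = (∏ p ∈ univ \ lineS o k l l', phi (τ p.1 p.2) (Y p.1 p.2)) *
      (phi (τ k l) (Y k l) * phi (τ o l') (Y o l') *
        (phi (τ k l') (Y k l') * phi (τ o l) (Y o l))) := by
  have h1 : tw τ Y = ∏ p : I × J, phi (τ p.1 p.2) (Y p.1 p.2) := by
    unfold tw
    rw [← univ_product_univ, prod_product]
  rw [h1, ← prod_sdiff (subset_univ (lineS o k l l'))]
  congr 1
  unfold lineS
  rw [prod_insert, prod_insert, prod_insert, prod_singleton]
  · ring
  · simp [hk]
  · simp [hk.symm, hl.symm]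
  · simp [hk, hl]

private theorem line_off {o k : I} (hk : k ≠ o) {l l' : J} (hl : l ≠ l') (X : I → J → ℕ) (u : ℕ)
    {p : I × J} (hp : p ∈ univ \ lineS o k l l') :
    linePt X o k l l' u p.1 p.2 = X p.1 p.2 := by
  obtain ⟨i, j⟩ := p
  simp only [lineS, mem_sdiff, mem_univ, true_and, mem_insert, mem_singleton, Prod.mk.injEq,
    not_or, not_and] at hp
  obtain ⟨h1, h2, h3, h4⟩ := hp
  simp only [linePt]
  by_cases hik : i = k
  · subst hik
    simp only [Function.update_self]
    rw [Function.update_of_ne (h3 rfl), Function.update_of_ne (h1 rfl)]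
  · rw [Function.update_of_ne hik]
    by_cases hio : i = o
    · subst hio
      simp only [Function.update_self]
      rw [Function.update_of_ne (h2 rfl), Function.update_of_ne (h4 rfl)]
    · rw [Function.update_of_ne hio]

private theorem line_kl {o k : I} {l l' : J} (hl : l ≠ l') (X : I → J → ℕ) (u : ℕ) :
    linePt X o k l l' u k l = (X k l - X o l') + u := by
  simp [linePt, Function.update_of_ne hl]

private theorem line_kl' {o k : I} {l l' : J} (X : I → J → ℕ) (u : ℕ) :
    linePt X o k l l' u k l' = X k l + X k l' - ((X k l - X o l') + u) := by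
  simp [linePt]

private theorem line_ol {o k : I} (hk : k ≠ o) {l l' : J} (hl : l ≠ l') (X : I → J → ℕ) (u : ℕ) :
    linePt X o k l l' u o l = X o l + X k l - ((X k l - X o l') + u) := by
  simp [linePt, Function.update_of_ne hk.symm, Function.update_of_ne hl]

private theorem line_ol' {o k : I} (hk : k ≠ o) {l l' : J} (X : I → J → ℕ) (u : ℕ) :
    linePt X o k l l' u o l' = X o l' + ((X k l - X o l') + u) - X k l := by
  simp [linePt, Function.update_of_ne hk.symm]

/-- explicit form -/
private theorem line_form (τ : I → J → ℕ) {o k : I} (hk : k ≠ o) {l l' : J} (hl : l ≠ l')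
    (X : I → J → ℕ) {u : ℕ} (hu : u ≤ lineM X o k l l') :
    tw τ (linePt X o k l l' u) =
      (∏ p ∈ univ \ lineS o k l l', phi (τ p.1 p.2) (X p.1 p.2)) *
      ramp4 (τ k l) (τ o l') (τ k l') (τ o l) (X k l - X o l') (X o l' - X k l)
        (X k l' - X o l) (X o l - X k l') (lineM X o k l l') u := by
  rw [line_prod τ hk hl, line_kl hl, line_kl', line_ol hk hl, line_ol' hk]
  unfold ramp4
  unfold lineM at hu ⊢
  congr 1
  · exact prod_congr rfl fun p hp => by rw [line_off hk hl X u hp]
  · have e1 : X o l' + ((X k l - X o l') + u) - X k l = X o l' - X k l + u := by omega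
    have e2 : X k l + X k l' - ((X k l - X o l') + u) =
        X k l' - X o l + (min (X k l) (X o l') + min (X o l) (X k l') - u) := by omega
    have e3 : X o l + X k l - ((X k l - X o l') + u) =
        X o l - X k l' + (min (X k l) (X o l') + min (X o l) (X k l') - u) := by omega
    rw [e1, e2, e3]

/-- along a line the weight is a constant times a `ramp4` -/
theorem tw_line (τ : I → J → ℕ) {o k : I} (hk : k ≠ o) {l l' : J} (hl : l ≠ l')
    (X : I → J → ℕ) :
    ∃ κ : ℝ, 0 < κ ∧ ∃ T₁ T₂ T₃ T₄ a₁ a₂ a₃ a₄ : ℕ, ∀ u ≤ lineM X o k l l',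
      tw τ (linePt X o k l l' u) = κ * ramp4 T₁ T₂ T₃ T₄ a₁ a₂ a₃ a₄ (lineM X o k l l') u :=
  ⟨_, prod_pos fun _ _ => line_phi_pos _ _, _, _, _, _, _, _, _, _,
    fun _ hu => line_form τ hk hl X hu⟩

/-- hence the average over the line is at least `1/19683` of the weight of any of its points
(`class_line`, `tw_line`, `ramp_avg`, `linePt_self`) -/
theorem class_weight (τ : I → J → ℕ) {r : I → ℕ} {c : J → ℕ} {o k : I} (hk : k ≠ o)
    {l l' : J} (hl : l ≠ l') {X : I → J → ℕ} (hX : X ∈ tab r c) :
    tw τ X * ((lineM X o k l l' : ℝ) + 1) ≤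
      19683 * ∑ Y ∈ (tab r c).filter (fun Y => piL o k l l' Y = piL o k l l' X), tw τ Y := by
  obtain ⟨κ, hκ, T₁, T₂, T₃, T₄, a₁, a₂, a₃, a₄, h⟩ := tw_line τ hk hl X
  rw [class_line hk hl hX, sum_image fun u _ v _ huv => linePt_inj hk hl X huv]
  have hv : min (X k l) (X o l') ≤ lineM X o k l l' := by
    unfold lineM
    omega
  have h1 := h _ hv
  rw [linePt_self hk hl] at h1
  have h2 : ∑ u ∈ range (lineM X o k l l' + 1), tw τ (linePt X o k l l' u) =
      κ * ∑ u ∈ range (lineM X o k l l' + 1),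
        ramp4 T₁ T₂ T₃ T₄ a₁ a₂ a₃ a₄ (lineM X o k l l') u := by
    rw [mul_sum]
    exact sum_congr rfl fun u hu => h u (by
      rw [mem_range] at hu
      omega)
  rw [h1, h2]
  have h3 := mul_le_mul_of_nonneg_left
    (ramp_avg T₁ T₂ T₃ T₄ a₁ a₂ a₃ a₄ (lineM X o k l l') hv) hκ.le
  calc _ = κ * (ramp4 T₁ T₂ T₃ T₄ a₁ a₂ a₃ a₄ (lineM X o k l l') (min (X k l) (X o l')) *
        ((lineM X o k l l' : ℝ) + 1)) := by ring
    _ ≤ _ := h3
    _ = _ := by ring

end Vale.Agent.Lib.P328
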