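import Vale.Agent.Lib.P328.ChainDefs
import Vale.Agent.Lib.P328.TabBase

/-!
P328, module LineA: geometry of the lines of the chain.
-/

namespace Vale.Agent.Lib.P328

open Finset

variable {I J : Type} [Fintype I] [DecidableEq I] [Fintype J] [DecidableEq J]

private theorem lineA_sum {K : Type} [Fintype K] [DecidableEq K] (f : K → ℕ) {l l' : K}
    (h : l ≠ l') : ∑ j, f j = f l + f l' + ∑ j ∈ (univ.erase l).erase l', f j := by
  have hm : l' ∈ univ.erase l := Finset.mem_erase.mpr ⟨h.symm, Finset.mem_univ _⟩
  rw [← Finset.add_sum_erase univ f (Finset.mem_univ l), ← Finset.add_sum_erase _ f hm, add_assoc]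

private theorem lineA_sum_eq {K : Type} [Fintype K] [DecidableEq K] {f g : K → ℕ} {l l' : K}
    (h : l ≠ l') (hfg : ∀ j, j ≠ l → j ≠ l' → f j = g j) :
    ∑ j, f j = ∑ j, g j ↔ f l + f l' = g l + g l' := by
  rw [lineA_sum f h, lineA_sum g h]
  have : ∑ j ∈ (univ.erase l).erase l', f j = ∑ j ∈ (univ.erase l).erase l', g j := by
    refine Finset.sum_congr rfl fun j hj => ?_
    rw [Finset.mem_erase, Finset.mem_erase] at hj
    exact hfg j hj.2.1 hj.1
  rw [this]
  omega

private theorem lineA_kl {o k : I} {l l' : J} (hl : l ≠ l') (X : I → J → ℕ)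
    (u : ℕ) : linePt X o k l l' u k l = (X k l - X o l') + u := by
  unfold linePt
  rw [Function.update_self, Function.update_of_ne hl, Function.update_self]

private theorem lineA_kl' {o k : I} {l l' : J} (X : I → J → ℕ)
    (u : ℕ) : linePt X o k l l' u k l' = X k l + X k l' - ((X k l - X o l') + u) := by
  unfold linePt
  rw [Function.update_self, Function.update_self]

private theorem lineA_ol {o k : I} (hk : k ≠ o) {l l' : J} (hl : l ≠ l') (X : I → J → ℕ)
    (u : ℕ) : linePt X o k l l' u o l = X o l + X k l - ((X k l - X o l') + u) := by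
  unfold linePt
  rw [Function.update_of_ne hk.symm, Function.update_self, Function.update_of_ne hl,
    Function.update_self]

private theorem lineA_ol' {o k : I} (hk : k ≠ o) {l l' : J} (X : I → J → ℕ)
    (u : ℕ) : linePt X o k l l' u o l' = X o l' + ((X k l - X o l') + u) - X k l := by
  unfold linePt
  rw [Function.update_of_ne hk.symm, Function.update_self, Function.update_self]

private theorem lineA_row {o k : I} {l l' : J} (X : I → J → ℕ) (u : ℕ) {i : I} (ho : i ≠ o)
    (hk : i ≠ k) (j : J) : linePt X o k l l' u i j = X i j := by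
  unfold linePt
  rw [Function.update_of_ne hk, Function.update_of_ne ho]

private theorem lineA_col {o k : I} {l l' : J} (X : I → J → ℕ) (u : ℕ) {j : J} (h : j ≠ l)
    (h' : j ≠ l') (i : I) : linePt X o k l l' u i j = X i j := by
  unfold linePt
  by_cases hik : i = k
  · subst hik
    rw [Function.update_self, Function.update_of_ne h', Function.update_of_ne h]
  · rw [Function.update_of_ne hik]
    by_cases hio : i = o
    · subst hio
      rw [Function.update_self, Function.update_of_ne h', Function.update_of_ne h]
    · rw [Function.update_of_ne hio]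

/-- a table is determined by its values on the minor and off it -/
private theorem lineA_ext {o k : I} {l l' : J} {X Y : I → J → ℕ}
    (h1 : X k l = Y k l) (h2 : X k l' = Y k l') (h3 : X o l = Y o l) (h4 : X o l' = Y o l')
    (h5 : ∀ i j, i ≠ o → i ≠ k → X i j = Y i j) (h6 : ∀ i j, j ≠ l → j ≠ l' → X i j = Y i j) :
    X = Y := by
  funext i j
  by_cases hj : j = l
  · subst hj
    by_cases hi : i = k
    · subst hi; exact h1
    · by_cases hi' : i = o
      · subst hi'; exact h3
      · exact h5 i j hi' hi
  · by_cases hj' : j = l'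
    · subst hj'
      by_cases hi : i = k
      · subst hi; exact h2
      · by_cases hi' : i = o
        · subst hi'; exact h4
        · exact h5 i j hi' hi
    · exact h6 i j hj hj'

/-- the points of the line are tables -/
theorem linePt_mem {r : I → ℕ} {c : J → ℕ} {o k : I} (hk : k ≠ o) {l l' : J} (hl : l ≠ l')
    {X : I → J → ℕ} (hX : X ∈ tab r c) {u : ℕ} (hu : u ≤ lineM X o k l l') :
    linePt X o k l l' u ∈ tab r c := by
  rw [mem_tab] at hX ⊢
  unfold lineM at hu
  refine ⟨fun i => ?_, fun j => ?_⟩
  · rw [← hX.1 i]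
    refine (lineA_sum_eq hl fun j h h' => lineA_col X u h h' i).mpr ?_
    by_cases hik : i = k
    · subst hik
      rw [lineA_kl hl, lineA_kl']
      omega
    · by_cases hio : i = o
      · subst hio
        rw [lineA_ol hk hl, lineA_ol' hk]
        omega
      · rw [lineA_row X u hio hik, lineA_row X u hio hik]
  · rw [← hX.2 j]
    refine (lineA_sum_eq (f := fun i => linePt X o k l l' u i j) (g := fun i => X i j) hk
      fun i h h' => lineA_row X u h' h j).mpr ?_
    by_cases hjl : j = l
    · subst hjl
      show linePt X o k j l' u k j + linePt X o k j l' u o j = X k j + X o j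
      rw [lineA_kl hl, lineA_ol hk hl]
      omega
    · by_cases hjl' : j = l'
      · subst hjl'
        show linePt X o k l j u k j + linePt X o k l j u o j = X k j + X o j
        rw [lineA_kl', lineA_ol' hk]
        omega
      · show linePt X o k l l' u k j + linePt X o k l l' u o j = X k j + X o j
        rw [lineA_col X u hjl hjl', lineA_col X u hjl hjl']

/-- the point of number `min (X k l) (X o l')` is `X` itself -/
theorem linePt_self {o k : I} (hk : k ≠ o) {l l' : J} (hl : l ≠ l') (X : I → J → ℕ) :
    linePt X o k l l' (min (X k l) (X o l')) = X := by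
  refine lineA_ext (o := o) (k := k) (l := l) (l' := l') ?_ ?_ ?_ ?_
    (fun i j h h' => lineA_row X _ h h' j) (fun i j h h' => lineA_col X _ h h' i)
  · rw [lineA_kl hl]; omega
  · rw [lineA_kl']; omega
  · rw [lineA_ol hk hl]; omega
  · rw [lineA_ol' hk]; omega

/-- all points of a line see the same line -/
theorem lineM_linePt {o k : I} (hk : k ≠ o) {l l' : J} (hl : l ≠ l') (X : I → J → ℕ) {u : ℕ}
    (hu : u ≤ lineM X o k l l') : lineM (linePt X o k l l' u) o k l l' = lineM X o k l l' := by
  unfold lineM at hu ⊢
  rw [lineA_kl hl, lineA_kl', lineA_ol hk hl, lineA_ol' hk]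
  omega

theorem linePt_linePt {o k : I} (hk : k ≠ o) {l l' : J} (hl : l ≠ l') (X : I → J → ℕ) {u v : ℕ}
    (hu : u ≤ lineM X o k l l') (hv : v ≤ lineM X o k l l') :
    linePt (linePt X o k l l' u) o k l l' v = linePt X o k l l' v := by
  unfold lineM at hu hv
  refine lineA_ext (o := o) (k := k) (l := l) (l' := l') ?_ ?_ ?_ ?_ ?_ ?_
  · rw [lineA_kl hl, lineA_kl hl, lineA_kl hl, lineA_ol' hk]; omega
  · rw [lineA_kl', lineA_kl', lineA_kl hl, lineA_kl', lineA_ol' hk]; omega
  · rw [lineA_ol hk hl, lineA_ol hk hl, lineA_kl hl, lineA_ol hk hl, lineA_ol' hk]; omega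
  · rw [lineA_ol' hk, lineA_ol' hk, lineA_kl hl, lineA_ol' hk]; omega
  · intro i j h h'
    rw [lineA_row _ _ h h', lineA_row _ _ h h', lineA_row _ _ h h']
  · intro i j h h'
    rw [lineA_col _ _ h h', lineA_col _ _ h h', lineA_col _ _ h h']

theorem linePt_inj {o k : I} (hk : k ≠ o) {l l' : J} (hl : l ≠ l') (X : I → J → ℕ) {u v : ℕ}
    (h : linePt X o k l l' u = linePt X o k l l' v) : u = v := by
  have _ := hk
  have h1 : linePt X o k l l' u k l = linePt X o k l l' v k l := by rw [h]
  rw [lineA_kl hl, lineA_kl hl] at h1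
  omega

/-- the class of `X` for the label `piL` is its line -/
theorem class_line {r : I → ℕ} {c : J → ℕ} {o k : I} (hk : k ≠ o) {l l' : J} (hl : l ≠ l')
    {X : I → J → ℕ} (hX : X ∈ tab r c) :
    (tab r c).filter (fun Y => piL o k l l' Y = piL o k l l' X) =
      (range (lineM X o k l l' + 1)).image (linePt X o k l l') := by
  ext Y
  rw [Finset.mem_filter, Finset.mem_image]
  constructor
  · rintro ⟨hY, hpi⟩
    have hoff : ∀ i j, ¬((i = o ∨ i = k) ∧ (j = l ∨ j = l')) → Y i j = X i j := by
      intro i j h
      have := congrFun (congrFun hpi i) j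
      unfold piL at this
      rwa [if_neg h, if_neg h] at this
    have hX' := mem_tab.mp hX
    have hY' := mem_tab.mp hY
    have e1 : Y k l + Y k l' = X k l + X k l' :=
      (lineA_sum_eq hl fun j h h' => hoff k j (by tauto)).mp ((hY'.1 k).trans (hX'.1 k).symm)
    have e2 : Y o l + Y o l' = X o l + X o l' :=
      (lineA_sum_eq hl fun j h h' => hoff o j (by tauto)).mp ((hY'.1 o).trans (hX'.1 o).symm)
    have e3 : Y k l + Y o l = X k l + X o l :=
      (lineA_sum_eq (f := fun i => Y i l) (g := fun i => X i l) hk
        fun i h h' => hoff i l (by tauto)).mp ((hY'.2 l).trans (hX'.2 l).symm)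
    refine ⟨Y k l - (X k l - X o l'), ?_, ?_⟩
    · rw [Finset.mem_range]
      unfold lineM
      omega
    · refine lineA_ext (o := o) (k := k) (l := l) (l' := l') ?_ ?_ ?_ ?_ ?_ ?_
      · rw [lineA_kl hl]; omega
      · rw [lineA_kl']; omega
      · rw [lineA_ol hk hl]; omega
      · rw [lineA_ol' hk]; omega
      · intro i j h h'
        rw [lineA_row _ _ h h']
        exact (hoff i j (by tauto)).symm
      · intro i j h h'
        rw [lineA_col _ _ h h']
        exact (hoff i j (by tauto)).symm
  · rintro ⟨u, hu, rfl⟩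
    rw [Finset.mem_range, Nat.lt_succ_iff] at hu
    refine ⟨linePt_mem hk hl hX hu, ?_⟩
    funext i j
    unfold piL
    by_cases h : (i = o ∨ i = k) ∧ (j = l ∨ j = l')
    · rw [if_pos h, if_pos h]
    · rw [if_neg h, if_neg h]
      by_cases hi : i = o ∨ i = k
      · have hj : ¬(j = l ∨ j = l') := fun hj => h ⟨hi, hj⟩
        push Not at hj
        exact lineA_col X u hj.1 hj.2 i
      · push Not at hi
        exact lineA_row X u hi.1 hi.2 j

end Vale.Agent.Lib.P328
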