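import Vale.Agent.Lib.P328.IdentA

/-!
P328, module LowerA: the functions `u_b`, and `Rt ≤ ∑_b RR_b(u_b)`.
-/

namespace Vale.Agent.Lib.P328

open Finset

variable {J : Type} [Fintype J] [DecidableEq J]

private theorem LowerA_gr_mul_uu (T' : J → ℕ) (h : (J → ℕ) → ℝ) (b : J) (w : J → ℕ) :
    gr (T' b) (w b) * uu T' h b w = gr (T' b) (w b) * (h (w - e b) - DD T' h w) := by
  unfold uu
  by_cases hb : w b = 0
  · rw [hb, gr_zero, zero_mul, zero_mul]
  · rw [if_neg hb]

/-- `∑_b g'_b(w_b) u_b(w) = 0` (definition of `DD`) -/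
theorem uu_sum (T' : J → ℕ) (h : (J → ℕ) → ℝ) (w : J → ℕ) :
    ∑ b, gr (T' b) (w b) * uu T' h b w = 0 := by
  by_cases hw : w = 0
  · apply Finset.sum_eq_zero
    intro b _
    rw [hw, Pi.zero_apply, gr_zero, zero_mul]
  · have hQ : QQ T' w ≠ 0 := (QQ_pos T' hw).ne'
    have h1 : ∑ b, gr (T' b) (w b) * uu T' h b w =
        ∑ b, gr (T' b) (w b) * h (w - e b) - QQ T' w * DD T' h w := by
      rw [QQ, Finset.sum_mul, ← Finset.sum_sub_distrib]
      apply Finset.sum_congr rfl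
      intro b _
      rw [LowerA_gr_mul_uu]
      ring
    rw [h1, DD, mul_div_cancel₀ _ hQ, sub_self]

/-- pointwise consequence: `u_p² ≤ 9 n ∑_{b ≠ p} u_b²` (`1/3 ≤ g' ≤ 1` when `w_p ≠ 0`; if
`w_p = 0` then `u_p = 0`) -/
theorem uu_sq_le (T' : J → ℕ) (h : (J → ℕ) → ℝ) (p : J) (w : J → ℕ) :
    uu T' h p w ^ 2 ≤ 9 * Fintype.card J * ∑ b ∈ univ.erase p, uu T' h b w ^ 2 := by
  have hS : 0 ≤ ∑ b ∈ univ.erase p, uu T' h b w ^ 2 :=
    Finset.sum_nonneg fun b _ => sq_nonneg _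
  by_cases hp : w p = 0
  · have h0 : uu T' h p w = 0 := by
      unfold uu
      rw [if_pos hp]
    rw [h0]
    have : (0 : ℝ) ≤ 9 * Fintype.card J * ∑ b ∈ univ.erase p, uu T' h b w ^ 2 := by positivity
    simpa using this
  · have hsum := uu_sum T' h w
    rw [← Finset.add_sum_erase univ (fun b => gr (T' b) (w b) * uu T' h b w)
      (Finset.mem_univ p)] at hsum
    have hg3 : 1 / 3 ≤ gr (T' p) (w p) := third_le_gr (T' p) hp
    have hcs : (∑ b ∈ univ.erase p, gr (T' b) (w b) * uu T' h b w) ^ 2 ≤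
        (#(univ.erase p) : ℝ) * ∑ b ∈ univ.erase p, (gr (T' b) (w b) * uu T' h b w) ^ 2 :=
      sq_sum_le_card_mul_sum_sq
    have hterm : ∑ b ∈ univ.erase p, (gr (T' b) (w b) * uu T' h b w) ^ 2 ≤
        ∑ b ∈ univ.erase p, uu T' h b w ^ 2 := by
      apply Finset.sum_le_sum
      intro b _
      rw [mul_pow]
      have h1 : gr (T' b) (w b) ^ 2 ≤ 1 :=
        pow_le_one₀ (gr_nonneg _ _) (gr_le_one _ _)
      nlinarith [sq_nonneg (uu T' h b w)]
    have hcard : (#(univ.erase p) : ℝ) ≤ Fintype.card J := by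
      exact_mod_cast (Finset.card_le_univ (univ.erase p))
    have hB : (gr (T' p) (w p) * uu T' h p w) ^ 2 ≤
        Fintype.card J * ∑ b ∈ univ.erase p, uu T' h b w ^ 2 := by
      have e1 : gr (T' p) (w p) * uu T' h p w =
          -∑ b ∈ univ.erase p, gr (T' b) (w b) * uu T' h b w := by linarith
      rw [e1, neg_sq]
      refine hcs.trans ?_
      apply mul_le_mul hcard hterm
      · exact Finset.sum_nonneg fun b _ => sq_nonneg _
      · exact Nat.cast_nonneg _
    have h9 : uu T' h p w ^ 2 ≤ 9 * (gr (T' p) (w p) * uu T' h p w) ^ 2 := by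
      rw [mul_pow]
      have h1 : 1 / 9 ≤ gr (T' p) (w p) ^ 2 := by nlinarith
      nlinarith [sq_nonneg (uu T' h p w)]
    calc uu T' h p w ^ 2 ≤ 9 * (gr (T' p) (w p) * uu T' h p w) ^ 2 := h9
      _ ≤ 9 * (Fintype.card J * ∑ b ∈ univ.erase p, uu T' h b w ^ 2) :=
          mul_le_mul_of_nonneg_left hB (by norm_num)
      _ = 9 * Fintype.card J * ∑ b ∈ univ.erase p, uu T' h b w ^ 2 := by ring

/-- `Rt ≤ ∑_b RR_b(u_b)`.
Proof: `Rt = ∑_w wt w ∑_l gr (T' l) (w l) Gam (T l) (s l - w l) u_l(w)²` by `sum_shift` and `wt_add`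
(`w = x + e l`, `s l - x l = (s l - w l) + 1`), and `gr ≤ 1`. -/
theorem Rt_le (s T T' : J → ℕ) (r : ℕ) (h : (J → ℕ) → ℝ) :
    Rt s T T' r h ≤ ∑ b, RR s T T' b (r + 1) (uu T' h b) := by
  have h1 : Rt s T T' r h = ∑ x ∈ lev s r, ∑ l, (if x l < s l then
      (wt (psi s T T') x * gr (T l) (s l - x l)) *
        (gr (T l) (s l - x l) - gr (T l) (s l - x l - 1)) *
        (h x - DD T' h (x + e l)) ^ 2 else 0) := by
    unfold Rt
    apply Finset.sum_congr rfl
    intro x _
    rw [Finset.mul_sum]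
    apply Finset.sum_congr rfl
    intro l _
    by_cases hl : x l < s l
    · rw [if_pos hl]
      ring
    · rw [if_neg hl]
      have h0 : s l - x l = 0 := by omega
      rw [h0, gr_zero]
      ring
  have h2 : ∑ b, RR s T T' b (r + 1) (uu T' h b) = ∑ w ∈ lev s (r + 1), ∑ l,
      wt (psi s T T') w * Gam (T l) (s l - w l) * uu T' h l w ^ 2 := by
    unfold RR
    rw [Finset.sum_comm]
  rw [h1, h2, sum_shift s r (fun x l => (wt (psi s T T') x * gr (T l) (s l - x l)) *
        (gr (T l) (s l - x l) - gr (T l) (s l - x l - 1)) *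
        (h x - DD T' h (x + e l)) ^ 2)]
  apply Finset.sum_le_sum
  intro w hw
  apply Finset.sum_le_sum
  intro l _
  have hw0 : 0 ≤ wt (psi s T T') w * Gam (T l) (s l - w l) * uu T' h l w ^ 2 :=
    mul_nonneg (mul_nonneg (wt_pos s T T' w).le (Gam_nonneg _ _)) (sq_nonneg _)
  by_cases hl : w l = 0
  · rw [if_pos hl]
    exact hw0
  · rw [if_neg hl]
    have hwl : w l ≤ s l := (mem_lev.1 hw).1 l
    have hxl : (w - e l) l = w l - 1 := by
      simp only [Pi.sub_apply, e_same]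
    have hlt : (w - e l) l < s l := by
      rw [hxl]
      omega
    have hwt := wt_add s T T' hlt
    rw [sub_add_e hl] at hwt
    simp only [sub_add_e hl]
    rw [hwt]
    have e1 : (w - e l) l + 1 = w l := by
      rw [hxl]
      omega
    have e2 : s l - (w - e l) l = s l - w l + 1 := by
      rw [hxl]
      omega
    rw [e1, e2, Nat.add_sub_cancel]
    have e3 : uu T' h l w = h (w - e l) - DD T' h w := by
      unfold uu
      rw [if_neg hl]
    rw [← e3]
    change wt (psi s T T') w * gr (T' l) (w l) * Gam (T l) (s l - w l) * uu T' h l w ^ 2 ≤ _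
    have hg := gr_le_one (T' l) (w l)
    calc wt (psi s T T') w * gr (T' l) (w l) * Gam (T l) (s l - w l) * uu T' h l w ^ 2
        = gr (T' l) (w l) * (wt (psi s T T') w * Gam (T l) (s l - w l) * uu T' h l w ^ 2) := by
          ring
      _ ≤ 1 * (wt (psi s T T') w * Gam (T l) (s l - w l) * uu T' h l w ^ 2) :=
          mul_le_mul_of_nonneg_right hg hw0
      _ = _ := one_mul _

theorem TT_nonneg (s T T' : J → ℕ) (r : ℕ) (h : (J → ℕ) → ℝ) : 0 ≤ TT s T T' r h := by
  unfold TT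
  apply Finset.sum_nonneg
  intro y _
  apply mul_nonneg (wt_pos s T T' y).le
  apply add_nonneg
  · apply Finset.sum_nonneg
    intro a _
    apply Finset.sum_nonneg
    intro b _
    exact mul_nonneg (mul_nonneg (gr_nonneg _ _) (gr_nonneg _ _)) (sq_nonneg _)
  · apply Finset.sum_nonneg
    intro a _
    have hm : gr (T' a) (y a - 1) ≤ gr (T' a) (y a) := gr_mono (T' a) (Nat.sub_le _ _)
    exact mul_nonneg (mul_nonneg (gr_nonneg _ _) (by linarith)) (sq_nonneg _)

theorem EE_nonneg (s T T' : J → ℕ) (ρ : ℕ) (u t : (J → ℕ) → ℝ) : 0 ≤ EE s T T' ρ u t := by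
  unfold EE
  apply Finset.sum_nonneg
  intro y _
  apply mul_nonneg (wt_pos s T T' y).le
  apply Finset.sum_nonneg
  intro a _
  by_cases ha : y a = 0
  · rw [if_pos ha]
  · rw [if_neg ha]
    exact sq_nonneg _

theorem VV_nonneg (s T T' : J → ℕ) (b : J) (ρ : ℕ) (u : (J → ℕ) → ℝ) :
    0 ≤ VV s T T' b ρ u := by
  unfold VV
  apply Finset.sum_nonneg
  intro w _
  exact mul_nonneg (mul_nonneg (wt_pos s T T' w).le (Gam_nonneg _ _)) (sq_nonneg _)

end Vale.Agent.Lib.P328
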