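import Mathlib

/-!
P328, module SymPSD: symmetric positive semidefinite operators.
-/

namespace Vale.Agent.Lib.P328

open Finset

variable {α : Type}

/-- a symmetric positive semidefinite operator on functions, for the weight `w` on `S` -/
structure SymPSD (S : Finset α) (w : α → ℝ) (P : (α → ℝ) → (α → ℝ)) : Prop where
  lin : ∀ (a b : ℝ) (F G : α → ℝ), ∀ x ∈ S,
    P (fun y => a * F y + b * G y) x = a * P F x + b * P G x
  symm : ∀ F G : α → ℝ, ∑ x ∈ S, w x * (G x * P F x) = ∑ x ∈ S, w x * (F x * P G x)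
  psd : ∀ F : α → ℝ, 0 ≤ ∑ x ∈ S, w x * (F x * P F x)

end Vale.Agent.Lib.P328
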