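import Vale.Agent.Lib.P328.Line
import Vale.Agent.Lib.P328.Evar
import Vale.Agent.Lib.P328.SymPSD

/-!
P328, module MetroA: the lazy Metropolis step on a minor.

With `[X] = (tab r c).filter (piL Y = piL X)` (the line of `X`, `lineM X + 1` points, `class_line`),
`Pmin f X = f X / 2 + (∑_{Y ∈ [X]} (acc X Y f Y + (1 - acc X Y) f X)) / (2 (lineM X + 1))`, and
`tw X * acc X Y = min (tw X) (tw Y)`.
-/

namespace Vale.Agent.Lib.P328

open Finset

variable {I J : Type} [Fintype I] [DecidableEq I] [Fintype J] [DecidableEq J]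

theorem metroA_sum_class {r : I → ℕ} {c : J → ℕ} {o k : I} (hk : k ≠ o)
    {l l' : J} (hl : l ≠ l') {X : I → J → ℕ} (hX : X ∈ tab r c) (g : (I → J → ℕ) → ℝ) :
    ∑ Y ∈ (tab r c).filter (fun Y => piL o k l l' Y = piL o k l l' X), g Y
      = ∑ u ∈ range (lineM X o k l l' + 1), g (linePt X o k l l' u) := by
  rw [class_line hk hl hX, Finset.sum_image]
  intro u _ v _ huv
  exact linePt_inj hk hl X huv

theorem metroA_lineM {r : I → ℕ} {c : J → ℕ} {o k : I} (hk : k ≠ o)
    {l l' : J} (hl : l ≠ l') {X Y : I → J → ℕ} (hX : X ∈ tab r c) (hY : Y ∈ tab r c)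
    (h : piL o k l l' Y = piL o k l l' X) : lineM Y o k l l' = lineM X o k l l' := by
  have h1 : Y ∈ (tab r c).filter (fun Y => piL o k l l' Y = piL o k l l' X) :=
    Finset.mem_filter.mpr ⟨hY, h⟩
  rw [class_line hk hl hX] at h1
  obtain ⟨u, hu, rfl⟩ := Finset.mem_image.mp h1
  exact lineM_linePt hk hl X (by rw [Finset.mem_range] at hu; omega)

theorem metroA_acc (τ : I → J → ℕ) (X Y : I → J → ℕ) :
    tw τ X * acc τ X Y = min (tw τ X) (tw τ Y) := by
  unfold acc
  have h := tw_pos τ X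
  rw [mul_min_of_nonneg _ _ h.le, mul_one, mul_div_cancel₀ _ h.ne']

theorem Pmin_eq (τ : I → J → ℕ) {r : I → ℕ} {c : J → ℕ} {o k : I} (hk : k ≠ o)
    {l l' : J} (hl : l ≠ l') (f : (I → J → ℕ) → ℝ) {X : I → J → ℕ} (hX : X ∈ tab r c) :
    Pmin τ o k l l' f X = f X / 2 +
      (∑ Y ∈ (tab r c).filter (fun Y => piL o k l l' Y = piL o k l l' X),
        (acc τ X Y * f Y + (1 - acc τ X Y) * f X)) / (2 * ((lineM X o k l l' : ℝ) + 1)) := by
  rw [metroA_sum_class hk hl hX]
  unfold Pmin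
  rw [if_neg (by simp [hk, hl])]

theorem metroA_sub (τ : I → J → ℕ) {r : I → ℕ} {c : J → ℕ} {o k : I} (hk : k ≠ o)
    {l l' : J} (hl : l ≠ l') (f : (I → J → ℕ) → ℝ) {X : I → J → ℕ} (hX : X ∈ tab r c) :
    tw τ X * (f X * (f X - Pmin τ o k l l' f X)) =
      ∑ Y ∈ tab r c, if piL o k l l' Y = piL o k l l' X then
        min (tw τ X) (tw τ Y) / (2 * ((lineM X o k l l' : ℝ) + 1)) * (f X * (f X - f Y)) else 0 := by
  have hL : (0 : ℝ) < (lineM X o k l l' : ℝ) + 1 := by positivity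
  have hc : ∑ Y ∈ (tab r c).filter (fun Y => piL o k l l' Y = piL o k l l' X), f X
      = ((lineM X o k l l' : ℝ) + 1) * f X := by
    rw [metroA_sum_class hk hl hX, Finset.sum_const, Finset.card_range, nsmul_eq_mul]
    push_cast
    ring
  have h1 : f X - Pmin τ o k l l' f X
      = (∑ Y ∈ (tab r c).filter (fun Y => piL o k l l' Y = piL o k l l' X),
        acc τ X Y * (f X - f Y)) / (2 * ((lineM X o k l l' : ℝ) + 1)) := by
    rw [Pmin_eq τ hk hl f hX]
    have h2 : ∑ Y ∈ (tab r c).filter (fun Y => piL o k l l' Y = piL o k l l' X),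
        (acc τ X Y * f Y + (1 - acc τ X Y) * f X)
        = ((lineM X o k l l' : ℝ) + 1) * f X
          - ∑ Y ∈ (tab r c).filter (fun Y => piL o k l l' Y = piL o k l l' X),
            acc τ X Y * (f X - f Y) := by
      rw [← hc, ← Finset.sum_sub_distrib]
      exact Finset.sum_congr rfl fun Y _ => by ring
    rw [h2]
    field_simp
    ring
  rw [h1, ← Finset.sum_filter, Finset.sum_div, Finset.mul_sum, Finset.mul_sum]
  refine Finset.sum_congr rfl fun Y _ => ?_
  rw [← metroA_acc]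
  ring

/-- `∑ tw f (f - Pmin f) = ∑_X ∑_{Y ∈ [X]} min (tw X) (tw Y) (f X - f Y)² / (4 (lineM X + 1))` -/
theorem Pmin_form (τ : I → J → ℕ) (r : I → ℕ) (c : J → ℕ) {o k : I} (hk : k ≠ o)
    {l l' : J} (hl : l ≠ l') (f : (I → J → ℕ) → ℝ) :
    ∑ X ∈ tab r c, tw τ X * (f X * (f X - Pmin τ o k l l' f X)) =
      ∑ X ∈ tab r c, (∑ Y ∈ (tab r c).filter (fun Y => piL o k l l' Y = piL o k l l' X),
        min (tw τ X) (tw τ Y) * (f X - f Y) ^ 2) / (4 * ((lineM X o k l l' : ℝ) + 1)) := by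
  have hA : ∑ X ∈ tab r c, tw τ X * (f X * (f X - Pmin τ o k l l' f X))
      = ∑ X ∈ tab r c, ∑ Y ∈ tab r c, if piL o k l l' Y = piL o k l l' X then
        min (tw τ X) (tw τ Y) / (2 * ((lineM X o k l l' : ℝ) + 1)) * (f X * (f X - f Y)) else 0 :=
    Finset.sum_congr rfl fun X hX => metroA_sub τ hk hl f hX
  have hB : ∑ X ∈ tab r c, tw τ X * (f X * (f X - Pmin τ o k l l' f X))
      = ∑ X ∈ tab r c, ∑ Y ∈ tab r c, if piL o k l l' Y = piL o k l l' X then
        min (tw τ X) (tw τ Y) / (2 * ((lineM X o k l l' : ℝ) + 1)) * (f Y * (f Y - f X)) else 0 := by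
    rw [hA, Finset.sum_comm]
    refine Finset.sum_congr rfl fun X hX => Finset.sum_congr rfl fun Y hY => ?_
    by_cases h : piL o k l l' Y = piL o k l l' X
    · rw [if_pos h, if_pos h.symm, metroA_lineM hk hl hX hY h, min_comm]
    · rw [if_neg h, if_neg fun h' => h h'.symm]
  have hC : ∑ X ∈ tab r c, (∑ Y ∈ (tab r c).filter (fun Y => piL o k l l' Y = piL o k l l' X),
        min (tw τ X) (tw τ Y) * (f X - f Y) ^ 2) / (4 * ((lineM X o k l l' : ℝ) + 1))
      = ((∑ X ∈ tab r c, ∑ Y ∈ tab r c, if piL o k l l' Y = piL o k l l' X then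
        min (tw τ X) (tw τ Y) / (2 * ((lineM X o k l l' : ℝ) + 1)) * (f X * (f X - f Y)) else 0)
        + (∑ X ∈ tab r c, ∑ Y ∈ tab r c, if piL o k l l' Y = piL o k l l' X then
        min (tw τ X) (tw τ Y) / (2 * ((lineM X o k l l' : ℝ) + 1)) * (f Y * (f Y - f X)) else 0))
          / 2 := by
    rw [← Finset.sum_add_distrib, Finset.sum_div]
    refine Finset.sum_congr rfl fun X _ => ?_
    rw [← Finset.sum_add_distrib, Finset.sum_div, Finset.sum_div, Finset.sum_filter]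
    refine Finset.sum_congr rfl fun Y _ => ?_
    have hL : (0 : ℝ) < (lineM X o k l l' : ℝ) + 1 := by positivity
    by_cases h : piL o k l l' Y = piL o k l l' X
    · rw [if_pos h, if_pos h, if_pos h]
      field_simp
      ring
    · rw [if_neg h, if_neg h, if_neg h]
      simp
  rw [hC, ← hA, ← hB]
  ring

end Vale.Agent.Lib.P328
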