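import Vale.Agent.Lib.P328.ChainDefs

/-!
P328, module Numeric: the number of steps.
-/

namespace Vale.Agent.Lib.P328

open Finset

/-- the scale ratio -/
def Ksc (m n A : ℕ) : ℕ := 16 * n * Qsc m n A

private theorem numeric_size (N : ℕ) : Nat.size (N + 2) ≤ Nat.size N + 2 := by
  rw [Nat.size_le]
  have h := Nat.lt_size_self N
  have h1 : 1 ≤ 2 ^ Nat.size N := Nat.one_le_two_pow
  rw [pow_add]
  omega

private theorem numeric_K {m n A b : ℕ} (hm : m ≤ b) (hn : n ≤ b) (hmn : m + n ≤ b) (hA : A ≤ b)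
    (hb : 5 ≤ b) : Ksc m n A ≤ b ^ 19 := by
  unfold Ksc Qsc
  have h1 : 16 ≤ b ^ 2 := by
    calc 16 ≤ 5 ^ 2 := by norm_num
      _ ≤ b ^ 2 := Nat.pow_le_pow_left hb 2
  have h2 : 1024 ≤ b ^ 5 := by
    calc 1024 ≤ 5 ^ 5 := by norm_num
      _ ≤ b ^ 5 := Nat.pow_le_pow_left hb 5
  calc 16 * n * (1024 * (m * n) ^ 4 * (m + n) * A ^ 2) ≤
      b ^ 2 * b * (b ^ 5 * (b * b) ^ 4 * b * b ^ 2) := by gcongr
    _ = b ^ 19 := by ring

private theorem numeric_R {m n A N b : ℕ} (hm : m ≤ b) (hn : n ≤ b) (hmn : m + n ≤ b)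
    (hA : A ≤ b) (hb : 5 ≤ b) (hN : Nat.size (N + 2) ≤ b) :
    (39366 * (m * n ^ 2) *
      (1 + 10 ^ 24 * (n : ℝ) ^ 2 * (Ksc m n A : ℝ) ^ 3 * (Nat.size (N + 2) : ℝ))) ≤
      (b : ℝ) ^ 106 := by
  have hK := numeric_K hm hn hmn hA hb
  have h1 : 39366 ≤ b ^ 7 := by
    calc 39366 ≤ 5 ^ 7 := by norm_num
      _ ≤ b ^ 7 := Nat.pow_le_pow_left hb 7
  have h2 : 10 ^ 24 ≤ b ^ 35 := by
    calc 10 ^ 24 ≤ 5 ^ 35 := by norm_num
      _ ≤ b ^ 35 := Nat.pow_le_pow_left hb 35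
  have h3 : 39366 * (m * n ^ 2) * (1 + 10 ^ 24 * n ^ 2 * (Ksc m n A) ^ 3 * Nat.size (N + 2)) ≤
      b ^ 106 := by
    calc 39366 * (m * n ^ 2) * (1 + 10 ^ 24 * n ^ 2 * (Ksc m n A) ^ 3 * Nat.size (N + 2))
        ≤ b ^ 7 * (b * b ^ 2) * (b ^ 95 + b ^ 35 * b ^ 2 * (b ^ 19) ^ 3 * b) := by
          gcongr
          exact Nat.one_le_pow _ _ (by omega)
      _ = b ^ 10 * (2 * b ^ 95) := by ring
      _ ≤ b ^ 10 * (b * b ^ 95) := by
          gcongr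
          omega
      _ = b ^ 106 := by ring
  exact_mod_cast h3

/-- Numerical part: with `b = m + n + A + Nat.size N + 2`, `lam` the bound for the gap,
`(1 - lam)^t * (N+1)^(mn) * (N+2)^(2mn) ≤ 1/(2A)²` for `t ≥ b^a`.
Proof: `N + 2 ≤ 2^b`, so the product is at most `2^(3 m n b) ≤ 2^(3 b^3)`; `1/lam ≤ b^(a₀)` for an
absolute `a₀` (`10^24 ≤ 2^80 ≤ b^80`, `Ksc ≤ b^30`, …); `(1-lam)^t ≤ exp (- lam t)`, and
`lam t ≥ b^10 ≥ 3 b^3 + 2 b` suffices. -/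
theorem numeric : ∃ a : ℕ, ∀ (m n A N t : ℕ) (lam : ℝ), 1 ≤ m → 1 ≤ n → 1 ≤ A →
    steps a m n N A ≤ t →
    lam = 1 / (39366 * (m * n ^ 2) *
      (1 + 10 ^ 24 * (n : ℝ) ^ 2 * (Ksc m n A : ℝ) ^ 3 * (Nat.size (N + 2) : ℝ))) →
    0 < lam ∧ lam ≤ 1 ∧
    Real.sqrt ((1 - lam) ^ t * (((N : ℝ) + 1) ^ (m * n) * ((N : ℝ) + 2) ^ (2 * (m * n)))) ≤
      1 / (2 * A) := by
  refine ⟨111, ?_⟩
  intro m n A N t lam hm hn hA ht hlam
  unfold steps at ht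
  obtain ⟨b, hbdef⟩ : ∃ b, b = m + n + A + Nat.size N + 2 := ⟨_, rfl⟩
  rw [← hbdef] at ht
  have hb5 : 5 ≤ b := by omega
  have hsz : Nat.size (N + 2) ≤ b := by
    have := numeric_size N
    omega
  obtain ⟨R, hR⟩ : ∃ R : ℝ, R = 39366 * (m * n ^ 2) *
      (1 + 10 ^ 24 * (n : ℝ) ^ 2 * (Ksc m n A : ℝ) ^ 3 * (Nat.size (N + 2) : ℝ)) := ⟨_, rfl⟩
  rw [← hR] at hlam
  have hRb : R ≤ (b : ℝ) ^ 106 := by
    rw [hR]
    exact numeric_R (m := m) (n := n) (A := A) (N := N) (by omega) (by omega) (by omega)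
      (by omega) hb5 hsz
  have hmR : (1 : ℝ) ≤ (m : ℝ) := by exact_mod_cast hm
  have hnR : (1 : ℝ) ≤ (n : ℝ) := by exact_mod_cast hn
  have hAR : (1 : ℝ) ≤ (A : ℝ) := by exact_mod_cast hA
  have hbR : (5 : ℝ) ≤ (b : ℝ) := by exact_mod_cast hb5
  have hb0 : (0 : ℝ) < (b : ℝ) := by linarith
  have hR1 : 1 ≤ R := by
    have h1 : (1 : ℝ) ≤ m * n ^ 2 := by
      have : (1 : ℝ) ≤ (n : ℝ) ^ 2 := one_le_pow₀ hnR
      nlinarith
    have h0 : (0 : ℝ) ≤ 10 ^ 24 * (n : ℝ) ^ 2 * (Ksc m n A : ℝ) ^ 3 *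
        (Nat.size (N + 2) : ℝ) := by positivity
    rw [hR]
    generalize 10 ^ 24 * (n : ℝ) ^ 2 * (Ksc m n A : ℝ) ^ 3 * (Nat.size (N + 2) : ℝ) = Q at h0
    generalize (m : ℝ) * n ^ 2 = Q' at h1
    nlinarith
  have hR0 : 0 < R := by linarith
  have hlam0 : 0 < lam := by
    rw [hlam]
    positivity
  have hlam1 : lam ≤ 1 := by
    rw [hlam, div_le_one hR0]
    exact hR1
  refine ⟨hlam0, hlam1, ?_⟩
  have hlamb : 1 / (b : ℝ) ^ 106 ≤ lam := by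
    rw [hlam]
    exact one_div_le_one_div_of_le hR0 hRb
  -- number of steps
  have htR : (b : ℝ) ^ 111 ≤ (t : ℝ) := by
    exact_mod_cast ht
  have hlt : (b : ℝ) ^ 5 ≤ lam * t := by
    calc (b : ℝ) ^ 5 = 1 / (b : ℝ) ^ 106 * (b : ℝ) ^ 111 := by
          rw [one_div_mul_eq_div, eq_div_iff (by positivity)]
          ring
      _ ≤ lam * t := mul_le_mul hlamb htR (by positivity) hlam0.le
  have h2b : 2 * (b : ℝ) ^ 4 ≤ lam * t := by
    refine le_trans ?_ hlt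
    have : (b : ℝ) ^ 5 = b * (b : ℝ) ^ 4 := by ring
    rw [this]
    have h4 : 0 < (b : ℝ) ^ 4 := by positivity
    nlinarith
  have hexp : (1 - lam) ^ t ≤ Real.exp (-(2 * (b : ℝ) ^ 4)) := by
    have h1 : 1 - lam ≤ Real.exp (-lam) := by
      have := Real.add_one_le_exp (-lam)
      linarith
    calc (1 - lam) ^ t ≤ (Real.exp (-lam)) ^ t := pow_le_pow_left₀ (by linarith) h1 t
      _ = Real.exp (-(lam * t)) := by
          rw [← Real.exp_nat_mul]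
          ring_nf
      _ ≤ Real.exp (-(2 * (b : ℝ) ^ 4)) := by
          apply Real.exp_le_exp.mpr
          linarith
  -- the product
  have hN2 : (N : ℝ) + 2 ≤ 2 ^ b := by
    have h1 := Nat.lt_size_self (N + 2)
    have h2 : 2 ^ Nat.size (N + 2) ≤ 2 ^ b := Nat.pow_le_pow_right (by norm_num) hsz
    have h3 : N + 2 ≤ 2 ^ b := by omega
    exact_mod_cast h3
  have hprod : ((N : ℝ) + 1) ^ (m * n) * ((N : ℝ) + 2) ^ (2 * (m * n)) ≤
      Real.exp ((b : ℝ) ^ 4) := by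
    have hN0 : (0 : ℝ) ≤ (N : ℝ) := Nat.cast_nonneg _
    have h1 : ((N : ℝ) + 1) ^ (m * n) * ((N : ℝ) + 2) ^ (2 * (m * n)) ≤
        (2 ^ b) ^ (m * n) * (2 ^ b) ^ (2 * (m * n)) := by
      have h2 : (N : ℝ) + 1 ≤ 2 ^ b := by linarith
      gcongr
    refine h1.trans ?_
    have h2 : ((2 : ℝ) ^ b) ^ (m * n) * (2 ^ b) ^ (2 * (m * n)) = 2 ^ (b * (3 * (m * n))) := by
      rw [← pow_add, ← pow_mul]
      ring_nf
    rw [h2]
    have h3 : b * (3 * (m * n)) ≤ b ^ 4 := by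
      have hm' : m ≤ b := by omega
      have hn' : n ≤ b := by omega
      calc b * (3 * (m * n)) ≤ b * (b * (b * b)) := by
            gcongr
            omega
        _ = b ^ 4 := by ring
    calc (2 : ℝ) ^ (b * (3 * (m * n))) ≤ 2 ^ (b ^ 4) := pow_le_pow_right₀ (by norm_num) h3
      _ ≤ (Real.exp 1) ^ (b ^ 4) := by
          apply pow_le_pow_left₀ (by norm_num)
          have := Real.add_one_le_exp (1 : ℝ)
          linarith
      _ = Real.exp ((b : ℝ) ^ 4) := by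
          rw [← Real.exp_nat_mul]
          push_cast
          ring_nf
  -- the right hand side
  have hA2 : (2 * (A : ℝ)) ^ 2 ≤ Real.exp ((b : ℝ) ^ 4) := by
    have h1 : 2 * A ≤ b * b := by
      have hA' : A ≤ b := by omega
      exact Nat.mul_le_mul (by omega) hA'
    have h2 : 2 * (A : ℝ) ≤ (b : ℝ) * b := by exact_mod_cast h1
    have h3 : (2 * (A : ℝ)) ^ 2 ≤ ((b : ℝ) * b) ^ 2 := pow_le_pow_left₀ (by positivity) h2 2
    have h4 : ((b : ℝ) * b) ^ 2 = (b : ℝ) ^ 4 := by ring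
    have h5 := Real.add_one_le_exp ((b : ℝ) ^ 4)
    linarith
  have hfin : (1 - lam) ^ t * (((N : ℝ) + 1) ^ (m * n) * ((N : ℝ) + 2) ^ (2 * (m * n))) ≤
      (1 / (2 * (A : ℝ))) ^ 2 := by
    have h1 : (1 - lam) ^ t * (((N : ℝ) + 1) ^ (m * n) * ((N : ℝ) + 2) ^ (2 * (m * n))) ≤
        Real.exp (-(2 * (b : ℝ) ^ 4)) * Real.exp ((b : ℝ) ^ 4) :=
      mul_le_mul hexp hprod (by positivity) (Real.exp_pos _).le
    refine h1.trans ?_
    rw [← Real.exp_add]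
    have h2 : -(2 * (b : ℝ) ^ 4) + (b : ℝ) ^ 4 = -((b : ℝ) ^ 4) := by ring
    rw [h2, Real.exp_neg, div_pow, one_pow, ← one_div]
    exact one_div_le_one_div_of_le (by positivity) hA2
  calc Real.sqrt ((1 - lam) ^ t * (((N : ℝ) + 1) ^ (m * n) * ((N : ℝ) + 2) ^ (2 * (m * n)))) ≤
      Real.sqrt ((1 / (2 * (A : ℝ))) ^ 2) := Real.sqrt_le_sqrt hfin
    _ = 1 / (2 * (A : ℝ)) := Real.sqrt_sq (by positivity)

end Vale.Agent.Lib.P328
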