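import Vale.Agent.Lib.P328.EncDefs

/-!
P328: the quantities in the statement of the final theorem.
-/

namespace Vale.Agent.Lib.P328

/-- `|Ω(r,c)|`: the number of tables of nonnegative integers with row sums `r`, column sums `c` -/
noncomputable def numTables (r c : List ℕ) : ℕ :=
  Nat.card {X : Fin r.length → Fin c.length → ℕ //
    (∀ i, ∑ j, X i j = r.get i) ∧ ∀ j, ∑ i, X i j = c.get j}

/-- probability, over a uniformly random string `ρ` of `q` bits, that the quotient of the two
numbers in the output `est (x, ρ)` is within relative error `1 / E` of the number of tables -/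
noncomputable def successProb (est : Input × List Bool → ℕ × ℕ) (q : ℕ) (x : Input) : ℝ :=
  (Nat.card {ρ : Fin q → Bool //
    (1 - 1 / (x.E : ℝ)) * numTables x.r x.c ≤
        ((est (x, List.ofFn ρ)).1 : ℝ) / ((est (x, List.ofFn ρ)).2 : ℝ) ∧
      ((est (x, List.ofFn ρ)).1 : ℝ) / ((est (x, List.ofFn ρ)).2 : ℝ) ≤
        (1 + 1 / (x.E : ℝ)) * numTables x.r x.c} : ℝ) / 2 ^ q

end Vale.Agent.Lib.P328
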