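import Vale.Agent.Lib.P328.HBLip

/-!
P328, module PairHB: Lipschitz contraction of the average (path coupling).
-/

namespace Vale.Agent.Lib.P328

open Finset

variable {J : Type} [Fintype J] [DecidableEq J]

private theorem pairHB_pi2 {x : J → ℕ} {a b : J} :
    pi2 a b x = pi2 a b (x - e a + e b) := by
  funext j
  unfold pi2
  by_cases hj : j = a ∨ j = b
  · rw [if_pos hj, if_pos hj]
  · rw [if_neg hj, if_neg hj]
    rw [not_or] at hj
    simp only [Pi.add_apply, Pi.sub_apply]
    rw [e_ne hj.1, e_ne hj.2]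
    rfl

private theorem pairHB_pi2' {x : J → ℕ} {a b : J} :
    pi2 b a x = pi2 b a (x - e a + e b) := by
  funext j
  unfold pi2
  by_cases hj : j = b ∨ j = a
  · rw [if_pos hj, if_pos hj]
  · rw [if_neg hj, if_neg hj]
    rw [not_or] at hj
    simp only [Pi.add_apply, Pi.sub_apply]
    rw [e_ne hj.1, e_ne hj.2]
    rfl

theorem hb_same {ψ : J → ℕ → ℝ} {s : J → ℕ} {r : ℕ}
    {f : (J → ℕ) → ℝ} {x : J → ℕ} {a b : J}
    (hab : a ≠ b) (ha : x a ≠ 0) (hb' : x b < s b) :
    hb ψ s r a b f x = hb ψ s r a b f (x - e a + e b) ∧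
      hb ψ s r b a f x = hb ψ s r b a f (x - e a + e b) := by
  constructor
  · unfold hb cexp
    rw [← pairHB_pi2]
  · unfold hb cexp
    rw [← pairHB_pi2']

/-- contraction: sum over the `n²` ordered pairs, two of them give `0` -/
theorem PP_lip {ψ : J → ℕ → ℝ} {s : J → ℕ} (h : LCW ψ s) {r : ℕ} {C : ℝ} (hC : 0 ≤ C)
    {f : (J → ℕ) → ℝ} (hf : Lip s r C f) :
    Lip s r ((1 - 2 / (Fintype.card J : ℝ) ^ 2) * C) (PP ψ s r f) := by
  intro x hx a b hab ha hb'
  have hcard : (0 : ℝ) < Fintype.card J := by
    have : 0 < Fintype.card J := Fintype.card_pos_iff.2 ⟨a⟩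
    exact_mod_cast this
  set n : ℝ := ((Fintype.card J : ℕ) : ℝ) with hn
  set y := x - e a + e b with hy
  have hn2 : 0 < n ^ 2 := by positivity
  have hdiff : PP ψ s r f x - PP ψ s r f y =
      (∑ p : J × J, (hb ψ s r p.1 p.2 f x - hb ψ s r p.1 p.2 f y)) / n ^ 2 := by
    unfold PP
    rw [← sub_div, Fintype.sum_prod_type, ← Finset.sum_sub_distrib]
    congr 1
    refine Finset.sum_congr rfl fun l _ => ?_
    rw [← Finset.sum_sub_distrib]
  have hne : (a, b) ≠ (b, a) := fun h => hab (congrArg Prod.fst h)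
  have hsame := hb_same (ψ := ψ) (s := s) (r := r) (f := f) hab ha hb'
  have hterm : ∀ p : J × J, |hb ψ s r p.1 p.2 f x - hb ψ s r p.1 p.2 f y| ≤
      C - (if p = (a, b) then C else 0) - (if p = (b, a) then C else 0) := by
    intro p
    by_cases h1 : p = (a, b)
    · rw [if_pos h1, if_neg (by rw [h1]; exact hne), h1]
      show |hb ψ s r a b f x - hb ψ s r a b f y| ≤ _
      rw [hy, ← hsame.1, sub_self, abs_zero]
      linarith
    · by_cases h2 : p = (b, a)
      · rw [if_neg h1, if_pos h2, h2]
        show |hb ψ s r b a f x - hb ψ s r b a f y| ≤ _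
        rw [hy, ← hsame.2, sub_self, abs_zero]
        linarith
      · rw [if_neg h1, if_neg h2]
        have h3 := hb_lip h hC hf p.1 p.2 hx hab ha hb'
        linarith
  have hsum : |∑ p : J × J, (hb ψ s r p.1 p.2 f x - hb ψ s r p.1 p.2 f y)| ≤ (n ^ 2 - 2) * C := by
    refine (Finset.abs_sum_le_sum_abs _ _).trans ((Finset.sum_le_sum fun p _ => hterm p).trans ?_)
    rw [Finset.sum_sub_distrib, Finset.sum_sub_distrib, Finset.sum_ite_eq' Finset.univ,
      Finset.sum_ite_eq' Finset.univ, if_pos (Finset.mem_univ _), if_pos (Finset.mem_univ _),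
      Finset.sum_const, Finset.card_univ, Fintype.card_prod, nsmul_eq_mul]
    push_cast
    rw [← hn]
    linarith
  rw [hdiff, abs_div, abs_of_pos hn2, div_le_iff₀ hn2]
  refine hsum.trans (le_of_eq ?_)
  field_simp

/-- any two points of the level are joined by at most `r` unit moves -/
theorem lip_diam {s : J → ℕ} {r : ℕ} {C : ℝ} (hC : 0 ≤ C) {f : (J → ℕ) → ℝ} (hf : Lip s r C f) :
    ∀ x ∈ lev s r, ∀ y ∈ lev s r, |f x - f y| ≤ r * C := by
  have key : ∀ d : ℕ, ∀ x ∈ lev s r, ∀ y ∈ lev s r, ∑ l, (x l - y l) ≤ d →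
      |f x - f y| ≤ d * C := by
    intro d
    induction d with
    | zero =>
      intro x hx y hy hd
      have h1 : ∑ l, (x l - y l) = 0 := by omega
      rw [Finset.sum_eq_zero_iff] at h1
      have hle : ∀ l ∈ (Finset.univ : Finset J), x l ≤ y l := fun l hl => by
        have := h1 l hl
        omega
      have hsum : ∑ l, x l = ∑ l, y l := by rw [(mem_lev.1 hx).2, (mem_lev.1 hy).2]
      have h2 := (Finset.sum_eq_sum_iff_of_le hle).1 hsum
      have hxy : x = y := funext fun l => h2 l (Finset.mem_univ l)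
      rw [hxy, sub_self, abs_zero]
      simp
    | succ d ih =>
      intro x hx y hy hd
      by_cases hxy : x = y
      · rw [hxy, sub_self, abs_zero]
        positivity
      have hsum : ∑ l, x l = ∑ l, y l := by rw [(mem_lev.1 hx).2, (mem_lev.1 hy).2]
      obtain ⟨a, ha⟩ : ∃ a, y a < x a := by
        by_contra hcon
        push Not at hcon
        exact hxy (funext fun l => (Finset.sum_eq_sum_iff_of_le fun l _ => hcon l).1 hsum l
          (Finset.mem_univ l))
      obtain ⟨b, hb⟩ : ∃ b, x b < y b := by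
        by_contra hcon
        push Not at hcon
        exact hxy (funext fun l => ((Finset.sum_eq_sum_iff_of_le fun l _ => hcon l).1 hsum.symm l
          (Finset.mem_univ l)).symm)
      have hab : a ≠ b := by
        rintro rfl
        omega
      have ha0 : x a ≠ 0 := by omega
      have hbs : x b < s b := lt_of_lt_of_le hb ((mem_lev.1 hy).1 b)
      have hr : r ≠ 0 := by
        intro hr
        have h1 : ∑ l, x l = 0 := by rw [(mem_lev.1 hx).2, hr]
        rw [Finset.sum_eq_zero_iff] at h1
        exact ha0 (h1 a (Finset.mem_univ a))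
      obtain ⟨r', rfl⟩ : ∃ r', r = r' + 1 := ⟨r - 1, by omega⟩
      have hx1 : x - e a ∈ lev s r' := sub_e_mem hx ha0
      have hxa : (x - e a) b = x b := by
        rw [Pi.sub_apply, e_ne hab.symm]
        rfl
      have hx2 : x - e a + e b ∈ lev s (r' + 1) := add_e_mem hx1 (by rw [hxa]; exact hbs)
      have hdist : ∑ l, ((x - e a + e b) l - y l) ≤ d := by
        have h1 : ∑ l, (((x - e a + e b) l - y l) + e a l) ≤ ∑ l, (x l - y l) := by
          refine Finset.sum_le_sum fun l _ => ?_
          simp only [Pi.add_apply, Pi.sub_apply]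
          by_cases h2 : l = a
          · subst h2
            rw [e_same, e_ne hab]
            omega
          · rw [e_ne h2]
            by_cases h3 : l = b
            · subst h3
              rw [e_same]
              omega
            · rw [e_ne h3]
              omega
        rw [Finset.sum_add_distrib, sum_e] at h1
        omega
      have h1 := ih _ hx2 y hy hdist
      have h2 := hf x hx a b hab ha0 hbs
      have h3 := abs_sub_le (f x) (f (x - e a + e b)) (f y)
      push_cast
      linarith
  intro x hx y hy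
  refine key r x hx y hy ?_
  rw [← (mem_lev.1 hx).2]
  exact Finset.sum_le_sum fun l _ => Nat.sub_le _ _

end Vale.Agent.Lib.P328
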