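import Vale.Agent.Lib.P328.IdentA

/-!
P328, module PointId: the identity at one point.
-/

namespace Vale.Agent.Lib.P328

open Finset

variable {J : Type} [Fintype J] [DecidableEq J]

private theorem pointId_DD_mul {J : Type} [Fintype J] [DecidableEq J] (T' : J → ℕ)
    (h : (J → ℕ) → ℝ) {w : J → ℕ} (hw : 0 < QQ T' w) :
    ∑ a, gr (T' a) (w a) * h (w - e a) = QQ T' w * DD T' h w := by
  unfold DD
  rw [mul_div_cancel₀ _ hw.ne']

/-- the identity `∑ m (F - F̄_a)(F - F̄_b) = ∑ m (F - F̄_a - F̄_b + c)² + ∑ q_a (q_a - q_a⁻) (F̄_a - c)²`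
at one point `y` with at least two units.
Proof: `q a = gr (T' a) (y a)`, `qm a = gr (T' a) (y a - 1)`,
`m a b = gr (T' a) (y a) * gr (T' b) ((y - e a) b)`, i.e. `m a b = q a * q b` for `a ≠ b` and
`m a a = q a * qm a`; `m` is symmetric; `∑_b m a b * h (y - e a - e b) = q a * QQ (y - e a) * Dh(y - e a)`
(definition of `DD`, `QQ (y - e a) > 0`), `∑_a q a * Dh(y - e a) = Q(y) * DDh(y)`.  With
`G a = Dh (y - e a) - DDh(y)`: `∑ q a * G a = 0`; expand both sides; the difference is
`- ∑ m a b G a G b = ∑ q a (q a - qm a) G a²`. -/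
theorem point_identity (T' : J → ℕ) (h : (J → ℕ) → ℝ) (y : J → ℕ) (hy : 2 ≤ ∑ l, y l) :
    ∑ a, ∑ b, gr (T' a) (y a) * gr (T' b) ((y - e a) b) *
        ((h (y - e a - e b) - DD T' h (y - e a)) * (h (y - e a - e b) - DD T' h (y - e b))) =
      (∑ a, ∑ b, gr (T' a) (y a) * gr (T' b) ((y - e a) b) *
        (h (y - e a - e b) - DD T' h (y - e a) - DD T' h (y - e b) + DD T' (DD T' h) y) ^ 2) +
      ∑ a, gr (T' a) (y a) * (gr (T' a) (y a) - gr (T' a) (y a - 1)) *
        (DD T' h (y - e a) - DD T' (DD T' h) y) ^ 2 := by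
  have hsum : ∀ a : J, ∑ l, y l ≤ (∑ l, (y - e a) l) + 1 := by
    intro a
    have h1 : ∀ l, y l ≤ (y - e a) l + e a l := fun l => by
      rw [Pi.sub_apply]
      omega
    have h2 : ∑ l, e a l = 1 := by
      unfold e
      rw [Finset.sum_pi_single' a 1]
      simp
    calc ∑ l, y l ≤ ∑ l, ((y - e a) l + e a l) := Finset.sum_le_sum fun l _ => h1 l
      _ = _ := by rw [Finset.sum_add_distrib, h2]
  have hQy : 0 < QQ T' y := QQ_pos T' (by
    intro h0
    rw [h0] at hy
    simp at hy)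
  have hQ : ∀ a : J, 0 < QQ T' (y - e a) := fun a => QQ_pos T' (by
    intro h0
    have := hsum a
    rw [h0] at this
    simp only [Pi.zero_apply, Finset.sum_const_zero] at this
    omega)
  obtain ⟨q, hq⟩ : ∃ q : J → ℝ, ∀ a, q a = gr (T' a) (y a) := ⟨_, fun _ => rfl⟩
  obtain ⟨qm, hqm⟩ : ∃ q : J → ℝ, ∀ a, q a = gr (T' a) (y a - 1) := ⟨_, fun _ => rfl⟩
  obtain ⟨D, hD⟩ : ∃ D : J → ℝ, ∀ a, D a = DD T' h (y - e a) := ⟨_, fun _ => rfl⟩
  obtain ⟨c, hc⟩ : ∃ c : ℝ, c = DD T' (DD T' h) y := ⟨_, rfl⟩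
  obtain ⟨H, hH⟩ : ∃ H : J → J → ℝ, ∀ a b, H a b = h (y - e a - e b) := ⟨_, fun _ _ => rfl⟩
  obtain ⟨m, hm⟩ : ∃ m : J → J → ℝ, ∀ a b, m a b = gr (T' a) (y a) * gr (T' b) ((y - e a) b) :=
    ⟨_, fun _ _ => rfl⟩
  simp only [← hm, ← hH, ← hD, ← hc]
  simp only [← hq, ← hqm]
  have mval : ∀ a b, m a b = q a * q b - if a = b then q a * (q a - qm a) else 0 := by
    intro a b
    rw [hm]
    by_cases hab : a = b
    · subst hab
      have h1 : (y - e a) a = y a - 1 := by
        rw [Pi.sub_apply]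
        simp [e]
      rw [h1, if_pos rfl, ← hq, ← hqm]
      ring
    · have h1 : (y - e a) b = y b := by
        rw [Pi.sub_apply]
        simp [e, Pi.single_eq_of_ne (Ne.symm hab)]
      rw [h1, if_neg hab, ← hq, ← hq, sub_zero]
  have msymm : ∀ a b, m a b = m b a := by
    intro a b
    rw [mval, mval]
    by_cases hab : a = b
    · rw [hab]
    · rw [if_neg hab, if_neg (Ne.symm hab), mul_comm]
  have Hsymm : ∀ a b, H a b = H b a := by
    intro a b
    rw [hH, hH]
    congr 1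
    funext l
    simp only [Pi.sub_apply]
    omega
  have s1 : ∀ a, ∑ b, m a b * H a b = q a * QQ T' (y - e a) * D a := by
    intro a
    have h1 := pointId_DD_mul T' h (hQ a)
    rw [hD, mul_assoc, ← h1, Finset.mul_sum]
    refine Finset.sum_congr rfl fun b _ => ?_
    rw [hm, hH, hq, mul_assoc]
  have s2 : ∀ a, ∑ b, m a b = q a * QQ T' (y - e a) := by
    intro a
    unfold QQ
    rw [Finset.mul_sum]
    refine Finset.sum_congr rfl fun b _ => ?_
    rw [hm, hq]
  have s3 : ∑ a, q a * (D a - c) = 0 := by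
    have h1 := pointId_DD_mul T' (DD T' h) hQy
    have h2 : ∑ a, q a * (D a - c) = ∑ a, gr (T' a) (y a) * DD T' h (y - e a) - QQ T' y * c := by
      unfold QQ
      rw [Finset.sum_mul, ← Finset.sum_sub_distrib]
      refine Finset.sum_congr rfl fun a _ => ?_
      rw [hq, hD]
      ring
    rw [h2, h1, hc, sub_self]
  have s4 : ∑ a, ∑ b, m a b * ((H a b - c) * (D a - c)) = ∑ a, ∑ b, m a b * (D a - c) ^ 2 := by
    refine Finset.sum_congr rfl fun a _ => ?_
    have h1 : ∑ b, m a b * ((H a b - c) * (D a - c)) =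
        (∑ b, m a b * H a b) * (D a - c) - (∑ b, m a b) * (c * (D a - c)) := by
      rw [Finset.sum_mul, Finset.sum_mul, ← Finset.sum_sub_distrib]
      exact Finset.sum_congr rfl fun b _ => by ring
    rw [h1, ← Finset.sum_mul, s1, s2]
    ring
  have s5 : ∑ a, ∑ b, m a b * ((H a b - c) * (D b - c)) = ∑ a, ∑ b, m a b * (D b - c) ^ 2 := by
    rw [Finset.sum_comm]
    have h1 : ∑ a, ∑ b, m a b * (D b - c) ^ 2 = ∑ b, ∑ a, m a b * (D b - c) ^ 2 :=
      Finset.sum_comm
    rw [h1]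
    calc _ = ∑ a, ∑ b, m a b * ((H a b - c) * (D a - c)) :=
          Finset.sum_congr rfl fun a _ => Finset.sum_congr rfl fun b _ => by
            rw [msymm b a, Hsymm b a]
      _ = _ := s4
      _ = _ := Finset.sum_congr rfl fun a _ => Finset.sum_congr rfl fun b _ => by
            rw [msymm b a]
  have s6 : ∑ a, ∑ b, m a b * ((D a - c) * (D b - c)) =
      -∑ a, q a * (q a - qm a) * (D a - c) ^ 2 := by
    have h1 : ∑ a, ∑ b, m a b * ((D a - c) * (D b - c)) =
        (∑ a, q a * (D a - c)) * (∑ b, q b * (D b - c)) -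
          ∑ a, q a * (q a - qm a) * (D a - c) ^ 2 := by
      rw [Finset.sum_mul_sum, ← Finset.sum_sub_distrib]
      refine Finset.sum_congr rfl fun a _ => ?_
      have h2 : q a * (q a - qm a) * (D a - c) ^ 2 =
          ∑ b, if a = b then q a * (q a - qm a) * ((D a - c) * (D b - c)) else 0 := by
        rw [Finset.sum_ite_eq, if_pos (Finset.mem_univ a)]
        ring
      rw [h2, ← Finset.sum_sub_distrib]
      refine Finset.sum_congr rfl fun b _ => ?_
      rw [mval]
      by_cases hab : a = b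
      · rw [if_pos hab, if_pos hab]
        ring
      · rw [if_neg hab, if_neg hab]
        ring
    rw [h1, s3]
    ring
  have s7 : (∑ a, ∑ b, m a b * ((H a b - D a) * (H a b - D b))) -
      (∑ a, ∑ b, m a b * (H a b - D a - D b + c) ^ 2) =
      (∑ a, ∑ b, m a b * ((H a b - c) * (D a - c))) +
        (∑ a, ∑ b, m a b * ((H a b - c) * (D b - c))) -
        (∑ a, ∑ b, m a b * (D a - c) ^ 2) - (∑ a, ∑ b, m a b * (D b - c) ^ 2) -
        ∑ a, ∑ b, m a b * ((D a - c) * (D b - c)) := by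
    simp only [← Finset.sum_sub_distrib, ← Finset.sum_add_distrib]
    exact Finset.sum_congr rfl fun a _ => Finset.sum_congr rfl fun b _ => by ring
  rw [s4, s5, s6] at s7
  linarith

end Vale.Agent.Lib.P328
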