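import Vale.Agent.Lib.P328.Cross

/-!
P328, module StarTotal: summing the cross inequalities.
-/

namespace Vale.Agent.Lib.P328

open Finset

variable {I J : Type} [Fintype I] [DecidableEq I] [Fintype J] [DecidableEq J]

omit [Fintype I] in
/-- abstract form: `b j k ≤ a j k` off the diagonal and `∑ b ≥ 0` -/
theorem diag_sum_le (K : Finset I) (a b : I → I → ℝ)
    (hab : ∀ j ∈ K, ∀ k ∈ K, j ≠ k → b j k ≤ a j k) (hb : 0 ≤ ∑ j ∈ K, ∑ k ∈ K, b j k) :
    ∑ k ∈ K, (a k k - b k k) ≤ ∑ j ∈ K, ∑ k ∈ K, a j k := by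
  have h1 : ∑ k ∈ K, (a k k - b k k) + ∑ j ∈ K, ∑ k ∈ K, b j k ≤ ∑ j ∈ K, ∑ k ∈ K, a j k := by
    rw [← sum_add_distrib]
    apply sum_le_sum
    intro j hj
    rw [← add_sum_erase K _ hj, ← add_sum_erase K (fun k => a j k) hj]
    have : ∑ k ∈ K.erase j, b j k ≤ ∑ k ∈ K.erase j, a j k := by
      apply sum_le_sum
      intro k hk
      rw [mem_erase] at hk
      exact hab j hj k hk.2 (Ne.symm hk.1)
    linarith
  linarith

/-- `∑_k (|L_k F|² - R_k) ≤ |∑_k L_k F|²`.
Proof: expand the square, `cross` for the off diagonal terms, and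
`∑_{j ≠ k} ρ u_j u_k = ρ (∑ u_k)² - ρ ∑ u_k² ≥ - ρ ∑ u_k²` for `ρ = G_l (G_l - G_l⁻) ≥ 0`
(`gr_mono`). -/
theorem star_total (τ : I → J → ℕ) (r : I → ℕ) (c : J → ℕ) (o : I) (F : (I → J → ℕ) → ℝ) :
    ∑ k ∈ univ.erase o, (∑ X ∈ tab r c, tw τ X * LK τ o k F X ^ 2 - RK τ r c o k F) ≤
      ∑ X ∈ tab r c, tw τ X * (∑ k ∈ univ.erase o, LK τ o k F X) ^ 2 := by
  set b : I → I → ℝ := fun j k => ∑ X ∈ tab r c, tw τ X * ∑ l, gr (τ o l) (X o l) *
        (gr (τ o l) (X o l) - gr (τ o l) (X o l - 1)) *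
        ((F X - DK τ o j F X l) * (F X - DK τ o k F X l)) with hb
  set a : I → I → ℝ := fun j k => ∑ X ∈ tab r c, tw τ X * (LK τ o j F X * LK τ o k F X) with ha
  have h := diag_sum_le (univ.erase o) a b ?_ ?_
  · have e1 : ∑ k ∈ univ.erase o, (∑ X ∈ tab r c, tw τ X * LK τ o k F X ^ 2 - RK τ r c o k F) =
        ∑ k ∈ univ.erase o, (a k k - b k k) := by
      apply sum_congr rfl
      intro k _
      simp only [ha, hb, RK, ← sq]
    have e2 : ∑ X ∈ tab r c, tw τ X * (∑ k ∈ univ.erase o, LK τ o k F X) ^ 2 =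
        ∑ j ∈ univ.erase o, ∑ k ∈ univ.erase o, a j k := by
      simp only [ha]
      rw [sum_congr rfl fun j _ => sum_comm, sum_comm]
      apply sum_congr rfl
      intro X _
      rw [sq, sum_mul_sum, mul_sum]
      apply sum_congr rfl
      intro j _
      rw [mul_sum]
    rw [e1, e2]
    exact h
  · intro j hj k hk hjk
    exact cross τ r c (ne_of_mem_erase hj) (ne_of_mem_erase hk) hjk F
  · have e3 : ∑ j ∈ univ.erase o, ∑ k ∈ univ.erase o, b j k =
        ∑ X ∈ tab r c, tw τ X * ∑ l, gr (τ o l) (X o l) *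
          (gr (τ o l) (X o l) - gr (τ o l) (X o l - 1)) *
          (∑ k ∈ univ.erase o, (F X - DK τ o k F X l)) ^ 2 := by
      simp only [hb]
      rw [sum_congr rfl fun j _ => sum_comm, sum_comm]
      apply sum_congr rfl
      intro X _
      simp only [← mul_sum]
      congr 1
      rw [sum_congr rfl fun j _ => sum_comm, sum_comm]
      apply sum_congr rfl
      intro l _
      simp only [← mul_sum]
      rw [← sum_mul, sq]
    rw [e3]
    apply sum_nonneg
    intro X _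
    apply mul_nonneg (tw_pos τ X).le
    apply sum_nonneg
    intro l _
    apply mul_nonneg _ (sq_nonneg _)
    apply mul_nonneg (gr_nonneg _ _)
    have := gr_mono (τ o l) (Nat.sub_le (X o l) 1)
    linarith

end Vale.Agent.Lib.P328
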