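import Vale.Agent.Lib.P328.Fibre
import Vale.Agent.Lib.P328.FibreMain
import Vale.Agent.Lib.P328.Ident
import Vale.Agent.Lib.P328.StarTotal

/-!
P328, module StarFibre: the two row inequality on tables.
-/

namespace Vale.Agent.Lib.P328

open Finset

variable {I J : Type} [Fintype I] [DecidableEq I] [Fintype J] [DecidableEq J]

theorem StarFibre_Rt_nonneg (s T T' : J → ℕ) (r : ℕ) (h : (J → ℕ) → ℝ) : 0 ≤ Rt s T T' r h := by
  unfold Rt
  refine sum_nonneg fun x _ => mul_nonneg (wt_pos s T T' x).le (sum_nonneg fun l _ => ?_)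
  refine mul_nonneg (mul_nonneg (gr_nonneg _ _) ?_) (sq_nonneg _)
  have := gr_mono (T l) (Nat.sub_le (s l - x l) 1)
  linarith

theorem StarFibre_zero (s T T' : J → ℕ) (h : (J → ℕ) → ℝ) : nL s T T' 0 h = 0 := by
  unfold nL
  refine sum_eq_zero fun x hx => ?_
  have hx0 : ∀ l, x l = 0 := by
    have h1 := (mem_lev.1 hx).2
    intro l
    exact (sum_eq_zero_iff.1 h1) l (mem_univ l)
  have hLL : LL s T T' h x = 0 := by
    unfold LL
    refine sum_eq_zero fun l _ => ?_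
    have hD : DD T' h (x + e l) = h x := by
      unfold DD QQ
      have hz : ∀ a, a ≠ l → gr (T' a) ((x + e l) a) = 0 := by
        intro a ha
        have : (x + e l) a = 0 := by
          simp only [Pi.add_apply, hx0 a, e_ne ha]
        rw [this, gr_zero]
      rw [Finset.sum_eq_single l (fun a _ ha => by rw [hz a ha, zero_mul])
        (fun hl => absurd (mem_univ l) hl)]
      rw [Finset.sum_eq_single l (fun a _ ha => hz a ha) (fun hl => absurd (mem_univ l) hl)]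
      rw [add_sub_e]
      have hpos : 0 < gr (T' l) ((x + e l) l) := by
        apply gr_pos
        simp only [Pi.add_apply, hx0 l, e_same]
        norm_num
      field_simp
    rw [hD]
    ring
  rw [hLL]
  ring

/-- Proof: `normLK_eq`, `RK_eq`, on every fibre `fibre_identity` and `fibre_main` with
`s = cap c P`, `T = τ o`, `T' = τ k`, `r = r k` (`cap_sum`: `∑ s = r o + r k ≥ 2 (r k + 1)`;
`scale` and `cap_le`).  If `r k = 0` then `nL = 0` (the level `0` has the single point `0` and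
`DD T' h (e l) = h 0` when `s l ≠ 0`), so `Rt = 0` by `fibre_identity`, `TT_nonneg` and `Rt ≥ 0`. -/
theorem star_fibre {τ : I → J → ℕ} {r : I → ℕ} {c : J → ℕ} {o : I} {K : ℕ}
    (hadm : Adm τ r c o K) {k : I} (hk : k ≠ o) {H : ℝ} (hH1 : 1 ≤ H)
    (hH : ∑ i ∈ range (r k + 2), 1 / ((i : ℝ) + 1) ≤ H) (F : (I → J → ℕ) → ℝ) :
    RK τ r c o k F ≤ 10 ^ 24 * (Fintype.card J : ℝ) ^ 2 * (K : ℝ) ^ 3 * H *
      (∑ X ∈ tab r c, tw τ X * LK τ o k F X ^ 2 - RK τ r c o k F) := by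
  rw [normLK_eq τ hk F, RK_eq τ hk F, ← sum_sub_distrib, mul_sum]
  refine sum_le_sum fun P hP => ?_
  set s := cap c P with hs
  set h : (J → ℕ) → ℝ := fun y => F (join o k s P y) with hh
  have hrest := rest_pos τ o k P
  have hid := fibre_identity s (τ o) (τ k) (r k) h
  have hTT := TT_nonneg s (τ o) (τ k) (r k) h
  have hRt := StarFibre_Rt_nonneg s (τ o) (τ k) (r k) h
  have hK0 : (0 : ℝ) ≤ (K : ℝ) := Nat.cast_nonneg _
  have key : Rt s (τ o) (τ k) (r k) h ≤ 10 ^ 24 * (Fintype.card J : ℝ) ^ 2 * (K : ℝ) ^ 3 * H *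
      TT s (τ o) (τ k) (r k) h := by
    have main : (τ k = τ o ∨ (τ k = 0 ∧ 8 * Fintype.card J * (r k + 1) ≤ ∑ l, s l)) →
        Rt s (τ o) (τ k) (r k) h ≤ 10 ^ 24 * (Fintype.card J : ℝ) ^ 2 * (K : ℝ) ^ 3 * H *
      TT s (τ o) (τ k) (r k) h := by
      intro hkind
      refine fibre_main s (τ o) (τ k) (r k) h ?_ ?_ ?_ hkind hH
      · rw [hs, cap_sum hk hP]
        have := hadm.dom k hk
        omega
      · have := hadm.K_pos
        exact_mod_cast this
      · intro l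
        have h1 := hadm.scale k hk l
        have h2 := cap_le c P l
        have h3 : min (s l) (r k + 1) ≤ K * (τ o l + 1) :=
          le_trans (min_le_min_right _ h2) h1
        exact_mod_cast h3
    rcases hadm.kind k hk with h0 | h1 | ⟨h1, h2⟩
    · have hz : nL s (τ o) (τ k) (r k) h = 0 := by
        rw [h0]; exact StarFibre_zero _ _ _ _
      have : Rt s (τ o) (τ k) (r k) h ≤ 0 := by linarith
      refine le_trans this (by positivity)
    · exact main (Or.inl (funext h1))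
    · refine main (Or.inr ⟨funext h1, ?_⟩)
      rw [hs, cap_sum hk hP]
      omega
  have e1 : 10 ^ 24 * (Fintype.card J : ℝ) ^ 2 * (K : ℝ) ^ 3 * H *
      (rest τ o k P * nL s (τ o) (τ k) (r k) h - rest τ o k P * Rt s (τ o) (τ k) (r k) h) =
      rest τ o k P * (10 ^ 24 * (Fintype.card J : ℝ) ^ 2 * (K : ℝ) ^ 3 * H *
      TT s (τ o) (τ k) (r k) h) := by
    rw [hid]; ring
  rw [e1]
  exact mul_le_mul_of_nonneg_left key hrest.le

/-- `c ∑ |L_k F|² ≤ |∑ L_k F|²`.  Proof: `star_fibre` gives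
`|L_k F|² ≤ (1 + C₁) (|L_k F|² - R_k)`; sum and use `star_total`. -/
theorem star_block {τ : I → J → ℕ} {r : I → ℕ} {c : J → ℕ} {o : I} {K : ℕ}
    (hadm : Adm τ r c o K) {H : ℝ} (hH1 : 1 ≤ H)
    (hH : ∀ k, k ≠ o → ∑ i ∈ range (r k + 2), 1 / ((i : ℝ) + 1) ≤ H) (F : (I → J → ℕ) → ℝ) :
    ∑ k ∈ univ.erase o, ∑ X ∈ tab r c, tw τ X * LK τ o k F X ^ 2 ≤
      (1 + 10 ^ 24 * (Fintype.card J : ℝ) ^ 2 * (K : ℝ) ^ 3 * H) *
        ∑ X ∈ tab r c, tw τ X * (∑ k ∈ univ.erase o, LK τ o k F X) ^ 2 := by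
  have hK0 : (0 : ℝ) ≤ (K : ℝ) := Nat.cast_nonneg _
  have h1 : ∑ k ∈ univ.erase o, ∑ X ∈ tab r c, tw τ X * LK τ o k F X ^ 2 ≤
      (1 + 10 ^ 24 * (Fintype.card J : ℝ) ^ 2 * (K : ℝ) ^ 3 * H) *
        ∑ k ∈ univ.erase o, (∑ X ∈ tab r c, tw τ X * LK τ o k F X ^ 2 - RK τ r c o k F) := by
    rw [mul_sum]
    refine sum_le_sum fun k hk => ?_
    have hk' : k ≠ o := (mem_erase.1 hk).1
    have h2 := star_fibre hadm hk' hH1 (hH k hk') F
    linarith
  refine le_trans h1 (mul_le_mul_of_nonneg_left (star_total τ r c o F) (by positivity))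

end Vale.Agent.Lib.P328
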