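import Vale.Agent.Lib.P328.TabBase

/-!
P328, module Sym: symmetry and positivity of the generators `LK`.

Everything comes from one formula.  For `k ≠ o`, `r o ≥ 1`, put `r' = r - e_o + e_k` and, for
`W ∈ tab r' c`, `q_l = gr (τ k l) (W k l)`, `W_l = W + e_{o,l} - e_{k,l}` (for `W k l ≥ 1`), then
`∑_X tw X * G X * LK F X = ∑_W tw W * (∑_l q_l G(W_l) F(W_l) - (∑ q_l G(W_l)) (∑ q_l F(W_l)) / ∑ q_l)`:
substitute `W = X - e_{o,l} + e_{k,l}`, `tw X * gr (τ o l) (X o l) = tw W * q_l`,
`DK F X l = (∑_a q_a F(W_a)) / ∑ q_a`.  If `r o = 0` all rates `gr (τ o l) (X o l)` vanish.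
(In the proof `W` runs over the set of all `X - e_{o,l} + e_{k,l}`.)
-/

namespace Vale.Agent.Lib.P328

open Finset

variable {I J : Type} [Fintype I] [DecidableEq I] [Fintype J] [DecidableEq J]

/-! ### the two half exchanges -/

/-- give a unit in column `l` from row `o` to row `k` -/
def symUp (o k : I) (X : I → J → ℕ) (l : J) : I → J → ℕ :=
  Function.update (Function.update X o (X o - e l)) k (X k + e l)

/-- give a unit in column `a` from row `k` to row `o` -/
def symDn (o k : I) (W : I → J → ℕ) (a : J) : I → J → ℕ :=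
  Function.update (Function.update W o (W o + e a)) k (W k - e a)

omit [Fintype I] [Fintype J] in
theorem Sym_up_o {o k : I} (hk : k ≠ o) (X : I → J → ℕ) (l : J) :
    symUp o k X l o = X o - e l := by
  unfold symUp
  rw [Function.update_of_ne hk.symm, Function.update_self]

omit [Fintype I] [Fintype J] in
theorem Sym_up_k {o k : I} (X : I → J → ℕ) (l : J) :
    symUp o k X l k = X k + e l := by
  unfold symUp
  rw [Function.update_self]

omit [Fintype I] [Fintype J] in
theorem Sym_up_other {o k : I} (X : I → J → ℕ) (l : J) {i : I} (h1 : i ≠ o) (h2 : i ≠ k) :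
    symUp o k X l i = X i := by
  unfold symUp
  rw [Function.update_of_ne h2, Function.update_of_ne h1]

omit [Fintype I] [Fintype J] in
theorem Sym_dn_o {o k : I} (hk : k ≠ o) (X : I → J → ℕ) (l : J) :
    symDn o k X l o = X o + e l := by
  unfold symDn
  rw [Function.update_of_ne hk.symm, Function.update_self]

omit [Fintype I] [Fintype J] in
theorem Sym_dn_k {o k : I} (X : I → J → ℕ) (l : J) :
    symDn o k X l k = X k - e l := by
  unfold symDn
  rw [Function.update_self]

omit [Fintype I] [Fintype J] in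
theorem Sym_dn_other {o k : I} (X : I → J → ℕ) (l : J) {i : I} (h1 : i ≠ o) (h2 : i ≠ k) :
    symDn o k X l i = X i := by
  unfold symDn
  rw [Function.update_of_ne h2, Function.update_of_ne h1]

omit [Fintype I] [Fintype J] in
theorem Sym_sw_eq {o k : I} (hk : k ≠ o) (X : I → J → ℕ) (l a : J) :
    sw X o k l a = symDn o k (symUp o k X l) a := by
  funext i
  by_cases h1 : i = k
  · subst h1
    rw [Sym_dn_k, Sym_up_k]
    unfold sw
    rw [Function.update_self]
  · by_cases h2 : i = o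
    · subst h2
      rw [Sym_dn_o hk, Sym_up_o hk]
      unfold sw
      rw [Function.update_of_ne hk.symm, Function.update_self]
    · rw [Sym_dn_other _ _ h2 h1, Sym_up_other _ _ h2 h1]
      unfold sw
      rw [Function.update_of_ne h1, Function.update_of_ne h2]

omit [Fintype J] in
private theorem Sym_e_le {w : J → ℕ} {a : J} (ha : w a ≠ 0) (l : J) : e a l ≤ w l := by
  unfold e
  rw [Pi.single_apply]
  split_ifs with h
  · subst h; omega
  · omega

omit [Fintype J] in
private theorem Sym_sub_add {w : J → ℕ} {a : J} (ha : w a ≠ 0) : w - e a + e a = w := by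
  funext l
  simp only [Pi.sub_apply, Pi.add_apply, e, Pi.single_apply]
  split_ifs with h
  · subst h; omega
  · omega

omit [Fintype J] in
private theorem Sym_add_sub (x : J → ℕ) (a : J) : x + e a - e a = x := by
  funext l
  simp [Pi.sub_apply, Pi.add_apply]

omit [Fintype I] [Fintype J] in
theorem Sym_dn_up {o k : I} (hk : k ≠ o) {X : I → J → ℕ} {l : J} (hl : X o l ≠ 0) :
    symDn o k (symUp o k X l) l = X := by
  funext i
  by_cases h1 : i = k
  · subst h1
    rw [Sym_dn_k, Sym_up_k, Sym_add_sub]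
  · by_cases h2 : i = o
    · subst h2
      rw [Sym_dn_o hk, Sym_up_o hk, Sym_sub_add hl]
    · rw [Sym_dn_other _ _ h2 h1, Sym_up_other _ _ h2 h1]

omit [Fintype I] [Fintype J] in
theorem Sym_up_dn {o k : I} (hk : k ≠ o) {W : I → J → ℕ} {l : J} (hl : W k l ≠ 0) :
    symUp o k (symDn o k W l) l = W := by
  funext i
  by_cases h1 : i = k
  · subst h1
    rw [Sym_up_k, Sym_dn_k, Sym_sub_add hl]
  · by_cases h2 : i = o
    · subst h2
      rw [Sym_up_o hk, Sym_dn_o hk, Sym_add_sub]
    · rw [Sym_up_other _ _ h2 h1, Sym_dn_other _ _ h2 h1]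

private theorem Sym_sum_add_e (x : J → ℕ) (a : J) : ∑ l, (x + e a) l = ∑ l, x l + 1 := by
  simp only [Pi.add_apply]
  rw [Finset.sum_add_distrib, sum_e]

private theorem Sym_sum_sub_e {w : J → ℕ} {a : J} (ha : w a ≠ 0) :
    ∑ l, (w - e a) l + 1 = ∑ l, w l := by
  rw [← Sym_sum_add_e, Sym_sub_add ha]

/-- the exchange stays in the set of tables -/
theorem sw_mem {r : I → ℕ} {c : J → ℕ} {o k : I} (hk : k ≠ o) {X : I → J → ℕ} (hX : X ∈ tab r c)
    {l a : J} (hl : X o l ≠ 0) (ha : (X k + e l) a ≠ 0) : sw X o k l a ∈ tab r c := by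
  rw [mem_tab] at hX ⊢
  have hko : sw X o k l a o = X o - e l + e a := by
    rw [Sym_sw_eq hk, Sym_dn_o hk, Sym_up_o hk]
  have hkk : sw X o k l a k = X k + e l - e a := by
    rw [Sym_sw_eq hk, Sym_dn_k, Sym_up_k]
  have hoth : ∀ i, i ≠ o → i ≠ k → sw X o k l a i = X i := by
    intro i h1 h2
    rw [Sym_sw_eq hk, Sym_dn_other _ _ h1 h2, Sym_up_other _ _ h1 h2]
  constructor
  · intro i
    by_cases h1 : i = k
    · subst h1
      rw [hkk]
      have h2 := Sym_sum_sub_e ha
      rw [Sym_sum_add_e, hX.1 i] at h2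
      omega
    · by_cases h2 : i = o
      · subst h2
        rw [hko, Sym_sum_add_e, Sym_sum_sub_e hl]
        exact hX.1 i
      · rw [hoth i h2 h1]
        exact hX.1 i
  · intro j
    rw [← hX.2 j]
    have hz : ∑ i, ((sw X o k l a i j : ℤ) - (X i j : ℤ)) = 0 := by
      rw [Finset.sum_eq_add o k hk.symm]
      · rw [hko, hkk]
        have h1 : e l j ≤ X o j := Sym_e_le hl j
        have h2 : e a j ≤ X k j + e l j := Sym_e_le ha j
        simp only [Pi.sub_apply, Pi.add_apply]
        omega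
      · intro i _ hi
        rw [hoth i hi.1 hi.2, sub_self]
      · intro h; exact absurd (mem_univ _) h
      · intro h; exact absurd (mem_univ _) h
    rw [Finset.sum_sub_distrib, sub_eq_zero] at hz
    exact_mod_cast hz

/-! ### weights -/

theorem Sym_row (t : J → ℕ) (x : J → ℕ) (l : J) :
    (∏ j, phi (t j) ((x + e l) j)) * gr (t l) ((x + e l) l) = ∏ j, phi (t j) (x j) := by
  rw [← Finset.mul_prod_erase univ (fun j => phi (t j) ((x + e l) j)) (mem_univ l),
    ← Finset.mul_prod_erase univ (fun j => phi (t j) (x j)) (mem_univ l)]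
  have h1 : (x + e l) l = x l + 1 := by rw [Pi.add_apply, e_same]
  have h2 : ∏ j ∈ univ.erase l, phi (t j) ((x + e l) j) = ∏ j ∈ univ.erase l, phi (t j) (x j) := by
    apply Finset.prod_congr rfl
    intro j hj
    rw [Pi.add_apply, e_ne (Finset.ne_of_mem_erase hj), add_zero]
  rw [h1, h2, ← gr_succ_mul (t l) (x l)]
  ring

theorem Sym_tw_split {o k : I} (hk : k ≠ o) (τ : I → J → ℕ) (X : I → J → ℕ) :
    tw τ X = (∏ j, phi (τ o j) (X o j)) * ((∏ j, phi (τ k j) (X k j)) *
      ∏ i ∈ (univ.erase o).erase k, ∏ j, phi (τ i j) (X i j)) := by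
  unfold tw
  rw [← Finset.mul_prod_erase univ (fun i => ∏ j, phi (τ i j) (X i j)) (mem_univ o),
    ← Finset.mul_prod_erase (univ.erase o) (fun i => ∏ j, phi (τ i j) (X i j))
      (Finset.mem_erase.mpr ⟨hk, mem_univ k⟩)]

/-- detailed balance of the half exchanges -/
theorem Sym_balance {o k : I} (hk : k ≠ o) (τ : I → J → ℕ) {X : I → J → ℕ} {l : J}
    (hl : X o l ≠ 0) :
    tw τ X * gr (τ o l) (X o l) = tw τ (symUp o k X l) * gr (τ k l) (symUp o k X l k l) := by
  rw [Sym_tw_split hk, Sym_tw_split hk τ (symUp o k X l), Sym_up_o hk, Sym_up_k]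
  have h1 : ∏ i ∈ (univ.erase o).erase k, ∏ j, phi (τ i j) (symUp o k X l i j) =
      ∏ i ∈ (univ.erase o).erase k, ∏ j, phi (τ i j) (X i j) := by
    apply Finset.prod_congr rfl
    intro i hi
    rw [Finset.mem_erase, Finset.mem_erase] at hi
    rw [Sym_up_other X l hi.2.1 hi.1]
  have h2 := Sym_row (τ o) (X o - e l) l
  rw [Sym_sub_add hl] at h2
  have h3 := Sym_row (τ k) (X k) l
  rw [h1, ← h2, ← h3]
  ring

/-! ### the main formula -/

/-- the set of intermediate tables -/
def symSet (r : I → ℕ) (c : J → ℕ) (o k : I) : Finset (I → J → ℕ) :=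
  ((tab r c ×ˢ (univ : Finset J)).filter fun p => p.1 o p.2 ≠ 0).image
    fun p => symUp o k p.1 p.2

theorem Sym_mem_set {r : I → ℕ} {c : J → ℕ} {o k : I} {X : I → J → ℕ} (hX : X ∈ tab r c) {l : J}
    (hl : X o l ≠ 0) : symUp o k X l ∈ symSet r c o k := by
  unfold symSet
  rw [Finset.mem_image]
  exact ⟨(X, l), Finset.mem_filter.mpr ⟨Finset.mem_product.mpr ⟨hX, mem_univ l⟩, hl⟩, rfl⟩

theorem Sym_dn_mem {r : I → ℕ} {c : J → ℕ} {o k : I} (hk : k ≠ o) {W : I → J → ℕ}
    (hW : W ∈ symSet r c o k) {a : J} (ha : W k a ≠ 0) : symDn o k W a ∈ tab r c := by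
  unfold symSet at hW
  rw [Finset.mem_image] at hW
  obtain ⟨⟨X, l⟩, hp, rfl⟩ := hW
  rw [Finset.mem_filter, Finset.mem_product] at hp
  rw [← Sym_sw_eq hk]
  rw [Sym_up_k] at ha
  exact sw_mem hk hp.1.1 hp.2 ha

/-- change of variables -/
theorem Sym_sum (r : I → ℕ) (c : J → ℕ) {o k : I} (hk : k ≠ o) (Φ : (I → J → ℕ) → J → ℝ) :
    ∑ X ∈ tab r c, ∑ l, (if X o l ≠ 0 then Φ X l else 0) =
      ∑ W ∈ symSet r c o k, ∑ l, (if W k l ≠ 0 then Φ (symDn o k W l) l else 0) := by
  rw [← Finset.sum_product', ← Finset.sum_product', ← Finset.sum_filter, ← Finset.sum_filter]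
  refine Finset.sum_bij' (fun p _ => (symUp o k p.1 p.2, p.2)) (fun p _ => (symDn o k p.1 p.2, p.2))
    ?_ ?_ ?_ ?_ ?_
  · rintro ⟨X, l⟩ hp
    rw [Finset.mem_filter, Finset.mem_product] at hp ⊢
    refine ⟨⟨Sym_mem_set hp.1.1 hp.2, mem_univ _⟩, ?_⟩
    show symUp o k X l k l ≠ 0
    rw [Sym_up_k, Pi.add_apply, e_same]
    omega
  · rintro ⟨W, l⟩ hp
    rw [Finset.mem_filter, Finset.mem_product] at hp ⊢
    refine ⟨⟨Sym_dn_mem hk hp.1.1 hp.2, mem_univ _⟩, ?_⟩
    show symDn o k W l o l ≠ 0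
    rw [Sym_dn_o hk, Pi.add_apply, e_same]
    omega
  · rintro ⟨X, l⟩ hp
    rw [Finset.mem_filter] at hp
    show (symDn o k (symUp o k X l) l, l) = (X, l)
    rw [Sym_dn_up hk hp.2]
  · rintro ⟨W, l⟩ hp
    rw [Finset.mem_filter] at hp
    show (symUp o k (symDn o k W l) l, l) = (W, l)
    rw [Sym_up_dn hk hp.2]
  · rintro ⟨X, l⟩ hp
    rw [Finset.mem_filter] at hp
    show Φ X l = Φ (symDn o k (symUp o k X l) l) l
    rw [Sym_dn_up hk hp.2]

/-- the covariance form at one intermediate table -/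
noncomputable def symB (τ : I → J → ℕ) (o k : I) (G F : (I → J → ℕ) → ℝ) (W : I → J → ℕ) : ℝ :=
  ∑ l, gr (τ k l) (W k l) * (G (symDn o k W l) * F (symDn o k W l)) -
    (∑ l, gr (τ k l) (W k l) * G (symDn o k W l)) *
      (∑ l, gr (τ k l) (W k l) * F (symDn o k W l)) / QQ (τ k) (W k)

theorem Sym_formula (τ : I → J → ℕ) (r : I → ℕ) (c : J → ℕ) {o k : I} (hk : k ≠ o)
    (G F : (I → J → ℕ) → ℝ) :
    ∑ X ∈ tab r c, tw τ X * (G X * LK τ o k F X) =
      ∑ W ∈ symSet r c o k, tw τ W * symB τ o k G F W := by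
  have h1 : ∀ X ∈ tab r c, tw τ X * (G X * LK τ o k F X) =
      ∑ l, (if X o l ≠ 0 then
        tw τ (symUp o k X l) * gr (τ k l) (symUp o k X l k l) *
          (G X * (F X - (∑ a, gr (τ k a) (symUp o k X l k a) * F (symDn o k (symUp o k X l) a)) /
            QQ (τ k) (symUp o k X l k))) else 0) := by
    intro X _
    unfold LK
    rw [Finset.mul_sum, Finset.mul_sum]
    apply Finset.sum_congr rfl
    intro l _
    by_cases hl : X o l ≠ 0
    · rw [if_pos hl, ← Sym_balance hk τ hl]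
      unfold DK
      simp only [Sym_sw_eq hk, Sym_up_k]
      ring
    · rw [if_neg hl]
      push Not at hl
      rw [hl, gr_zero]
      ring
  rw [Finset.sum_congr rfl h1, Sym_sum r c hk (fun X l =>
        tw τ (symUp o k X l) * gr (τ k l) (symUp o k X l k l) *
          (G X * (F X - (∑ a, gr (τ k a) (symUp o k X l k a) * F (symDn o k (symUp o k X l) a)) /
            QQ (τ k) (symUp o k X l k))))]
  apply Finset.sum_congr rfl
  intro W _
  have h2 : ∀ l, (if W k l ≠ 0 then
        tw τ (symUp o k (symDn o k W l) l) * gr (τ k l) (symUp o k (symDn o k W l) l k l) *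
          (G (symDn o k W l) * (F (symDn o k W l) -
            (∑ a, gr (τ k a) (symUp o k (symDn o k W l) l k a) *
              F (symDn o k (symUp o k (symDn o k W l) l) a)) /
            QQ (τ k) (symUp o k (symDn o k W l) l k))) else 0) =
      tw τ W * (gr (τ k l) (W k l) * (G (symDn o k W l) * F (symDn o k W l)) -
        gr (τ k l) (W k l) * G (symDn o k W l) *
          ((∑ a, gr (τ k a) (W k a) * F (symDn o k W a)) / QQ (τ k) (W k))) := by
    intro l
    by_cases hl : W k l ≠ 0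
    · rw [if_pos hl, Sym_up_dn hk hl]
      ring
    · rw [if_neg hl]
      push Not at hl
      rw [hl, gr_zero]
      ring
  rw [Finset.sum_congr rfl fun l _ => h2 l, ← Finset.mul_sum, Finset.sum_sub_distrib,
    ← Finset.sum_mul]
  unfold symB
  ring

theorem Sym_QQ_nonneg (t : J → ℕ) (w : J → ℕ) : 0 ≤ QQ t w :=
  Finset.sum_nonneg fun a _ => gr_nonneg _ _

/-- the quadratic form is a variance -/
theorem Sym_B_self (τ : I → J → ℕ) (o k : I) (F : (I → J → ℕ) → ℝ) (W : I → J → ℕ) :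
    symB τ o k F F W = ∑ l, gr (τ k l) (W k l) * (F (symDn o k W l) -
      (∑ a, gr (τ k a) (W k a) * F (symDn o k W a)) / QQ (τ k) (W k)) ^ 2 := by
  unfold symB
  set N : ℝ := ∑ a, gr (τ k a) (W k a) * F (symDn o k W a) with hN
  set Q : ℝ := QQ (τ k) (W k) with hQ
  have h1 : ∀ l, gr (τ k l) (W k l) * (F (symDn o k W l) - N / Q) ^ 2 =
      gr (τ k l) (W k l) * (F (symDn o k W l) * F (symDn o k W l)) -
        2 * (N / Q) * (gr (τ k l) (W k l) * F (symDn o k W l)) +
          (N / Q) ^ 2 * gr (τ k l) (W k l) := by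
    intro l; ring
  rw [Finset.sum_congr rfl fun l _ => h1 l, Finset.sum_add_distrib, Finset.sum_sub_distrib,
    ← Finset.mul_sum, ← Finset.mul_sum, ← hN]
  have h2 : ∑ l, gr (τ k l) (W k l) = Q := rfl
  rw [h2]
  by_cases hQ0 : Q = 0
  · rw [hQ0]
    simp
  · field_simp
    ring

theorem Sym_B_nonneg (τ : I → J → ℕ) (o k : I) (F : (I → J → ℕ) → ℝ) (W : I → J → ℕ) :
    0 ≤ symB τ o k F F W := by
  rw [Sym_B_self]
  exact Finset.sum_nonneg fun l _ => mul_nonneg (gr_nonneg _ _) (sq_nonneg _)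

/-- `LK` is linear -/
theorem LK_linear (τ : I → J → ℕ) (o k : I) (a b : ℝ) (F G : (I → J → ℕ) → ℝ)
    (X : I → J → ℕ) :
    LK τ o k (fun Y => a * F Y + b * G Y) X = a * LK τ o k F X + b * LK τ o k G X := by
  unfold LK
  rw [Finset.mul_sum, Finset.mul_sum, ← Finset.sum_add_distrib]
  apply Finset.sum_congr rfl
  intro l _
  have h1 : DK τ o k (fun Y => a * F Y + b * G Y) X l =
      a * DK τ o k F X l + b * DK τ o k G X l := by
    unfold DK
    rw [mul_div_assoc', mul_div_assoc', ← add_div]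
    congr 1
    rw [Finset.mul_sum, Finset.mul_sum, ← Finset.sum_add_distrib]
    apply Finset.sum_congr rfl
    intro j _
    ring
  rw [h1]
  ring

/-- `LK F` on `tab r c` depends only on `F` on `tab r c` -/
theorem LK_congr (τ : I → J → ℕ) {r : I → ℕ} {c : J → ℕ} {o k : I} (hk : k ≠ o)
    {F G : (I → J → ℕ) → ℝ} (h : ∀ X ∈ tab r c, F X = G X) :
    ∀ X ∈ tab r c, LK τ o k F X = LK τ o k G X := by
  intro X hX
  unfold LK
  apply Finset.sum_congr rfl
  intro l _
  by_cases hl : X o l = 0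
  · rw [hl, gr_zero, zero_mul, zero_mul]
  · rw [h X hX]
    have h1 : DK τ o k F X l = DK τ o k G X l := by
      unfold DK
      congr 1
      apply Finset.sum_congr rfl
      intro a _
      by_cases ha : (X k + e l) a = 0
      · rw [ha, gr_zero, zero_mul, zero_mul]
      · rw [h _ (sw_mem hk hX hl ha)]
    rw [h1]

theorem LK_symm (τ : I → J → ℕ) (r : I → ℕ) (c : J → ℕ) {o k : I} (hk : k ≠ o)
    (F G : (I → J → ℕ) → ℝ) :
    ∑ X ∈ tab r c, tw τ X * (G X * LK τ o k F X) =
      ∑ X ∈ tab r c, tw τ X * (F X * LK τ o k G X) := by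
  rw [Sym_formula τ r c hk, Sym_formula τ r c hk]
  apply Finset.sum_congr rfl
  intro W _
  congr 1
  unfold symB
  have h1 : ∀ l, gr (τ k l) (W k l) * (G (symDn o k W l) * F (symDn o k W l)) =
      gr (τ k l) (W k l) * (F (symDn o k W l) * G (symDn o k W l)) := by
    intro l; ring
  rw [Finset.sum_congr rfl fun l _ => h1 l]
  ring

theorem LK_nonneg (τ : I → J → ℕ) (r : I → ℕ) (c : J → ℕ) {o k : I} (hk : k ≠ o)
    (F : (I → J → ℕ) → ℝ) :
    0 ≤ ∑ X ∈ tab r c, tw τ X * (F X * LK τ o k F X) := by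
  rw [Sym_formula τ r c hk]
  exact Finset.sum_nonneg fun W _ => mul_nonneg (tw_pos τ W).le (Sym_B_nonneg τ o k F W)

/-- zero energy means invariance under the exchanges -/
theorem LK_zero (τ : I → J → ℕ) (r : I → ℕ) (c : J → ℕ) {o k : I} (hk : k ≠ o)
    (F : (I → J → ℕ) → ℝ) (h : ∑ X ∈ tab r c, tw τ X * (F X * LK τ o k F X) = 0) :
    ∀ X ∈ tab r c, ∀ l a, X o l ≠ 0 → (X k + e l) a ≠ 0 → F (sw X o k l a) = F X := by
  rw [Sym_formula τ r c hk] at h
  intro X hX l a hl ha
  have hW : symUp o k X l ∈ symSet r c o k := Sym_mem_set hX hl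
  have h1 := (Finset.sum_eq_zero_iff_of_nonneg fun W _ =>
    mul_nonneg (tw_pos τ W).le (Sym_B_nonneg τ o k F W)).mp h _ hW
  have h2 : symB τ o k F F (symUp o k X l) = 0 :=
    (mul_eq_zero.mp h1).resolve_left (tw_pos τ _).ne'
  rw [Sym_B_self] at h2
  have h3 := (Finset.sum_eq_zero_iff_of_nonneg fun j _ =>
    mul_nonneg (gr_nonneg _ _) (sq_nonneg _)).mp h2
  have h4 : ∀ j, symUp o k X l k j ≠ 0 → F (symDn o k (symUp o k X l) j) =
      (∑ a, gr (τ k a) (symUp o k X l k a) * F (symDn o k (symUp o k X l) a)) /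
        QQ (τ k) (symUp o k X l k) := by
    intro j hj
    have h5 := (mul_eq_zero.mp (h3 j (mem_univ j))).resolve_left (gr_pos _ hj).ne'
    have h6 := pow_eq_zero_iff (two_ne_zero) |>.mp h5
    linarith
  rw [Sym_sw_eq hk, h4 a (by rw [Sym_up_k]; exact ha), ← h4 l (by
    rw [Sym_up_k, Pi.add_apply, e_same]; omega), Sym_dn_up hk hl]

/-- `LK` annihilates functions of the other rows, hence by symmetry `LK F` is orthogonal to them -/
theorem LK_orth (τ : I → J → ℕ) (r : I → ℕ) (c : J → ℕ) {o k : I} (hk : k ≠ o)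
    (F : (I → J → ℕ) → ℝ) (g : (I → J → ℕ) → ℝ) :
    ∑ X ∈ tab r c, tw τ X * (g (piK o k X) * LK τ o k F X) = 0 := by
  rw [Sym_formula τ r c hk (fun X => g (piK o k X)) F]
  apply Finset.sum_eq_zero
  intro W _
  have h1 : ∀ l, piK o k (symDn o k W l) = piK o k W := by
    intro l
    funext i
    unfold piK
    by_cases hi : i = o ∨ i = k
    · rw [if_pos hi, if_pos hi]
    · rw [if_neg hi, if_neg hi]
      push Not at hi
      rw [Sym_dn_other W l hi.1 hi.2]
  unfold symB
  simp only [h1]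
  set N : ℝ := ∑ a, gr (τ k a) (W k a) * F (symDn o k W a) with hN
  have h2 : ∑ l, gr (τ k l) (W k l) * (g (piK o k W) * F (symDn o k W l)) =
      g (piK o k W) * N := by
    rw [hN, Finset.mul_sum]
    apply Finset.sum_congr rfl
    intro l _
    ring
  have h3 : ∑ l, gr (τ k l) (W k l) * g (piK o k W) = QQ (τ k) (W k) * g (piK o k W) := by
    rw [← Finset.sum_mul]
    rfl
  rw [h2, h3]
  by_cases hQ : QQ (τ k) (W k) = 0
  · have h4 : N = 0 := by
      have h5 := (Finset.sum_eq_zero_iff_of_nonneg fun a _ => gr_nonneg (τ k a) (W k a)).mp hQ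
      rw [hN]
      apply Finset.sum_eq_zero
      intro a ha
      rw [h5 a ha, zero_mul]
    rw [h4]
    simp
  · field_simp
    ring

end Vale.Agent.Lib.P328
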