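import Mathlib
import Vale.Agent.Lib.P328.FPRAS

/-!
P328: the algorithm as a function on words over a four letter alphabet, for the hand-in
`WordTransducer`.
-/

namespace Vale.Agent.Lib.P328.Words

open Vale.Agent.Lib.Common.PolyTime Vale.Agent.Lib.P328

/-- letters to symbols -/
def toSym (a : Fin 4) : Sym :=
  if a = 0 then Sym.bit false else if a = 1 then Sym.bit true else
    if a = 2 then Sym.comma else Sym.semi

/-- symbols to letters -/
def ofSym : Sym → Fin 4
  | Sym.bit false => 0
  | Sym.bit true => 1
  | Sym.comma => 2
  | Sym.semi => 3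

theorem toSym_ofSym (s : Sym) : toSym (ofSym s) = s := by
  rcases s with (_ | _) | _ | _ <;> rfl

theorem ofSym_toSym (a : Fin 4) : ofSym (toSym a) = a := by
  fin_cases a <;> rfl

theorem toSym_injective : Function.Injective toSym := by
  intro a b h
  rw [← ofSym_toSym a, h, ofSym_toSym]

/-- a bit as a letter -/
def bl (b : Bool) : Fin 4 := if b then 1 else 0

theorem toSym_bl (b : Bool) : toSym (bl b) = Sym.bit b := by
  cases b <;> rfl

theorem ofSym_bit (b : Bool) : ofSym (Sym.bit b) = bl b := by
  cases b <;> rfl

/-- the algorithm on words -/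
noncomputable def wordAlg (a : ℕ) (w : List (Fin 4)) : List (Fin 4) :=
  (unparseOut (algA a (parseIn (w.map toSym)).1 (parseIn (w.map toSym)).2.1.1
      (parseIn (w.map toSym)).2.1.2 (parseIn (w.map toSym)).2.2)).map ofSym

theorem encList_comp {α β : Type} (e : β → D) (g : α → β) (l : List α) :
    encList (fun a => e (g a)) l = encList e (l.map g) := by
  induction l with
  | nil => rfl
  | cons a l ih => simp only [encList, List.map_cons, ih]

theorem wordAlg_poly (a : ℕ) :
    Nonempty (Turing.TM2ComputableInPolyTime (id : List (Fin 4) → List (Fin 4)) id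
      (wordAlg a)) := by
  have hpt : PT (fun l : List Sym => unparseOut (algA a (parseIn l).1 (parseIn l).2.1.1
      (parseIn l).2.1.2 (parseIn l).2.2)) :=
    PT.comp pt_unparseOut (pt_algA a (PT.fst pt_parseIn) (PT.fst (PT.fst (PT.snd pt_parseIn)))
      (PT.snd (PT.fst (PT.snd pt_parseIn))) (PT.snd (PT.snd pt_parseIn)))
  obtain ⟨F, hF, h⟩ := hpt
  refine PolyOn.toTM2 (F := F) (fun x => symD (toSym x)) (fun x => symD (toSym x))
    (symD_injective.comp toSym_injective) id id (wordAlg a) ?_ ?_
  · refine hF.mono ?_
    rintro x ⟨S, rfl⟩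
    refine ⟨S.map toSym, ?_⟩
    exact (encList_comp symD toSym S).symm
  · intro w
    have h' := h (w.map toSym)
    simp only at h'
    simp only [id]
    rw [encList_comp symD toSym w, encList_comp symD toSym (wordAlg a w)]
    refine Eq.trans h' ?_
    unfold wordAlg
    rw [List.map_map]
    have : (toSym ∘ ofSym) = id := by
      funext s
      exact toSym_ofSym s
    rw [this, List.map_id]
    rfl

/-- digits of a number, then the letter `2` -/
def num (a : ℕ) : List (Fin 4) := (Nat.bits a).map bl ++ [2]

theorem map_ofSym_encNum (a : ℕ) : (encNum a).map ofSym = num a := by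
  unfold encNum num
  rw [List.map_append, List.map_map]
  congr 1
  exact List.map_congr_left fun b _ => ofSym_bit b

theorem map_toSym_num (a : ℕ) : (num a).map toSym = encNum a := by
  rw [← map_ofSym_encNum, List.map_map]
  have : (toSym ∘ ofSym) = id := by
    funext s
    exact toSym_ofSym s
  rw [this, List.map_id]

/-- the output of the algorithm on the letters of an encoded input -/
theorem wordAlg_encIn (a : ℕ) (x : Input × List Bool) :
    wordAlg a ((encIn x).map ofSym) = num (estimate a x).1 ++ num (estimate a x).2 := by
  unfold wordAlg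
  have h : ((encIn x).map ofSym).map toSym = encIn x := by
    rw [List.map_map]
    have : (toSym ∘ ofSym) = id := by
      funext s
      exact toSym_ofSym s
    rw [this, List.map_id]
  rw [h]
  obtain ⟨x, ρ⟩ := x
  rw [parseIn_encIn, unparseOut_eq]
  unfold encOut
  rw [List.map_append, map_ofSym_encNum, map_ofSym_encNum]
  rfl

end Vale.Agent.Lib.P328.Words
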