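import Mathlib
import Vale.Agent.Lib.P328.Words

/-!
P328: the main theorem of the hand-in `WordTransducer`.
-/

namespace Vale.Agent.Lib.P328.WordMain

/-- The set `Ω(r, c)`: the `m × n` matrices of nonnegative integers with row sums `r` and column
sums `c`. -/
def Omega {m n : ℕ} (r : Fin m → ℕ) (c : Fin n → ℕ) : Set (Matrix (Fin m) (Fin n) ℕ) :=
  {X | (∀ i, ∑ j, X i j = r i) ∧ ∀ j, ∑ i, X i j = c j}

/-- The word of a number over the alphabet `{0, 1, 2, 3}`: its binary digits (least significant
first), then the end mark `2`. -/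
def num (a : ℕ) : List (Fin 4) := (Nat.bits a).map (fun b => if b then 1 else 0) ++ [2]

/-- The input word: the row sums in binary, `3`, the column sums in binary, `3`, `E` in unary, `3`,
`D` in unary, `3`. -/
def word {m n : ℕ} (r : Fin m → ℕ) (c : Fin n → ℕ) (E D : ℕ) : List (Fin 4) :=
  ((List.ofFn r).flatMap num ++ [3]) ++ ((List.ofFn c).flatMap num ++ [3]) ++
    (List.replicate E 1 ++ [3]) ++ (List.replicate D 1 ++ [3])

open Vale.Agent.Lib.P328 Vale.Agent.Lib.P328.Words

theorem num_eq (a : ℕ) : num a = Words.num a := rfl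

theorem word_eq {m n : ℕ} (r : Fin m → ℕ) (c : Fin n → ℕ) (E D : ℕ) :
    word r c E D = (encInput ⟨List.ofFn r, List.ofFn c, E, D⟩).map ofSym := by
  have hf : ∀ v : List ℕ, (v.flatMap encNum).map ofSym = v.flatMap num := by
    intro v
    rw [List.map_flatMap]
    congr 1
    funext a
    exact (map_ofSym_encNum a).trans (num_eq a).symm
  unfold word encInput encVec encUn
  simp only [List.map_append, hf, List.map_replicate, List.map_cons, List.map_nil]
  rfl

theorem length_num (a : ℕ) : (num a).length = Nat.size a + 1 := by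
  unfold num
  rw [List.length_append, List.length_map, List.length_singleton, ← Nat.size_eq_bits_len]

theorem length_word {m n : ℕ} (r : Fin m → ℕ) (c : Fin n → ℕ) (E D : ℕ) :
    (word r c E D).length =
      m + ∑ i, Nat.size (r i) + n + ∑ j, Nat.size (c j) + E + D + 4 := by
  have hv : ∀ {k : ℕ} (v : Fin k → ℕ), ((List.ofFn v).flatMap num).length =
      k + ∑ i, Nat.size (v i) := by
    intro k v
    rw [List.length_flatMap, List.map_ofFn, List.sum_ofFn]
    simp only [Function.comp_apply, length_num, Finset.sum_add_distrib, Finset.sum_const,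
      Finset.card_univ, Fintype.card_fin, smul_eq_mul, mul_one]
    ring
  unfold word
  simp only [List.length_append, hv, List.length_replicate, List.length_singleton]
  ring

theorem tab_eq {m n : ℕ} (r : Fin m → ℕ) (c : Fin n → ℕ) :
    Nat.card (Omega r c) = (tab r c).card := by
  have h : Omega r c = (↑(tab r c) : Set (Fin m → Fin n → ℕ)) := by
    ext X
    simp only [tab, Finset.coe_filter, Set.mem_ofPred_eq, Omega, Fintype.mem_piFinset,
      Finset.mem_range]
    constructor
    · intro h
      refine ⟨fun i j => ?_, h⟩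
      have h1 := h.2 j
      have h2 : X i j ≤ ∑ i, X i j :=
        Finset.single_le_sum (f := fun i => X i j) (fun _ _ => Nat.zero_le _) (Finset.mem_univ i)
      omega
    · rintro ⟨-, h⟩
      exact h
  rw [Nat.card_coe_set_eq, h]
  exact Set.ncard_coe_finset (tab r c)

theorem card_tab_ofFn {m n : ℕ} (r : Fin m → ℕ) (c : Fin n → ℕ) :
    (tab (fun i : Fin (List.ofFn r).length => (List.ofFn r).get i)
      (fun j : Fin (List.ofFn c).length => (List.ofFn c).get j)).card = (tab r c).card := by
  have key : ∀ (m' n' : ℕ) (hm : m' = m) (hn : n' = n) (r' : Fin m' → ℕ) (c' : Fin n' → ℕ),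
      (∀ i, r' i = r (Fin.cast hm i)) → (∀ j, c' j = c (Fin.cast hn j)) →
      (tab r' c').card = (tab r c).card := by
    intro m' n' hm hn r' c' hr hc
    subst hm hn
    have e1 : r' = r := funext hr
    have e2 : c' = c := funext hc
    rw [e1, e2]
  exact key _ _ (List.length_ofFn) (List.length_ofFn) _ _
    (fun i => by simp only [List.get_ofFn]) (fun j => by simp only [List.get_ofFn])

/-- There is a function `F` on words over `{0, 1, 2, 3}` which is computed by a Turing machine (with
finitely many stacks) in time polynomial in the length of the word, and a polynomial `q`, such that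
for all `m, n ≥ 1`, all margins `r`, `c` with equal sums and all `ε, δ` in `(0, 1)`: if `w` is the
input word (of the length given in the first clause) and `ρ` is a string of `q |w|` independent fair
bits, then with probability at least `1 - δ` the output `F (w ρ)` is the word of two numbers `p`, `d`
with `(1 - ε) |Ω(r, c)| ≤ p / d ≤ (1 + ε) |Ω(r, c)|`. -/
theorem main_result :
    (∀ (m n : ℕ) (r : Fin m → ℕ) (c : Fin n → ℕ) (E D : ℕ), (word r c E D).length =
      m + ∑ i, Nat.size (r i) + n + ∑ j, Nat.size (c j) + E + D + 4) ∧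
    ∃ (F : List (Fin 4) → List (Fin 4)) (q : Polynomial ℕ),
      Nonempty (Turing.TM2ComputableInPolyTime id id F) ∧
      ∀ (m n : ℕ) (r : Fin m → ℕ) (c : Fin n → ℕ), 1 ≤ m → 1 ≤ n → ∑ i, r i = ∑ j, c j →
        ∀ ε δ : ℝ, 0 < ε → ε < 1 → 0 < δ → δ < 1 →
          ∀ w : List (Fin 4), w = word r c ⌈1 / ε⌉₊ ⌈Real.logb 2 (1 / δ)⌉₊ →
            ENNReal.ofReal (1 - δ) ≤
              (PMF.uniformOfFintype (Fin (q.eval w.length) → Bool)).toOuterMeasure
                {ρ | ∃ p d : ℕ,
                  F (w ++ (List.ofFn ρ).map (fun b => if b then 1 else 0)) = num p ++ num d ∧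
                  (1 - ε) * Nat.card (Omega r c) ≤ (p : ℝ) / d ∧
                  (p : ℝ) / d ≤ (1 + ε) * Nat.card (Omega r c)} := by
  classical
  refine ⟨fun m n r c E D => length_word r c E D, ?_⟩
  obtain ⟨a, ha⟩ := estimate_spec
  refine ⟨wordAlg a, bitsPoly a, wordAlg_poly a, ?_⟩
  intro m n r c hm hn hs ε δ hε0 hε1 hδ0 hδ1 w hw
  set E : ℕ := ⌈1 / ε⌉₊ with hEd
  set D : ℕ := ⌈Real.logb 2 (1 / δ)⌉₊ with hDd
  set x : Input := ⟨List.ofFn r, List.ofFn c, E, D⟩ with hx
  have hwx : w = (encInput x).map ofSym := by rw [hw, word_eq]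
  have hlen : w.length = (encInput x).length := by rw [hwx, List.length_map]
  have hE : 1 / ε ≤ (E : ℝ) := by rw [hEd]; exact Nat.le_ceil _
  have hE0 : 0 < (E : ℝ) := lt_of_lt_of_le (by positivity) hE
  have hE1 : 1 ≤ E := by exact_mod_cast hE0
  have hεE : 1 / (E : ℝ) ≤ ε := by
    rw [div_le_iff₀ hE0]
    rw [div_le_iff₀ hε0] at hE
    linarith [mul_comm ε (E : ℝ)]
  have hD : (1 / 2 : ℝ) ^ D ≤ δ := by
    have h1 : Real.logb 2 (1 / δ) ≤ (D : ℝ) := by rw [hDd]; exact Nat.le_ceil _
    rw [Real.logb_le_iff_le_rpow (by norm_num) (by positivity), Real.rpow_natCast] at h1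
    rw [div_le_iff₀ hδ0] at h1
    rw [one_div, inv_pow, inv_le_iff_one_le_mul₀ (by positivity)]
    linarith [mul_comm δ ((2 : ℝ) ^ D)]
  have hr0 : x.r ≠ [] := by
    intro h
    have := congrArg List.length h
    rw [hx] at this
    simp only [List.length_ofFn, List.length_nil] at this
    omega
  have hc0 : x.c ≠ [] := by
    intro h
    have := congrArg List.length h
    rw [hx] at this
    simp only [List.length_ofFn, List.length_nil] at this
    omega
  have hs' : x.r.sum = x.c.sum := by
    rw [hx]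
    simp only [List.sum_ofFn]
    exact hs
  have h := ha x hr0 hc0 hs' hE1
  rw [hlen]
  set k : ℕ := (bitsPoly a).eval (encInput x).length with hk
  have hcard : ((tab (fun i : Fin x.r.length => x.r.get i)
      (fun j : Fin x.c.length => x.c.get j)).card : ℝ) = (Nat.card (Omega r c) : ℝ) := by
    rw [tab_eq]
    exact_mod_cast card_tab_ofFn r c
  rw [hcard] at h
  have h2 : (1 - δ) * 2 ^ k ≤ (1 - (1 / 2 : ℝ) ^ D) * 2 ^ k :=
    mul_le_mul_of_nonneg_right (by linarith) (by positivity)
  have h3 := h2.trans h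
  rw [PMF.toOuterMeasure_uniformOfFintype_apply]
  have h4 : (Finset.univ.filter fun ρ : Fin k → Bool =>
        |((estimate a (x, List.ofFn ρ)).1 : ℝ) / ((estimate a (x, List.ofFn ρ)).2 : ℝ) -
          (Nat.card (Omega r c) : ℝ)| ≤ (Nat.card (Omega r c) : ℝ) / x.E).card ≤
      Fintype.card ({ρ : Fin k → Bool | ∃ p d : ℕ,
        wordAlg a (w ++ (List.ofFn ρ).map (fun b => if b then 1 else 0)) = num p ++ num d ∧
          (1 - ε) * (Nat.card (Omega r c) : ℝ) ≤ (p : ℝ) / d ∧
          (p : ℝ) / d ≤ (1 + ε) * (Nat.card (Omega r c) : ℝ)} : Set (Fin k → Bool)) := by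
    rw [← Set.toFinset_card]
    refine Finset.card_le_card ?_
    intro ρ hρ
    rw [Finset.mem_filter] at hρ
    rw [Set.mem_toFinset]
    refine ⟨(estimate a (x, List.ofFn ρ)).1, (estimate a (x, List.ofFn ρ)).2, ?_, ?_⟩
    · have e1 : w ++ (List.ofFn ρ).map (fun b => if b then 1 else 0) =
          (encIn (x, List.ofFn ρ)).map ofSym := by
        rw [hwx]
        unfold encIn
        rw [List.map_append, List.map_map]
        congr 1
        exact List.map_congr_left fun b _ => (ofSym_bit b).symm
      rw [e1, wordAlg_encIn]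
      rfl
    · have h5 := abs_le.1 hρ.2
      have h6 : (Nat.card (Omega r c) : ℝ) / x.E ≤ ε * (Nat.card (Omega r c) : ℝ) := by
        rw [div_eq_mul_one_div, mul_comm]
        exact mul_le_mul_of_nonneg_right hεE (Nat.cast_nonneg _)
      constructor
      · linarith [h5.1]
      · linarith [h5.2]
  have h7 : (1 - δ) * 2 ^ k ≤ (Fintype.card ({ρ : Fin k → Bool | ∃ p d : ℕ,
        wordAlg a (w ++ (List.ofFn ρ).map (fun b => if b then 1 else 0)) = num p ++ num d ∧
          (1 - ε) * (Nat.card (Omega r c) : ℝ) ≤ (p : ℝ) / d ∧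
          (p : ℝ) / d ≤ (1 + ε) * (Nat.card (Omega r c) : ℝ)} : Set (Fin k → Bool)) : ℝ) :=
    h3.trans (by exact_mod_cast h4)
  have hα : (Fintype.card (Fin k → Bool) : ENNReal) = ENNReal.ofReal (2 ^ k) := by
    rw [Fintype.card_fun, Fintype.card_bool, Fintype.card_fin, Nat.cast_pow,
      ENNReal.ofReal_pow (by norm_num)]
    norm_num
  rw [ENNReal.le_div_iff_mul_le (Or.inl (by rw [hα]; simp)) (Or.inl (by rw [hα]; simp)), hα,
    ← ENNReal.ofReal_mul (by linarith)]
  refine (ENNReal.ofReal_le_ofReal h7).trans (le_of_eq ?_)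
  rw [ENNReal.ofReal_natCast]

end Vale.Agent.Lib.P328.WordMain
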